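import Vale.Agent.P338Z.Gen.Defs
import Vale.Agent.P338.R3.H121.Par

/-!
P338 power saving: the complex network, the fast Hadamard step, costs (definitions and statements).
-/

namespace Vale.Agent.P338Z

open Vale.Agent.Lib.PolyTime (PT Enc esize PBd Un)
open Vale.Agent.P338.R3.H968 Vale.Agent.P338.R3.H898
open Vale.Agent.P338.R3.H313 (PV KP)
open Vale.Agent.P338.R3.H282 (upF dnF)
open Vale.Agent.P338.R3.H501.Rad (aR)
open Vale.Agent.P338.R3.H121 (cpar)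

/-! ### The complex network -/

/-- The complex array on the selected bits, for a role `t` and the other digits `δ`. -/
noncomputable def vir (L : Lay) (F : ℕ → Cell) (t : ℕ) (δ : ℕ → ℕ) :
    (Fin L.K → ZMod 2) → ℕ → ℂ :=
  fun x j => (F (L.ad t (L.put δ x)) j : ℂ) + Complex.I * (F (L.ad t (L.put δ x) + 1) j : ℂ)

/-- The square root of the translation by `y` (`n`: its inverse). -/
noncomputable def cop {K : ℕ} (n : Bool) (y : Fin K → ZMod 2) (f : (Fin K → ZMod 2) → ℕ → ℂ) :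
    (Fin K → ZMod 2) → ℕ → ℂ :=
  fun x j => (1 + (bif n then -1 else 1) * Complex.I) / 2 * f x j +
    (1 - (bif n then -1 else 1) * Complex.I) / 2 * f (x + y) j

/-- Unit vectors. -/
def uv (K k : ℕ) : Fin K → ZMod 2 := fun k' => if (k' : ℕ) = k then 1 else 0

/-- Number of calls of the complex network. -/
def Nets.c1 (ν : Nets) : ℕ := (ν.cp.filter fun c => decide (c.1 = 1)).length

/-- Number of gates with a factor one half. -/
def Nets.c0 (ν : Nets) : ℕ := (ν.cp.filter fun c => decide (c.1 = 0) && c.2.2.2.2.1).length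

/-- The exponent of the scale. -/
def gam (ν : Nets) : ℕ → ℕ
  | 0 => 1
  | i + 1 => ν.c1 * gam ν i + ν.c0

/-- Context: inverse, size of the block, first selected bit, number of bits, scale of the
constants, layout. -/
abbrev CC : Type := Bool × ℕ × ℕ × Un × ℕ × Lay

/-- The bit of weight `B` has the value `v`. -/
def selB (B v : ℕ) : Sel := selEq (fl B 2) v

/-- One bit of weight `B`: twice the square root of the exchange. -/
def sqL (n : Bool) (sh N B : ℕ) : List Ps :=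
  [pDia sh N (selB B 1) [] [(1, 0), (0, bif n then 1 else -1)]] ++
  (accL 0 N (N / 2) (selB B 1) (selB B 0) ++
  ([pDia sh N (selB B 1) [] [(1, 0), (-2, 0)]] ++
  (accL 0 N (N / 2) (selB B 0) (selB B 1) ++
  [pDia sh N (selB B 1) [] [(1, bif n then -1 else 1), (1, bif n then 1 else -1)]])))

/-- One bit. -/
def baseC (c : CC) : List Ps :=
  sqL c.1 c.2.2.2.2.1 c.2.1 (c.2.2.2.2.2.B (c.2.2.2.2.2.fb c.2.2.1))

/-- The last index with the entry `true`. -/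
def uHi (u : List Bool) : ℕ := ((List.range u.length).filter fun k => u.getD k false).getLastD 0

/-- The change of the basis: the groups `b < uHi u` in `u` get the group `uHi u`. -/
def tgC (u : List Bool) (k0 n : ℕ) : List (ℕ × Option ℕ) :=
  ((List.range (uHi u)).filter fun b => u.getD b false).flatMap fun b =>
    (List.range n).map fun c => (k0 + b * n + c, some (k0 + uHi u * n + c))

/-- The translation by `u`. -/
def tgF (u : List Bool) (k0 n : ℕ) : List (ℕ × Option ℕ) :=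
  ((List.range u.length).filter fun b => u.getD b false).flatMap fun b =>
    (List.range n).map fun c => (k0 + b * n + c, none)

/-- A gate on a block of `N` cells with wires of `N'` cells. -/
def gateL (sh N N' i j : ℕ) (n h : Bool) : List Ps :=
  bif h then
    [pDia sh N (selW N' j) [] [(2, 0), (1, 0)]] ++
    (accL (bif n then 1 else 0) N N' (selW N' j) (selW N' i) ++
    [pDia sh N (selW N' j) [] [(1, 0), (2, 0)]])
  else accL (bif n then 1 else 0) N N' (selW N' j) (selW N' i)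

/-- One instruction of the complex network. -/
def insC (ν : Nets) (c : CC) (x : CI) : List (Option CC × List Ps) :=
  if x.1 = 0 then
    [(none, gateL c.2.2.2.2.1 c.2.1 (c.2.1 / 2 ^ ν.r) x.2.1 x.2.2.1 x.2.2.2.1 x.2.2.2.2.1)]
  else if x.1 = 1 then
    [(none, [pMv true (x.2.1 * (c.2.1 / 2 ^ ν.r))] ++
      xorL ν c.2.2.2.2.2 c.2.2.2.1.v (c.2.1 / 2 ^ ν.r)
        (c.2.2.1 + uHi x.2.2.2.2.2 * (c.2.2.2.1.v / ν.m) - 1)
        (tgC x.2.2.2.2.2 c.2.2.1 (c.2.2.2.1.v / ν.m))),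
    (some (xor c.1 x.2.2.2.1, c.2.1 / 2 ^ ν.r, c.2.2.1 + uHi x.2.2.2.2.2 * (c.2.2.2.1.v / ν.m),
      ⟨c.2.2.2.1.v / ν.m⟩, c.2.2.2.2.1, c.2.2.2.2.2), []),
    (none, xorL ν c.2.2.2.2.2 c.2.2.2.1.v (c.2.1 / 2 ^ ν.r)
        (c.2.2.1 + uHi x.2.2.2.2.2 * (c.2.2.2.1.v / ν.m) - 1)
        (tgC x.2.2.2.2.2 c.2.2.1 (c.2.2.2.1.v / ν.m)) ++
      ([pMv false (x.2.1 * (c.2.1 / 2 ^ ν.r))] ++
      [pDia c.2.2.2.2.1 c.2.1 (selW (c.2.1 / 2 ^ ν.r) x.2.1) []
        [(2 ^ gam ν (lg ν.m (c.2.2.2.1.v / ν.m)), 0), (1, 0)]]))]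
  else
    [(none, subL (x.2.1 * (c.2.1 / 2 ^ ν.r))
      (xorL ν c.2.2.2.2.2 c.2.2.2.1.v (c.2.1 / 2 ^ ν.r) (c.2.2.1 + c.2.2.2.1.v - 1)
        (tgF x.2.2.2.2.2 c.2.2.1 (c.2.2.2.1.v / ν.m))))]

/-- The square roots of the exchange on `m ^ i` consecutive selected bits. -/
def genC (ν : Nets) : ℕ → CC → List Ps := tree baseC fun c => ν.cp.flatMap (insC ν c)

/-- One bit of weight `B` in pairs of cells (real and imaginary part). -/
def SQ : Prop := ∀ (P : CPar) (n : Bool) (O B : ℕ), P.Ok → P.s + 3 ≤ P.b → 0 < B →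
  Blk P (sqL n P.s (O * (2 * (2 * B))) (2 * B)) (O * (2 * (2 * B))) fun F F' =>
    ∀ o < O, ∀ x < 2, ∀ i < B, ∀ j,
      (F' ((o * 2 + x) * (2 * B) + 2 * i) j : ℂ) +
          Complex.I * F' ((o * 2 + x) * (2 * B) + 2 * i + 1) j =
        (1 + (bif n then -1 else 1) * Complex.I) * ((F ((o * 2 + x) * (2 * B) + 2 * i) j : ℂ) +
          Complex.I * F ((o * 2 + x) * (2 * B) + 2 * i + 1) j) +
        (1 - (bif n then -1 else 1) * Complex.I) *
          ((F ((o * 2 + (1 - x)) * (2 * B) + 2 * i) j : ℂ) +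
          Complex.I * F ((o * 2 + (1 - x)) * (2 * B) + 2 * i + 1) j)

/-- Gates: wire `i` += `± 1` or `± 1 / 2` times wire `j`; everything is doubled in the second
case. -/
def GATE : Prop := ∀ (P : CPar) (W N' i j : ℕ) (n h : Bool), P.Ok → P.s + 3 ≤ P.b → 2 ∣ N' →
  0 < N' → i < W → j < W → j ≠ i →
  Blk P (gateL P.s (W * N') N' i j n h) (W * N') fun F F' => ∀ w < W, ∀ v < N', ∀ k,
    F' (w * N' + v) k = (bif h then 2 else 1) * F (w * N' + v) k +
      if w = i then (bif n then -1 else 1) * F (j * N' + v) k else 0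

/-- The frames act on the functions of `K` bits: `n` copies of `m` coordinates, the coordinate `a`
of the copy `c` is the bit `k0 + a * n + c`. -/
def FRM : Prop := ∀ (K m n k0 : ℕ), k0 + m * n ≤ K → ∀ ng : Bool,
  ∃ Φ : ((Fin m → ZMod 2) → ZMod 4) →
      ((Fin K → ZMod 2) → ℕ → ℂ) →ₗ[ℂ] ((Fin K → ZMod 2) → ℕ → ℂ),
    (∀ z, Φ 0 z = z) ∧ (∀ g g' z, Φ (g + g') z = Φ g (Φ g' z)) ∧
    (∀ (u : List Bool) (s : Bool) z, Φ (if s then -qa m u else qa m u) z =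
      (List.range n).foldr (fun c => cop (xor ng s)
        (∑ a : Fin m, if u.getD a false then uv K (k0 + a * n + c) else 0)) z) ∧
    (∀ (u : List Bool) z x, Φ (qa m u + qa m u) z x =
      z (x + ∑ c : Fin n, ∑ a : Fin m, if u.getD a false then uv K (k0 + a * n + c) else 0)) ∧
    ∀ z, Φ (qfull m) z = (List.range (m * n)).foldr (fun c => cop ng (uv K (k0 + c))) z

/-- **The complex network.** -/
def CREC (ν : Nets) : Prop := ∀ (P : CPar) (L : Lay) (i : ℕ) (n : Bool) (k0 T : ℕ), P.Ok →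
  L.Ok ν.Δ → k0 + ν.m ^ i ≤ L.K → (∀ i' ≤ i, P.s + gam ν i' + 2 ≤ P.b) →
  Blk P (genC ν i (n, 2 ^ (ν.r * (2 * i)) * T * L.N, k0, ⟨ν.m ^ i⟩, P.s, L))
    (2 ^ (ν.r * (2 * i)) * T * L.N) fun F F' =>
    ∀ t < 2 ^ (ν.r * (2 * i)) * T, ∀ δ, L.Real δ → δ 0 % 2 = 0 →
      vir L F' t δ = (2 : ℂ) ^ gam ν i •
        (List.range (ν.m ^ i)).foldr (fun c => cop n (uv L.K (k0 + c))) (vir L F t δ)

/-! ### The Hadamard steps -/

/-- The butterfly on the bit `p`. -/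
def hF (p : ℕ) (F : ℕ → Cell) (u : ℕ) : Cell :=
  if u.testBit p then cSub (F (u - 2 ^ p)) (F u) else cAdd (F u) (F (u + 2 ^ p))

/-- Cells with the bit `p` equal to one += the cells with this bit zero. -/
def upL (N p : ℕ) : List Ps := accL 0 N (N / 2) (selB (2 ^ p) 0) (selB (2 ^ p) 1)

/-- Cells with the bit `p` equal to zero += the cells with this bit one. -/
def dnL (N p : ℕ) : List Ps := accL 0 N (N / 2) (selB (2 ^ p) 1) (selB (2 ^ p) 0)

/-- The butterfly by three passes. -/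
def naiL (sh N p : ℕ) : List Ps :=
  dnL N p ++ ([pDia sh N (selB (2 ^ p) 1) [] [(1, 0), (-2, 0)]] ++ upL N p)

/-- The steps on one bit. -/
def NAI : Prop := ∀ (P : CPar) (n p : ℕ), p < n →
  (Blk P (upL (2 ^ n) p) (2 ^ n) fun F F' => ∀ u < 2 ^ n, F' u = upF p F u) ∧
  (Blk P (dnL (2 ^ n) p) (2 ^ n) fun F F' => ∀ u < 2 ^ n, F' u = dnF p F u) ∧
  (P.Ok → P.s + 3 ≤ P.b → 1 ≤ p →
    Blk P (naiL P.s (2 ^ n) p) (2 ^ n) fun F F' => ∀ u < 2 ^ n, F' u = hF p F u)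

/-- The widths of the gaps above the positions `ps`; `top` is the end of the last gap. -/
def gaps (ps : List ℕ) (top : ℕ) : List ℕ :=
  (List.range ps.length).map fun k => ps.getD (k + 1) top - ps.getD k 0 - 1

/-- The radix of the auxiliary digits of `r` bits. -/
def radR (Δ r : ℕ) : ℕ := (2 ^ r / Δ + 1) * Δ + 1

/-- The layout for the positions `ps` in addresses of `n` bits with `ρ` role bits. -/
def mkLay (Δ r n ρ : ℕ) (ps : List ℕ) : Lay :=
  (⟨ps.length⟩, radR Δ r,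
    [4] ++ (List.replicate ps.length (radR Δ r) ++ ([2 ^ (ps.headD 0 - (2 + ps.length * r))] ++
      (((gaps ps (n - ρ - ps.length * r)).flatMap fun g => [2, 2 ^ g + radR Δ r]) ++
      List.replicate ps.length (radR Δ r)))),
    [4] ++ (List.replicate ps.length (2 ^ r) ++ ([2 ^ (ps.headD 0 - (2 + ps.length * r))] ++
      (((gaps ps (n - ρ - ps.length * r)).flatMap fun g => [2, 2 ^ g]) ++
      List.replicate ps.length (2 ^ r)))))

/-- The cells below `k`. -/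
def selLt (k : ℕ) : Sel := [(false, [(1, [fl 1 0])], 0, [(k, [])], 0)]

/-- The cells below `N` whose digits are not padding. -/
def selRe (L : Lay) (N : ℕ) : Sel :=
  selLt N ++ (List.range L.nf).map fun f =>
    (false, [(1, [fl (L.B f) (L.q f)])], 0, [(L.e f, [])], 0)

/-- The number of selected bits equal to one. -/
def popE (L : Lay) : Pl := (List.range L.K).map fun k => (1, [fl (L.B (L.fb k)) 2])

/-- The powers of `i` times `c`. -/
def tabI (c : ℤ) : List (ℤ × ℤ) := [(1, 0), (c, 0), (0, c), (-c, 0), (0, -c)]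

/-- The scaled butterflies in the padded layout. -/
def hmid (ν : Nets) (sh ρ j : ℕ) (L : Lay) : List Ps :=
  [pDia sh (2 ^ ρ * L.N) [] (popE L) (tabI 1)] ++
    (genC ν j (false, 2 ^ ρ * L.N, 0, ⟨L.K⟩, sh, L) ++
    [pDia sh (2 ^ ρ * L.N) [] (popE L) (tabI (2 ^ (L.K / 2)))])

/-- The butterflies on the `m ^ j` selected bits of the layout. -/
def hgrp (ν : Nets) (sh n ρ j : ℕ) (L : Lay) : List Ps :=
  relL (4 * 2 ^ n) (2 ^ n) (selLt (2 ^ n)) (selRe L (2 ^ ρ * L.N)) ++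
  (subL 0 (hmid ν sh ρ j L) ++
  (relL (4 * 2 ^ n) (2 ^ n) (selRe L (2 ^ ρ * L.N)) (selLt (2 ^ n)) ++
  subL 0 [pDia (sh - gam ν j) (2 ^ n) [] [] []]))

/-- The digits without padding of an address. -/
def Lay.dg (L : Lay) (u f : ℕ) : ℕ := u / (L.2.2.2.take f).prod % L.e f

/-- The padded address. -/
def Lay.pad (L : Lay) (u : ℕ) : ℕ := L.ad (u / L.2.2.2.prod) (L.dg u)

/-- The layout of good positions: conditions, size, position of the selected bits. -/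
def LAY : Prop := ∀ (Δ r n ρ G : ℕ) (ps : List ℕ), 0 < Δ → ps ≠ [] →
  ps.Pairwise (fun p p' => p + G < p') → (∀ p ∈ ps, 2 + ps.length * r ≤ p ∧
    p + G + ps.length * r + ρ < n) → 8 * ps.length * (Δ + 1) ≤ 2 ^ r →
  ps.length * 2 ^ (r + 3) ≤ 2 ^ G →
  (mkLay Δ r n ρ ps).Ok Δ ∧ (mkLay Δ r n ρ ps).K = ps.length ∧
  2 ^ ρ * (mkLay Δ r n ρ ps).N ≤ 4 * 2 ^ n ∧ 2 ^ ρ * (mkLay Δ r n ρ ps).2.2.2.prod = 2 ^ n ∧
  ∀ k < ps.length, ((mkLay Δ r n ρ ps).2.2.2.take ((mkLay Δ r n ρ ps).fb k)).prod =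
    2 ^ ps.getD k 0

/-- Padding: the real addresses in increasing order. -/
def PAD : Prop := ∀ (Δ T M : ℕ) (L : Lay), L.Ok Δ → T * L.N ≤ M →
  Enum M (T * L.2.2.2.prod) (selRe L (T * L.N)) L.pad

/-- The Hadamard transform on the selected bits in the padded layout. -/
def HMID (ν : Nets) : Prop := ∀ (P : CPar) (L : Lay) (j : ℕ), P.Ok → L.Ok ν.Δ → 1 ≤ j →
  L.K = ν.m ^ j → (∀ i ≤ j, P.s + gam ν i + 2 ≤ P.b) → P.s + L.K + 2 ≤ P.b →
  Blk P (hmid ν P.s (ν.r * (2 * j)) j L) (2 ^ (ν.r * (2 * j)) * L.N) fun F F' =>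
    ∀ t < 2 ^ (ν.r * (2 * j)), ∀ δ, L.Real δ → ∀ (x : Fin L.K → ZMod 2) (k : ℕ),
      F' (L.ad t (L.put δ x)) k = 2 ^ gam ν j *
        ∑ y : Fin L.K → ZMod 2, (if ∑ c, x c * y c = 0 then 1 else -1) * F (L.ad t (L.put δ y)) k

/-- **One group of butterflies.** -/
def HG (ν : Nets) : Prop := ∀ (P : CPar) (r n G j β : ℕ) (ps : List ℕ), P.Ok → 1 ≤ j →
  ps.length = ν.m ^ j → ps.Pairwise (fun p p' => p + G < p') →
  (∀ p ∈ ps, 2 + ps.length * r ≤ p ∧ p + G + ps.length * r + ν.r * (2 * j) < n) →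
  8 * ps.length * (ν.Δ + 1) ≤ 2 ^ r → ps.length * 2 ^ (r + 3) ≤ 2 ^ G →
  (∀ i ≤ j, P.s + gam ν i + 2 ≤ P.b) → P.s + ps.length + 2 ≤ P.b → gam ν j ≤ P.s →
  β + ps.length + gam ν j + 2 ≤ P.b →
  Blk P (hgrp ν P.s n (ν.r * (2 * j)) j (mkLay ν.Δ r n (ν.r * (2 * j)) ps)) (4 * 2 ^ n)
    fun F F' => (∀ u < 2 ^ n, ∀ k < P.nw, |F u k| ≤ 2 ^ β) →
      (∀ u < 2 ^ n, F' u = ps.foldr hF F u) ∧ ∀ u, 2 ^ n ≤ u → u < 4 * 2 ^ n → F' u = cZero

/-- The depth of the recursion. -/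
def dep (ν : Nets) (d : ℕ) : ℕ := lg ν.S d / 2

/-- The width of the auxiliary digits. -/
def wid (ν : Nets) (d : ℕ) : ℕ := Nat.size (8 * ν.m ^ dep ν d * (ν.Δ + 1))

/-- There is enough room. -/
def good (ν : Nets) (d : ℕ) : Bool :=
  decide (1 ≤ dep ν d) && (decide (ν.m ^ dep ν d * wid ν d + ν.r * (2 * dep ν d) ≤ d) &&
    decide (wid ν d + 3 + Nat.size (ν.m ^ dep ν d) ≤ d))

/-- The position of the bit `t` of the digit `i` in the address of a cell. -/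
def bpos (p : PV) (t i : ℕ) : ℕ := min (aR p.d * i + t + 2) (KP p + 2)

/-- The inner digits. -/
def inner (p : PV) (J : List ℕ) : List ℕ := J.filter fun i => decide (1 ≤ i) && decide (i + 1 < p.d)

/-- The two outer digits. -/
def outer (p : PV) (J : List ℕ) : List ℕ :=
  J.filter fun i => !(decide (1 ≤ i) && decide (i + 1 < p.d))

/-- The number of groups. -/
def ngr (ν : Nets) (p : PV) (J : List ℕ) : ℕ :=
  bif good ν p.d then (inner p J).length / ν.m ^ dep ν p.d else 0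

/-- **The fast Hadamard step** on the bit `t` of the digits `J`; the block consists of the array
of `2 ^ (KP p + 2)` cells and three times as many zero cells. -/
def fastH (ν : Nets) (p : PV) (t : ℕ) (J : List ℕ) : List Ps :=
  ((List.range (ngr ν p J)).flatMap fun g =>
    hgrp ν (Vale.Agent.P338.R3.H121.sc p.d p.s p.y) (KP p + 2) (ν.r * (2 * dep ν p.d)) (dep ν p.d)
      (mkLay ν.Δ (wid ν p.d) (KP p + 2) (ν.r * (2 * dep ν p.d))
        ((((inner p J).drop (g * ν.m ^ dep ν p.d)).take (ν.m ^ dep ν p.d)).map (bpos p t)))) ++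
  ((inner p J).drop (ngr ν p J * ν.m ^ dep ν p.d) ++ outer p J).flatMap fun i =>
    subL 0 (naiL (Vale.Agent.P338.R3.H121.sc p.d p.s p.y) (2 ^ (KP p + 2)) (bpos p t i))

/-- The fast step is correct. -/
def FH (ν : Nets) : Prop := ∀ (p : PV) (t β : ℕ) (J : List ℕ), p.d + 1 ≤ p.s → t < aR p.d →
  J.Pairwise (· < ·) → (∀ i ∈ J, i < p.d) → β + 3 * p.d + 8 ≤ (cpar p.d p.s p.y).b →
  Blk (cpar p.d p.s p.y) (fastH ν p t J) (4 * 2 ^ (KP p + 2)) fun F F' =>
    (∀ u < 2 ^ (KP p + 2), ∀ k < (cpar p.d p.s p.y).nw, |F u k| ≤ 2 ^ β) →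
    (∀ u, 2 ^ (KP p + 2) ≤ u → u < 4 * 2 ^ (KP p + 2) → F u = cZero) →
    (∀ u < 2 ^ (KP p + 2), F' u = (J.map fun i => aR p.d * i + t + 2).foldr hF F u) ∧
      ∀ u, 2 ^ (KP p + 2) ≤ u → u < 4 * 2 ^ (KP p + 2) → F' u = cZero

/-! ### Costs -/

/-- The gain of one level. -/
noncomputable def rho : ℝ := 1 - 1 / 2 ^ 77

/-- The gain of half a level. -/
noncomputable def tht : ℝ := 1 - 1 / 2 ^ 79

/-- Cost of the shear. -/
def UCOST (ν : Nets) : Prop := ∃ C : ℝ, 0 < C ∧ ∀ (i : ℕ) (ε : Bool) (T BH BD Q : ℕ), 0 < T →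
  (sz (genU ν i (ε, 2 ^ (ν.r * i) * T, BH, BD, Q, ⟨ν.m ^ i⟩)) : ℝ) ≤
    C * (2 ^ (ν.r * i) * T) * ((rho * ν.m) ^ i * (Nat.size Q + 1) + (i + 1) * ν.m ^ i)

/-- Cost of the addition of selected bits. -/
def XCOST (ν : Nets) : Prop := ∃ C : ℝ, 0 < C ∧ ∀ (L : Lay) (i T km : ℕ)
  (tg : List (ℕ × Option ℕ)), 0 < T →
  (sz (xorL ν L (ν.m ^ i) (2 ^ (ν.r * i) * T) km tg) : ℝ) ≤
    C * (2 ^ (ν.r * i) * T) * ((tht * ν.m) ^ i * (i + 1) * (Nat.size L.R + 1))

/-- Cost of the complex network. -/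
def CCOST (ν : Nets) : Prop := ∃ C : ℝ, 0 < C ∧ ∀ (L : Lay) (i T k0 sh : ℕ) (n : Bool), 0 < T →
  (sz (genC ν i (n, 2 ^ (ν.r * (2 * i)) * T, k0, ⟨ν.m ^ i⟩, sh, L)) : ℝ) ≤
    C * (2 ^ (ν.r * (2 * i)) * T) * ((tht * ν.m) ^ i * (i + 1) ^ 2 * (Nat.size L.R + 1))

/-- Cost of the fast step. -/
def FCOST (ν : Nets) : Prop := ∃ C : ℝ, 0 < C ∧ ∀ (p : PV) (t : ℕ) (J : List ℕ), p.d + 1 ≤ p.s →
  t < aR p.d → J.Pairwise (· < ·) → (∀ i ∈ J, i < p.d) →
  (sz (fastH ν p t J) : ℝ) ≤ C * 2 ^ KP p * (((p.d : ℝ) + 1) ^ (1 / 8 : ℝ) + 1 +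
    J.length * ((p.d : ℝ) + 1) ^ (-(1 / 2 ^ 87 : ℝ)))

/-! ### Polynomial time -/

/-- The shear. -/
def UPT (ν : Nets) : Prop := ∀ {α : Type} [Enc α] {k : α → ℕ} {c : α → UC}, PT ∅ k → PT ∅ c →
  PBd (fun a => ν.m ^ k a) → PT ∅ fun a => genU ν (k a) (c a)

/-- The addition of selected bits. -/
def XPT (ν : Nets) : Prop := ∀ {α : Type} [Enc α] {L : α → Lay} {n N km : α → ℕ}
  {tg : α → List (ℕ × Option ℕ)}, PT ∅ L → PT ∅ n → PBd n → PT ∅ N → PT ∅ km → PT ∅ tg →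
  PT ∅ fun a => xorL ν (L a) (n a) (N a) (km a) (tg a)

/-- The complex network. -/
def CPT (ν : Nets) : Prop := ∀ {α : Type} [Enc α] {k : α → ℕ} {c : α → CC}, PT ∅ k → PT ∅ c →
  PBd (fun a => ν.m ^ k a) → PT ∅ fun a => genC ν (k a) (c a)

/-- The fast step. -/
def FPT (ν : Nets) : Prop := ∀ {α : Type} [Enc α] {p : α → PV} {t : α → ℕ} {J : α → List ℕ},
  PT ∅ p → PT ∅ t → PT ∅ J → PT ∅ fun a => fastH ν (p a) (t a) (J a)

end Vale.Agent.P338Z
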