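import Vale.Agent.P338Z.Gen.CostU
import Vale.Agent.P338Z.Gen.Top

/-!
P338 power saving: the sizes of the lists of passes (2): the complex network, one group.
-/

namespace Vale.Agent.P338Z

open Vale.Agent.Lib.PolyTime (Un)

namespace Cost

theorem sz_pDia (sh N : ℕ) (s : Sel) (e : Pl) (tab : List (ℤ × ℤ)) :
    sz [pDia sh N s e tab] = N + 1 := by simp [pDia]

theorem sz_sqL (n : Bool) (sh N B : ℕ) : sz (sqL n sh N B) ≤ 8 * N + 9 := by
  simp only [sqL, sz_append, sz_pDia, sz_accL]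
  omega

theorem sz_gateL (sh N N' i j : ℕ) (n h : Bool) : sz (gateL sh N N' i j n h) ≤ 4 * N + N' + 5 := by
  unfold gateL
  cases h
  · simp only [cond_false, sz_accL]
    omega
  · simp only [cond_true, sz_append, sz_pDia, sz_accL]
    omega

theorem sz_naiL (sh N p : ℕ) : sz (naiL sh N p) ≤ 6 * N + 7 := by
  simp only [naiL, dnL, upL, sz_append, sz_pDia, sz_accL]
  omega

theorem le_div_pow2 {r i N : ℕ} (h : 2 ^ (r * (2 * (i + 1))) ≤ N) :
    2 ^ (r * (i + 1)) ≤ N / 2 ^ r ∧ 2 ^ (r * (2 * i)) ≤ N / 2 ^ r := by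
  have h1 : 2 ^ (r * (2 * i + 1)) ≤ N / 2 ^ r := le_div_pow (i := 2 * i + 1) h
  exact ⟨le_trans (Nat.pow_le_pow_right (by norm_num) (Nat.mul_le_mul_left _ (by omega))) h1,
    le_trans (Nat.pow_le_pow_right (by norm_num) (Nat.mul_le_mul_left _ (by omega))) h1⟩

/-- The context of a call. -/
def callC (ν : Nets) (c : CC) (x : CI) : CC :=
  (xor c.1 x.2.2.2.1, c.2.1 / 2 ^ ν.r, c.2.2.1 + uHi x.2.2.2.2.2 * (c.2.2.2.1.v / ν.m),
    ⟨c.2.2.2.1.v / ν.m⟩, c.2.2.2.2.1, c.2.2.2.2.2)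

theorem sz_insC {ν : Nets} (h : ν.Ok) (c : CC) {X : ℝ} (hX0 : 0 ≤ X)
    (hN : 1 ≤ c.2.1 / 2 ^ ν.r) (hX : ∀ km tg,
      (sz (xorL ν c.2.2.2.2.2 c.2.2.2.1.v (c.2.1 / 2 ^ ν.r) km tg) : ℝ) ≤ X)
    (g : CC → List Ps) {x : CI} (hx : x ∈ ν.cp) :
    (sz ((insC ν c x).flatMap fun y => y.1.elim y.2 g) : ℝ) ≤ (10 * c.2.1 + 2 * X) +
      if decide (x.1 = 1) then (sz (g (callC ν c x)) : ℝ) else 0 := by
  have h2 : c.2.1 / 2 ^ ν.r ≤ c.2.1 := Nat.div_le_self _ _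
  have w1 : x.2.1 * (c.2.1 / 2 ^ ν.r) ≤ c.2.1 :=
    (Nat.mul_le_mul_right _ (h.c.wire x hx).1.le).trans (Nat.mul_div_le _ _)
  have w2 : ((x.2.1 * (c.2.1 / 2 ^ ν.r) : ℕ) : ℝ) ≤ c.2.1 := by exact_mod_cast w1
  have w3 : (1 : ℝ) ≤ c.2.1 := by exact_mod_cast hN.trans h2
  unfold insC
  by_cases h0 : x.1 = 0
  · have h3 := sz_gateL c.2.2.2.2.1 c.2.1 (c.2.1 / 2 ^ ν.r) x.2.1 x.2.2.1 x.2.2.2.1 x.2.2.2.2.1
    have h4 : sz (gateL c.2.2.2.2.1 c.2.1 (c.2.1 / 2 ^ ν.r) x.2.1 x.2.2.1 x.2.2.2.1 x.2.2.2.2.1) ≤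
        10 * c.2.1 := by omega
    have h5 : (sz (gateL c.2.2.2.2.1 c.2.1 (c.2.1 / 2 ^ ν.r) x.2.1 x.2.2.1 x.2.2.2.1
        x.2.2.2.2.1) : ℝ) ≤ 10 * c.2.1 := by exact_mod_cast h4
    rw [if_pos h0, if_neg (by simp [h0])]
    simp only [List.flatMap_cons, List.flatMap_nil, Option.elim, List.append_nil]
    linarith
  · by_cases h1 : x.1 = 1
    · have h3 := hX (c.2.2.1 + uHi x.2.2.2.2.2 * (c.2.2.2.1.v / ν.m) - 1)
        (tgC x.2.2.2.2.2 c.2.2.1 (c.2.2.2.1.v / ν.m))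
      rw [if_neg h0, if_pos h1, if_pos (by simp [h1])]
      simp only [List.flatMap_cons, List.flatMap_nil, Option.elim, List.append_nil, sz_append,
        sz_pMv, sz_pDia, callC, Nat.cast_add, Nat.cast_one]
      linarith
    · have h3 := hX (c.2.2.1 + c.2.2.2.1.v - 1) (tgF x.2.2.2.2.2 c.2.2.1 (c.2.2.2.1.v / ν.m))
      rw [if_neg h0, if_neg h1, if_neg (by simp [h1])]
      simp only [List.flatMap_cons, List.flatMap_nil, Option.elim, List.append_nil, sz_subL,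
        Nat.cast_add, Nat.cast_mul 2, Nat.cast_ofNat]
      linarith

/-- The constant of the complex network. -/
noncomputable def cC (ν : Nets) : ℝ :=
  17 + ν.S * (10 + 2 * cX ν) * muX ν / (muX ν - lamR ν.r ν.m)

theorem cC_ge {ν : Nets} (h : ν.Ok) : 17 ≤ cC ν := by
  have h1 := lamR_pos h
  have h2 := lamR_lt_muX h
  have h3 : 0 < muX ν - lamR ν.r ν.m := by linarith
  have h4 : 0 < muX ν := by linarith
  exact le_add_of_nonneg_right (by positivity)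

theorem cC_step {ν : Nets} (h : ν.Ok) :
    ν.S * (10 + 2 * cX ν) * muX ν + lamR ν.r ν.m * cC ν ≤ cC ν * muX ν := by
  have h2 := lamR_lt_muX h
  have h3 : 0 < muX ν - lamR ν.r ν.m := by linarith
  have h4 : cC ν * (muX ν - lamR ν.r ν.m) =
      17 * (muX ν - lamR ν.r ν.m) + ν.S * (10 + 2 * cX ν) * muX ν := by
    unfold cC
    field_simp
  linarith

/-- **The size of the complex network.** -/
theorem sz_genC {ν : Nets} (h : ν.Ok) (i : ℕ) : ∀ c : CC, 2 ^ (ν.r * (2 * i)) ≤ c.2.1 →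
    c.2.2.2.1.v = ν.m ^ i → (sz (genC ν i c) : ℝ) ≤
      cC ν * ((Nat.size c.2.2.2.2.2.R + 1) * muX ν ^ i) * c.2.1 := by
  have hl := lamR_pos h
  have hmu := lamR_lt_muX h
  have hC := cC_ge h
  induction i with
  | zero =>
    intro c hN _
    have h1 : 1 ≤ c.2.1 := le_trans Nat.one_le_two_pow hN
    have h2 : sz (genC ν 0 c) ≤ 8 * c.2.1 + 9 := sz_sqL _ _ _ _
    have h3 : sz (genC ν 0 c) ≤ 17 * c.2.1 := by omega
    have h4 : (sz (genC ν 0 c) : ℝ) ≤ 17 * c.2.1 := by exact_mod_cast h3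
    refine h4.trans (mul_le_mul_of_nonneg_right ?_ (Nat.cast_nonneg _))
    have h5 : (0 : ℝ) ≤ Nat.size c.2.2.2.2.2.R := Nat.cast_nonneg _
    rw [pow_zero, mul_one]
    exact hC.trans (le_mul_of_one_le_right (by linarith) (by linarith))
  | succ i ih =>
    intro c hN hn
    obtain ⟨hN1, hN2⟩ := le_div_pow2 hN
    obtain ⟨Y, hY⟩ : ∃ Y : ℝ, Y = (Nat.size c.2.2.2.2.2.R + 1) * muX ν ^ i := ⟨_, rfl⟩
    have hY1 : 1 ≤ Y := by
      have h5 : (0 : ℝ) ≤ Nat.size c.2.2.2.2.2.R := Nat.cast_nonneg _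
      rw [hY]
      exact one_le_mul_of_one_le_of_one_le (by linarith) (one_le_pow₀ (by linarith))
    have hN0 : (0 : ℝ) ≤ c.2.1 := Nat.cast_nonneg _
    have hd : ((c.2.1 / 2 ^ ν.r : ℕ) : ℝ) ≤ c.2.1 / 2 ^ ν.r := by
      have := div_le_real c.2.1 (2 ^ ν.r)
      push_cast at this
      exact this
    have hd' : ((c.2.1 / 2 ^ ν.r : ℕ) : ℝ) ≤ c.2.1 := by exact_mod_cast Nat.div_le_self _ _
    have hX : ∀ km tg, (sz (xorL ν c.2.2.2.2.2 c.2.2.2.1.v (c.2.1 / 2 ^ ν.r) km tg) : ℝ) ≤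
        cX ν * (muX ν * Y) * c.2.1 := by
      intro km tg
      rw [hn]
      refine (sz_xorL h _ (i + 1) _ km tg hN1).trans ?_
      have e : (cX ν : ℝ) * (Nat.size c.2.2.2.2.2.R + 1) * muX ν ^ (i + 1) =
          cX ν * (muX ν * Y) := by
        rw [hY]
        ring
      rw [e]
      exact mul_le_mul_of_nonneg_left hd' (by
        have : 0 < muX ν := by linarith
        positivity)
    have hmu0 : 0 < muX ν := by linarith
    have h1 := sz_prog_le (l := ν.cp)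
      (f := fun x => (insC ν c x).flatMap fun y => y.1.elim y.2 (genC ν i))
      (fun x => decide (x.1 = 1)) (a := 10 * c.2.1 + 2 * (cX ν * (muX ν * Y) * c.2.1))
      (b := cC ν * Y * (c.2.1 / 2 ^ ν.r)) (fun x hx => by
        refine (sz_insC h c (by positivity) (le_trans Nat.one_le_two_pow hN1) hX (genC ν i)
          hx).trans (add_le_add_right ?_ _)
        split_ifs
        · have h3 := ih (callC ν c x) hN2 (by
            show c.2.2.2.1.v / ν.m = _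
            rw [hn, pow_succ, Nat.mul_div_cancel _ h.mpos])
          refine h3.trans ?_
          rw [hY]
          exact mul_le_mul_of_nonneg_left hd (by positivity)
        · exact le_rfl)
    have e : genC ν (i + 1) c = ν.cp.flatMap fun x => (insC ν c x).flatMap
        fun y => y.1.elim y.2 (genC ν i) := tree_succ _ _ _ _ _
    rw [e]
    refine h1.trans ?_
    have h6 := calls_le h.c.cnt
    have h7 : (ν.cp.length : ℝ) ≤ ν.S := by exact_mod_cast h.lc.le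
    have h8 := mul_le_mul_of_nonneg_right h6
      (by positivity : 0 ≤ cC ν * Y * (c.2.1 / 2 ^ ν.r))
    have h9 := mul_le_mul_of_nonneg_right h7
      (by positivity : 0 ≤ 10 * (c.2.1 : ℝ) + 2 * (cX ν * (muX ν * Y) * c.2.1))
    have e1 : lamR ν.r ν.m * 2 ^ ν.r * (cC ν * Y * (c.2.1 / 2 ^ ν.r)) =
        lamR ν.r ν.m * cC ν * (Y * c.2.1) := by
      field_simp
    have h10 : (c.2.1 : ℝ) ≤ muX ν * (Y * c.2.1) := by
      rw [← mul_assoc]
      exact le_mul_of_one_le_left hN0 (one_le_mul_of_one_le_of_one_le (by linarith) hY1)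
    have h11 := mul_le_mul_of_nonneg_left h10 (Nat.cast_nonneg (α := ℝ) ν.S)
    have h12 := mul_le_mul_of_nonneg_right (cC_step h) (by positivity : 0 ≤ Y * c.2.1)
    have e2 : cC ν * ((Nat.size c.2.2.2.2.2.R + 1) * muX ν ^ (i + 1)) * c.2.1 =
        cC ν * muX ν * (Y * c.2.1) := by
      rw [hY]
      ring
    rw [e2]
    linarith

/-- **The size of one group.** -/
theorem sz_hgrp {ν : Nets} (h : ν.Ok) (sh n j : ℕ) (L : Lay) (hK : L.K = ν.m ^ j) (h0 : 0 < L.N)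
    (hN : 2 ^ (ν.r * (2 * j)) * L.N ≤ 4 * 2 ^ n) :
    (sz (hgrp ν sh n (ν.r * (2 * j)) j L) : ℝ) ≤
      (4 * cC ν + 50) * ((Nat.size L.R + 1) * muX ν ^ j) * 2 ^ n := by
  have hl := lamR_pos h
  have hmu := lamR_lt_muX h
  have hC := cC_ge h
  have h1 := sz_genC h j (false, 2 ^ (ν.r * (2 * j)) * L.N, 0, ⟨L.K⟩, sh, L)
    (Nat.le_mul_of_pos_right _ h0) hK
  have hN' : ((2 ^ (ν.r * (2 * j)) * L.N : ℕ) : ℝ) ≤ 4 * 2 ^ n := by exact_mod_cast hN
  obtain ⟨Y, hY⟩ : ∃ Y : ℝ, Y = (Nat.size L.R + 1) * muX ν ^ j := ⟨_, rfl⟩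
  have hY1 : 1 ≤ Y := by
    have h5 : (0 : ℝ) ≤ Nat.size L.R := Nat.cast_nonneg _
    rw [hY]
    exact one_le_mul_of_one_le_of_one_le (by linarith) (one_le_pow₀ (by linarith))
  simp only at h1
  rw [← hY] at h1 ⊢
  have h2 := mul_le_mul_of_nonneg_left hN' (by positivity : 0 ≤ cC ν * Y)
  have h3 : (1 : ℝ) ≤ 2 ^ n := one_le_pow₀ (by norm_num)
  have h4 : (2 : ℝ) ^ n ≤ Y * 2 ^ n := le_mul_of_one_le_left (by linarith) hY1
  simp only [hgrp, hmid, sz_append, sz_relL, sz_subL, sz_pDia, Nat.cast_add, Nat.cast_mul 3,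
    Nat.cast_mul 4, Nat.cast_ofNat, Nat.cast_one, Nat.cast_pow, mul_zero, Nat.cast_zero]
  linarith

end Cost

end Vale.Agent.P338Z
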