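import Vale.Agent.P338Z.Gen.CostC

/-!
P338 power saving: the sizes of the lists of passes (3): the fast step.
-/

namespace Vale.Agent.P338Z

open Vale.Agent.Lib.PolyTime (Un)
open Vale.Agent.P338.R3.H313 (PV KP)
open Vale.Agent.P338.R3.H501.Rad (aR)

namespace Cost

variable {ν : Nets}

theorem S_ge (h : ν.Ok) : 2 ≤ ν.S := by
  rw [h.S]
  norm_num

theorem pow_dep_le (h : ν.Ok) (d : ℕ) : 2 ^ (160 * dep ν d) ≤ d + 1 := by
  have h1 : ν.S ^ Nat.log ν.S d ≤ d + 1 := Nat.pow_log_le_add_one _ _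
  have h2 : ν.S ^ (2 * dep ν d) ≤ ν.S ^ Nat.log ν.S d := by
    refine Nat.pow_le_pow_right (by have := S_ge h; omega) ?_
    rw [dep, lg_eq_log (S_ge h)]
    omega
  have h3 : ν.S ^ (2 * dep ν d) = 2 ^ (160 * dep ν d) := by
    rw [h.S, ← pow_mul]
    congr 1
    ring
  omega

theorem le_pow_dep (h : ν.Ok) (d : ℕ) : d + 1 ≤ 2 ^ (160 * (dep ν d + 1)) := by
  have h1 : d < ν.S ^ (Nat.log ν.S d + 1) := Nat.lt_pow_succ_log_self (S_ge h) d
  have h2 : ν.S ^ (Nat.log ν.S d + 1) ≤ ν.S ^ (2 * (dep ν d + 1)) := by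
    refine Nat.pow_le_pow_right (by have := S_ge h; omega) ?_
    rw [dep, lg_eq_log (S_ge h)]
    omega
  have h3 : ν.S ^ (2 * (dep ν d + 1)) = 2 ^ (160 * (dep ν d + 1)) := by
    rw [h.S, ← pow_mul]
    congr 1
    ring
  omega

theorem m_pow_le (h : ν.Ok) (j : ℕ) : ν.m ^ j ≤ 2 ^ (17 * j) := by
  rw [pow_mul]
  exact Nat.pow_le_pow_left h.mle j

theorem wid_le (h : ν.Ok) (d : ℕ) : wid ν d ≤ 17 * dep ν d + (Nat.size (ν.Δ + 1) + 3) := by
  rw [wid, Nat.size_le]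
  have h1 := m_pow_le h (dep ν d)
  have h2 : ν.Δ + 1 < 2 ^ Nat.size (ν.Δ + 1) := Nat.lt_size_self _
  calc 8 * ν.m ^ dep ν d * (ν.Δ + 1) ≤ 8 * 2 ^ (17 * dep ν d) * (ν.Δ + 1) := by gcongr
    _ < 8 * 2 ^ (17 * dep ν d) * 2 ^ Nat.size (ν.Δ + 1) :=
        Nat.mul_lt_mul_of_pos_left h2 (by positivity)
    _ = _ := by
        rw [pow_add, pow_add]
        ring

theorem le_wid (ν : Nets) (d : ℕ) : 8 * ν.m ^ dep ν d * (ν.Δ + 1) ≤ 2 ^ wid ν d :=
  (Nat.lt_size_self _).le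

/-- For large `d` there is enough room. -/
theorem good_of_large (h : ν.Ok) : ∃ d0, ∀ d, d0 ≤ d → good ν d = true := by
  obtain ⟨c, hc⟩ : ∃ c, c = Nat.size (ν.Δ + 1) + 3 := ⟨_, rfl⟩
  refine ⟨2 ^ (160 * (c + 1)), fun d hd => ?_⟩
  have h1 := le_pow_dep h d
  have h2 := pow_dep_le h d
  have h3 := wid_le h d
  have h4 := m_pow_le h (dep ν d)
  rw [← hc] at h3
  generalize hj : dep ν d = j at h1 h2 h3 h4
  have h5 : c + 1 ≤ j + 1 := by
    have : 2 ^ (160 * (c + 1)) ≤ 2 ^ (160 * (j + 1)) := by omega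
    have := (Nat.pow_le_pow_iff_right (by norm_num : 1 < 2)).1 this
    omega
  have h6 : j < 2 ^ j := Nat.lt_two_pow_self
  have h7 : Nat.size (ν.m ^ j) ≤ 17 * j + 1 := by
    rw [Nat.size_le, pow_succ]
    have : 0 < 2 ^ (17 * j) := by positivity
    omega
  have h8 : 2 ^ (17 * j) * (2 ^ j * 256) ≤ 2 ^ (160 * j) := by
    rw [show (256 : ℕ) = 2 ^ 8 by norm_num, ← pow_add, ← pow_add]
    exact Nat.pow_le_pow_right (by norm_num) (by omega)
  have h9 : ν.m ^ j * wid ν d ≤ 2 ^ (17 * j) * (18 * j) := Nat.mul_le_mul h4 (by omega)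
  have h10 : ν.r * (2 * j) ≤ 60 * (2 * j) := Nat.mul_le_mul_right _ h.rle
  have h11 : 1 ≤ 2 ^ (17 * j) := Nat.one_le_two_pow
  have h12 : 2 ^ (17 * j) * (256 * j + 256) ≤ 2 ^ (17 * j) * (2 ^ j * 256) :=
    Nat.mul_le_mul_left _ (by omega)
  have h13 : j ≤ 2 ^ (17 * j) * j := Nat.le_mul_of_pos_left _ h11
  have e1 : 2 ^ (17 * j) * (256 * j + 256) = 256 * (2 ^ (17 * j) * j) + 256 * 2 ^ (17 * j) := by
    ring
  have e2 : 2 ^ (17 * j) * (18 * j) = 18 * (2 ^ (17 * j) * j) := by ring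
  simp only [good, hj, Bool.and_eq_true, decide_eq_true_eq]
  omega

theorem d_le_aR (d : ℕ) : d + 3 ≤ aR d := by
  unfold aR
  nlinarith [Nat.le_self_pow (n := 2) (by norm_num) d]

/-- The positions of a group. -/
def grp (ν : Nets) (p : PV) (t : ℕ) (J : List ℕ) (g : ℕ) : List ℕ :=
  (((inner p J).drop (g * ν.m ^ dep ν p.d)).take (ν.m ^ dep ν p.d)).map (bpos p t)

theorem bpos_eq {p : PV} {t i : ℕ} (ht : t < aR p.d) (hi : i + 1 < p.d) :
    bpos p t i = aR p.d * i + t + 2 ∧ aR p.d * i + 2 * aR p.d ≤ aR p.d * p.d := by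
  have h1 : aR p.d * (i + 2) ≤ aR p.d * p.d := Nat.mul_le_mul_left _ hi
  rw [Nat.mul_add, mul_comm _ 2] at h1
  refine ⟨min_eq_left ?_, h1⟩
  unfold KP
  omega

/-- The layout of a group. -/
theorem grp_lay (hL : LAY) (h : ν.Ok) {p : PV} {t : ℕ} {J : List ℕ} (hs : p.d + 1 ≤ p.s)
    (ht : t < aR p.d) (hJ : J.Pairwise (· < ·)) {g : ℕ} (hg : g < ngr ν p J) :
    (mkLay ν.Δ (wid ν p.d) (KP p + 2) (ν.r * (2 * dep ν p.d)) (grp ν p t J g)).K =
        ν.m ^ dep ν p.d ∧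
      0 < (mkLay ν.Δ (wid ν p.d) (KP p + 2) (ν.r * (2 * dep ν p.d)) (grp ν p t J g)).N ∧
      2 ^ (ν.r * (2 * dep ν p.d)) *
        (mkLay ν.Δ (wid ν p.d) (KP p + 2) (ν.r * (2 * dep ν p.d)) (grp ν p t J g)).N ≤
        4 * 2 ^ (KP p + 2) := by
  have hm : 0 < ν.m ^ dep ν p.d := Nat.pow_pos h.mpos
  unfold ngr at hg
  cases hgood : good ν p.d
  · rw [hgood] at hg
    exact absurd hg (Nat.not_lt_zero _)
  rw [hgood, cond_true] at hg
  have hg2 : (g + 1) * ν.m ^ dep ν p.d ≤ (inner p J).length := (Nat.le_div_iff_mul_le hm).1 hg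
  have hlen : (grp ν p t J g).length = ν.m ^ dep ν p.d := by
    rw [grp, List.length_map, List.length_take, List.length_drop]
    rw [Nat.succ_mul] at hg2
    omega
  simp only [good, Bool.and_eq_true, decide_eq_true_eq] at hgood
  obtain ⟨-, g2, g3⟩ := hgood
  have hin : ∀ i ∈ ((inner p J).drop (g * ν.m ^ dep ν p.d)).take (ν.m ^ dep ν p.d),
      1 ≤ i ∧ i + 1 < p.d := by
    intro i hi
    have := (List.mem_filter.1 (List.mem_of_mem_drop (List.mem_of_mem_take hi))).2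
    simpa using this
  have ha := d_le_aR p.d
  obtain ⟨a1, a2, a3, -⟩ := hL ν.Δ (wid ν p.d) (KP p + 2) (ν.r * (2 * dep ν p.d)) p.d
    (grp ν p t J g) h.pos (by
      intro e
      rw [e] at hlen
      exact absurd hlen hm.ne) (by
      rw [grp, List.pairwise_map]
      refine ((hJ.filter _).sublist ((List.take_sublist _ _).trans
        (List.drop_sublist _ _))).imp_of_mem fun {i i'} hi hi' hlt => ?_
      rw [(bpos_eq ht (hin i hi).2).1, (bpos_eq ht (hin i' hi').2).1]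
      have := Nat.mul_le_mul_left (aR p.d) (Nat.succ_le_of_lt hlt)
      rw [Nat.mul_succ] at this
      omega) (by
      intro q hq
      obtain ⟨i, hi, rfl⟩ := List.mem_map.1 hq
      obtain ⟨e1, e2⟩ := bpos_eq ht (hin i hi).2
      have e3 : aR p.d ≤ aR p.d * i := Nat.le_mul_of_pos_right _ (hin i hi).1
      rw [hlen, e1]
      unfold KP
      omega) (by
      rw [hlen]
      exact le_wid ν p.d) (by
      rw [hlen]
      calc ν.m ^ dep ν p.d * 2 ^ (wid ν p.d + 3)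
          ≤ 2 ^ Nat.size (ν.m ^ dep ν p.d) * 2 ^ (wid ν p.d + 3) :=
            Nat.mul_le_mul_right _ (Nat.lt_size_self _).le
        _ ≤ 2 ^ p.d := by
            rw [← pow_add]
            exact Nat.pow_le_pow_right (by norm_num) (by omega))
  refine ⟨a2.trans hlen, ?_, a3⟩
  refine List.prod_pos fun x hx => ?_
  obtain ⟨f, hf, rfl⟩ := List.mem_iff_getElem.1 hx
  have b1 := a1.pos f
  unfold Lay.q at b1
  rw [List.getD_eq_getElem _ _ hf] at b1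
  omega

theorem size_radR (h : ν.Ok) (d : ℕ) :
    Nat.size (radR ν.Δ (wid ν d)) + 1 ≤ (Nat.size (ν.Δ + 1) + 23) * (dep ν d + 1) := by
  have h1 := le_wid ν d
  have h2 := wid_le h d
  have h3 : 0 < ν.m ^ dep ν d := Nat.pow_pos h.mpos
  have h4 : ν.Δ + 1 ≤ 8 * ν.m ^ dep ν d * (ν.Δ + 1) := Nat.le_mul_of_pos_left _ (by omega)
  have h5 : 2 ^ wid ν d / ν.Δ * ν.Δ ≤ 2 ^ wid ν d := Nat.div_mul_le_self _ _
  have h6 : Nat.size (radR ν.Δ (wid ν d)) ≤ wid ν d + 2 := by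
    rw [Nat.size_le, radR, Nat.add_mul, pow_add]
    omega
  have h7 : (Nat.size (ν.Δ + 1) + 23) * (dep ν d + 1) =
      Nat.size (ν.Δ + 1) * dep ν d + Nat.size (ν.Δ + 1) + 23 * dep ν d + 23 := by ring
  omega

theorem muX_le (h : ν.Ok) : muX ν ≤ (1 - 1 / 2 ^ 78) * ν.m := by
  have h1 := m_ge h
  have h2 : (ν.m : ℝ) ≤ 2 ^ 17 := by exact_mod_cast h.mle
  have h4 : (1 : ℝ) / 2 ^ 60 ≤ 1 / 2 ^ ν.r :=
    one_div_le_one_div_of_le (by positivity) (pow_le_pow_right₀ (by norm_num) h.rle)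
  have h5 : lamR ν.r ν.m ≤ (1 - 1 / 2 ^ 77) * ν.m := by
    unfold lamR
    linarith
  refine Real.sqrt_le_iff.2 ⟨by positivity, ?_⟩
  have h6 := mul_le_mul_of_nonneg_right h5 (by linarith : (0 : ℝ) ≤ ν.m)
  have h7 : (0 : ℝ) ≤ ν.m * ν.m := by positivity
  rw [mul_pow, sq (ν.m : ℝ)]
  linarith

/-- The gain of the recursion in terms of the number of digits. -/
theorem gain_le {d j : ℕ} (h : d + 1 ≤ 2 ^ (160 * (j + 1))) :
    ((j : ℝ) + 1) * (1 - 1 / 2 ^ 78) ^ j ≤ 2 ^ 81 * ((d : ℝ) + 1) ^ (-(1 / 2 ^ 87 : ℝ)) := by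
  have hj : (0 : ℝ) ≤ j := Nat.cast_nonneg _
  have hd : (0 : ℝ) < (d : ℝ) + 1 := Nat.cast_add_one_pos d
  have h1 : (1 - 1 / 2 ^ 78 : ℝ) ^ j ≤ Real.exp (j * -(1 / 2 ^ 78)) := by
    rw [Real.exp_nat_mul]
    have a0 : (0 : ℝ) ≤ 1 - 1 / 2 ^ 78 := by norm_num
    refine pow_le_pow_left₀ a0 ?_ j
    have := Real.add_one_le_exp (-(1 / 2 ^ 78))
    linarith
  have h2 : (j : ℝ) + 1 ≤ 2 ^ 79 * Real.exp (j * (1 / 2 ^ 79)) := by
    have := Real.add_one_le_exp ((j : ℝ) * (1 / 2 ^ 79))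
    linarith
  have h3 : Real.log ((d : ℝ) + 1) ≤ 128 * (j + 1) := by
    have a1 : (d : ℝ) + 1 ≤ 2 ^ (160 * (j + 1)) := by exact_mod_cast h
    have a2 := Real.log_le_log hd a1
    rw [Real.log_pow] at a2
    have a3 := mul_le_mul_of_nonneg_left Real.log_two_lt_d9.le (by linarith : (0 : ℝ) ≤ j + 1)
    push_cast at a2
    linarith
  have h4 : Real.exp 1 ≤ 4 := by
    have := Real.exp_one_lt_d9
    linarith
  rw [Real.rpow_def_of_pos hd]
  calc ((j : ℝ) + 1) * (1 - 1 / 2 ^ 78) ^ j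
      ≤ 2 ^ 79 * Real.exp (j * (1 / 2 ^ 79)) * Real.exp (j * -(1 / 2 ^ 78)) :=
        mul_le_mul h2 h1 (by positivity) (by positivity)
    _ = 2 ^ 79 * Real.exp (j * (1 / 2 ^ 79) + j * -(1 / 2 ^ 78)) := by
        rw [mul_assoc, ← Real.exp_add]
    _ ≤ 2 ^ 79 * Real.exp (1 + Real.log ((d : ℝ) + 1) * -(1 / 2 ^ 87)) := by
        refine mul_le_mul_of_nonneg_left (Real.exp_le_exp.2 ?_) (by positivity)
        linarith
    _ ≤ _ := by
        rw [Real.exp_add]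
        have := mul_le_mul_of_nonneg_right h4
          (Real.exp_pos (Real.log ((d : ℝ) + 1) * -(1 / 2 ^ 87))).le
        linarith

theorem m_dep_le (h : ν.Ok) (d : ℕ) :
    ((ν.m ^ dep ν d : ℕ) : ℝ) ≤ ((d : ℝ) + 1) ^ (1 / 8 : ℝ) := by
  have h1 : (ν.m ^ dep ν d) ^ 8 ≤ d + 1 := by
    refine le_trans (Nat.pow_le_pow_left (m_pow_le h _) 8) (le_trans ?_ (pow_dep_le h d))
    rw [← pow_mul]
    exact Nat.pow_le_pow_right (by norm_num) (by omega)
  have h2 : ((ν.m ^ dep ν d : ℕ) : ℝ) ^ (8 : ℝ) ≤ (d : ℝ) + 1 := by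
    rw [show (8 : ℝ) = ((8 : ℕ) : ℝ) by norm_num, Real.rpow_natCast]
    exact_mod_cast h1
  rw [one_div]
  exact (Real.le_rpow_inv_iff_of_pos (Nat.cast_nonneg _) (by positivity) (by norm_num)).2 h2

theorem length_outer (p : PV) {J : List ℕ} (hJ : J.Pairwise (· < ·)) (hd : ∀ i ∈ J, i < p.d) :
    (outer p J).length ≤ 2 := by
  have h1 : (outer p J).Nodup := (hJ.imp ne_of_lt).filter _
  refine (h1.subperm (l₂ := [0, p.d - 1]) fun i hi => ?_).length_le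
  obtain ⟨h2, h3⟩ := List.mem_filter.1 hi
  have h4 := hd i h2
  simp only [Bool.not_eq_true', Bool.and_eq_false_iff, decide_eq_false_iff_not] at h3
  simp only [List.mem_cons, List.not_mem_nil, or_false]
  omega

theorem length_le_d {J : List ℕ} {d : ℕ} (hJ : J.Pairwise (· < ·)) (hd : ∀ i ∈ J, i < d) :
    J.length ≤ d := by
  have h1 : J.Nodup := hJ.imp ne_of_lt
  have := (h1.subperm (l₂ := List.range d) fun i hi => List.mem_range.2 (hd i hi)).length_le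
  rwa [List.length_range] at this

/-- The number of slow butterflies. -/
theorem length_rest (h : ν.Ok) {d0 : ℕ} (h0 : ∀ d, d0 ≤ d → good ν d = true) (p : PV)
    {J : List ℕ} (hJ : J.Pairwise (· < ·)) (hd : ∀ i ∈ J, i < p.d) :
    ((inner p J).drop (ngr ν p J * ν.m ^ dep ν p.d) ++ outer p J).length ≤
      ν.m ^ dep ν p.d + (d0 + 2) := by
  have h1 := length_outer p hJ hd
  have h2 := length_le_d hJ hd
  have h3 : (inner p J).length ≤ J.length := List.length_filter_le _ _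
  have hm : 0 < ν.m ^ dep ν p.d := Nat.pow_pos h.mpos
  rw [List.length_append, List.length_drop, ngr]
  cases hg : good ν p.d
  · have h4 : p.d < d0 := by
      by_contra h5
      rw [h0 p.d (by omega)] at hg
      exact absurd hg (by decide)
    omega
  · have h4 := Nat.div_add_mod' (inner p J).length (ν.m ^ dep ν p.d)
    have h5 := Nat.mod_lt (inner p J).length hm
    rw [cond_true]
    omega

theorem ngr_le (ν : Nets) (p : PV) (J : List ℕ) : ngr ν p J * ν.m ^ dep ν p.d ≤ J.length := by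
  have h3 : (inner p J).length ≤ J.length := List.length_filter_le _ _
  unfold ngr
  cases good ν p.d
  · simp
  · exact (Nat.div_mul_le_self _ _).trans h3

end Cost

open Cost

/-- **The size of the fast step.** -/
theorem fcost_of {ν : Nets} (hL : LAY) (h : ν.Ok) : FCOST ν := by
  obtain ⟨d0, h0⟩ := good_of_large h
  have hC := cC_ge h
  obtain ⟨c1, hc1⟩ : ∃ c1 : ℝ, c1 = (4 * cC ν + 50) * (Nat.size (ν.Δ + 1) + 23) := ⟨_, rfl⟩
  have hc0 : 0 < c1 := by rw [hc1]; positivity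
  refine ⟨4 * (c1 * 2 ^ 81) + 60 * (d0 + 2), by positivity, fun p t J hs ht hJ hd => ?_⟩
  have hmu : 0 ≤ muX ν := Real.sqrt_nonneg _
  have hT : (1 : ℝ) ≤ 2 ^ KP p := one_le_pow₀ (by norm_num)
  have e2 : (2 : ℝ) ^ (KP p + 2) = 4 * 2 ^ KP p := by
    rw [pow_add]
    ring
  -- one group
  have h1 : ∀ g ∈ List.range (ngr ν p J), (sz (hgrp ν (Vale.Agent.P338.R3.H121.sc p.d p.s p.y)
      (KP p + 2) (ν.r * (2 * dep ν p.d)) (dep ν p.d)
      (mkLay ν.Δ (wid ν p.d) (KP p + 2) (ν.r * (2 * dep ν p.d)) (grp ν p t J g))) : ℝ) ≤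
      c1 * ((dep ν p.d + 1) * muX ν ^ dep ν p.d) * (4 * 2 ^ KP p) + if false then 0 else 0 := by
    intro g hg
    obtain ⟨a1, a2, a3⟩ := grp_lay hL h hs ht hJ (List.mem_range.1 hg)
    refine (sz_hgrp h _ _ _ _ a1 a2 a3).trans ?_
    have a4 : (Nat.size (radR ν.Δ (wid ν p.d)) : ℝ) + 1 ≤
        (Nat.size (ν.Δ + 1) + 23) * (dep ν p.d + 1) := by exact_mod_cast size_radR h p.d
    rw [e2, ite_self, add_zero, hc1]
    refine mul_le_mul_of_nonneg_right ?_ (by positivity)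
    have a5 := mul_le_mul_of_nonneg_left (mul_le_mul_of_nonneg_right a4
      (pow_nonneg hmu (dep ν p.d))) (by linarith : 0 ≤ 4 * cC ν + 50)
    exact a5.trans_eq (by ring)
  have h2 := sz_prog_le (fun _ => false) h1
  rw [List.length_range, mul_zero, add_zero] at h2
  have h3 : (ngr ν p J : ℝ) * (ν.m : ℝ) ^ dep ν p.d ≤ J.length := by exact_mod_cast ngr_le ν p J
  have h4 : muX ν ^ dep ν p.d ≤ (1 - 1 / 2 ^ 78) ^ dep ν p.d * (ν.m : ℝ) ^ dep ν p.d := by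
    rw [← mul_pow]
    exact pow_le_pow_left₀ hmu (muX_le h) _
  have h5 := gain_le (le_pow_dep h p.d)
  obtain ⟨ρ, hρ⟩ : ∃ ρ : ℝ, ρ = ((p.d : ℝ) + 1) ^ (-(1 / 2 ^ 87 : ℝ)) := ⟨_, rfl⟩
  obtain ⟨σ, hσ⟩ : ∃ σ : ℝ, σ = ((p.d : ℝ) + 1) ^ (1 / 8 : ℝ) := ⟨_, rfl⟩
  have hρ0 : 0 ≤ ρ := by rw [hρ]; positivity
  have hσ0 : 0 ≤ σ := by rw [hσ]; positivity
  have h7 := m_dep_le h p.d
  rw [← hρ] at h5 ⊢
  rw [← hσ] at h7 ⊢
  have h6 : (ngr ν p J : ℝ) * ((dep ν p.d + 1) * muX ν ^ dep ν p.d) ≤ 2 ^ 81 * (J.length * ρ) := by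
    calc (ngr ν p J : ℝ) * ((dep ν p.d + 1) * muX ν ^ dep ν p.d)
        ≤ ngr ν p J * ((dep ν p.d + 1) *
          ((1 - 1 / 2 ^ 78) ^ dep ν p.d * (ν.m : ℝ) ^ dep ν p.d)) := by gcongr
      _ = (ngr ν p J * (ν.m : ℝ) ^ dep ν p.d) *
          ((dep ν p.d + 1) * (1 - 1 / 2 ^ 78) ^ dep ν p.d) := by ring
      _ ≤ J.length * (2 ^ 81 * ρ) := mul_le_mul h3 h5 (by positivity) (Nat.cast_nonneg _)
      _ = _ := by ring
  -- the slow butterflies
  have h8 := sz_flatMap_le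
    (l := (inner p J).drop (ngr ν p J * ν.m ^ dep ν p.d) ++ outer p J)
    (f := fun i => subL 0 (naiL (Vale.Agent.P338.R3.H121.sc p.d p.s p.y) (2 ^ (KP p + 2))
      (bpos p t i))) (w := 60 * 2 ^ KP p) (fun i _ => by
      have b1 := sz_naiL (Vale.Agent.P338.R3.H121.sc p.d p.s p.y) (2 ^ (KP p + 2)) (bpos p t i)
      have b2 : 1 ≤ 2 ^ KP p := Nat.one_le_two_pow
      have b3 : 2 ^ (KP p + 2) = 4 * 2 ^ KP p := by
        rw [pow_add]
        ring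
      rw [sz_subL]
      omega)
  have h9 := h8.trans (Nat.mul_le_mul_right _ (length_rest h h0 p hJ hd))
  have h10 : (sz (((inner p J).drop (ngr ν p J * ν.m ^ dep ν p.d) ++ outer p J).flatMap fun i =>
      subL 0 (naiL (Vale.Agent.P338.R3.H121.sc p.d p.s p.y) (2 ^ (KP p + 2)) (bpos p t i))) : ℝ) ≤
      (((ν.m ^ dep ν p.d : ℕ) : ℝ) + (d0 + 2)) * (60 * 2 ^ KP p) := by exact_mod_cast h9
  have h11 := mul_le_mul_of_nonneg_left h6 (by positivity : 0 ≤ c1 * (4 * 2 ^ KP p))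
  have h12 := mul_le_mul_of_nonneg_right h7 (by positivity : (0 : ℝ) ≤ 60 * 2 ^ KP p)
  have hJ0 : 0 ≤ (J.length : ℝ) * ρ := by positivity
  have hd0 : (0 : ℝ) ≤ d0 := Nat.cast_nonneg _
  have b1 : 0 ≤ c1 * (2 ^ KP p * σ) := by positivity
  have b2 : 0 ≤ c1 * 2 ^ KP p := by positivity
  have b3 : 0 ≤ (d0 : ℝ) * (2 ^ KP p * σ) := by positivity
  have b4 : 0 ≤ (d0 : ℝ) * (2 ^ KP p * (J.length * ρ)) := by positivity
  have b5 : 0 ≤ (2 : ℝ) ^ KP p * σ := by positivity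
  have b6 : 0 ≤ (2 : ℝ) ^ KP p * (J.length * ρ) := by positivity
  unfold grp at h2
  rw [fastH, sz_append, Nat.cast_add]
  linarith

end Vale.Agent.P338Z
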