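import Vale.Agent.P338Z.Gen.Tree
import Vale.Agent.P338Z.Ps.Ctl
import Vale.Agent.P338Z.End.Rec

/-!
P338 power saving: the sizes of the lists of passes (1): rotations, the shear, the addition of
selected bits.
-/

namespace Vale.Agent.P338Z

open Vale.Agent.Lib.PolyTime (Un)

namespace Cost

theorem sz_rotL (N B Q : ℕ) (e : Pl) (κ : Fl) : sz (rotL N B Q e κ) = 9 * (N + 1) := by
  rw [rotL, sz_permL]

theorem sz_sclL (N B Q p : ℕ) : sz (sclL N B Q p) = (2 * p + 1) * (N + 1) := by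
  rw [sclL, sz_permL]

theorem sz_uscL (N B Q p : ℕ) : sz (uscL N B Q p) = (2 * p + 1) * (N + 1) := by
  rw [uscL, sz_permL]

theorem sz_pMv (d : Bool) (k : ℕ) : sz [pMv d k] = k + 1 := by simp [pMv]

theorem sz_flatMap_le {ι : Type*} {l : List ι} {f : ι → List Ps} {w : ℕ}
    (h : ∀ i ∈ l, sz (f i) ≤ w) : sz (l.flatMap f) ≤ l.length * w := by
  rw [sz_flatMap]
  simpa using List.sum_le_card_nsmul (l.map fun i => sz (f i)) w (by simpa using h)

theorem sz_range_le {n : ℕ} {f : ℕ → List Ps} {w : ℕ} (h : ∀ i < n, sz (f i) ≤ w) :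
    sz ((List.range n).flatMap f) ≤ n * w := by
  have := sz_flatMap_le (l := List.range n) (f := f) (w := w)
    fun i hi => h i (List.mem_range.1 hi)
  rwa [List.length_range] at this

/-- Sums over a list of instructions, with a surcharge for the calls. -/
theorem sz_prog_le {ι : Type*} {l : List ι} {f : ι → List Ps} (p : ι → Bool) {a b : ℝ}
    (h : ∀ i ∈ l, (sz (f i) : ℝ) ≤ a + if p i then b else 0) :
    (sz (l.flatMap f) : ℝ) ≤ l.length * a + (l.filter p).length * b := by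
  induction l with
  | nil => simp
  | cons x l ih =>
    have h1 := h x List.mem_cons_self
    have h2 := ih fun i hi => h i (List.mem_cons_of_mem _ hi)
    rw [List.flatMap_cons, sz_append, List.length_cons]
    cases hp : p x
    · rw [List.filter_cons_of_neg (by simp [hp])]
      rw [if_neg (by simp [hp])] at h1
      push_cast
      linarith
    · rw [List.filter_cons_of_pos hp, List.length_cons]
      rw [if_pos hp] at h1
      push_cast
      linarith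

theorem getD_le {Δ : ℕ} (hΔ : 0 < Δ) {α : List ℤ} (h : ∀ x ∈ α, x ≠ 0 → x.natAbs ∣ Δ) (k : ℕ) :
    (α.getD k 0).natAbs ≤ Δ := by
  by_cases h0 : α.getD k 0 = 0
  · rw [h0]
    exact Nat.zero_le _
  · refine Nat.le_of_dvd hΔ (h _ ?_ h0)
    rcases Nat.lt_or_ge k α.length with hk | hk
    · rw [List.getD_eq_getElem _ _ hk]
      exact List.getElem_mem hk
    · exact absurd (List.getD_eq_default _ _ hk) h0

theorem pHi_le (α : List ℤ) : pHi α ≤ α.length := by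
  unfold pHi
  have h := List.getLastD_mem_cons
    (l := (List.range α.length).filter fun k => α.getD k 0 != 0) (a := 0)
  rcases List.mem_cons.1 h with h | h
  · rw [h]
    exact Nat.zero_le _
  · exact (List.mem_range.1 (List.mem_filter.1 h).1).le

theorem sz_dPre {Δ : ℕ} {α β : List ℤ} (ha : ∀ k, (α.getD k 0).natAbs ≤ Δ)
    (hb : ∀ k, (β.getD k 0).natAbs ≤ Δ) (N BD Q n : ℕ) :
    sz (dPre α β N BD Q n) ≤ n * ((4 * Δ + 444) * (N + 1)) := by
  refine sz_range_le fun κ _ => ?_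
  simp only [sz_append, sz_sclL, sz_uscL, sz_rotL]
  have h1 := Nat.mul_le_mul_right (N + 1) (ha (pHi α))
  have h2 := Nat.mul_le_mul_right (N + 1) (hb (pLo β))
  nlinarith

theorem sz_dPost {Δ : ℕ} {α β : List ℤ} (ha : ∀ k, (α.getD k 0).natAbs ≤ Δ)
    (hb : ∀ k, (β.getD k 0).natAbs ≤ Δ) (N BD Q n : ℕ) :
    sz (dPost α β N BD Q n) ≤ n * ((4 * Δ + 444) * (N + 1)) := by
  refine sz_range_le fun κ _ => ?_
  simp only [sz_append, sz_sclL, sz_uscL, sz_rotL]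
  have h1 := Nat.mul_le_mul_right (N + 1) (ha (pHi α))
  have h2 := Nat.mul_le_mul_right (N + 1) (hb (pLo β))
  nlinarith

theorem sz_hShr (σ : ℤ) (α : List ℤ) (N BH Q n : ℕ) :
    sz (hShr σ α N BH Q n) ≤ n * (α.length * (9 * (N + 1))) := by
  refine sz_range_le fun κ _ => (sz_range_le (w := 9 * (N + 1)) fun k _ => ?_).trans ?_
  · exact (sz_rotL _ _ _ _ _).le
  · exact Nat.mul_le_mul_right _ (pHi_le α)

theorem tree_succ {C Q ι : Type} (base : C → List Q) (l : List ι)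
    (ins : C → ι → List (Option C × List Q)) (i : ℕ) (c : C) :
    tree base (fun c => l.flatMap (ins c)) (i + 1) c = l.flatMap fun x => (ins c x).flatMap
      fun y => y.1.elim y.2 (tree base (fun c => l.flatMap (ins c)) i) := by
  rw [tree, List.flatMap_assoc]

theorem div_le_real (N W : ℕ) : ((N / W : ℕ) : ℝ) ≤ N / W := Nat.cast_div_le

theorem le_div_pow {r i N : ℕ} (h : 2 ^ (r * (i + 1)) ≤ N) : 2 ^ (r * i) ≤ N / 2 ^ r := by
  rw [Nat.le_div_iff_mul_le (by positivity), ← pow_add]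
  exact h

theorem div_le_pow {m i n : ℕ} (h : n ≤ m ^ (i + 1)) : n / m ≤ m ^ i :=
  Nat.div_le_of_le_mul (by rwa [← pow_succ'])

/-- The number of calls divided by the number of wires. -/
theorem calls_le {r m k : ℕ} (h : k + 1 ≤ 2 ^ r * m) : (k : ℝ) ≤ lamR r m * 2 ^ r := by
  have h1 : (k : ℝ) + 1 ≤ 2 ^ r * m := by exact_mod_cast h
  rw [lamR_eq, div_mul_cancel₀ _ (by positivity)]
  linarith

theorem lamR_pos {ν : Nets} (h : ν.Ok) : 7 ≤ lamR ν.r ν.m := by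
  have h1 : 8 ≤ ν.m := Nat.le_of_dvd h.mpos h.m8
  have h2 : (8 : ℝ) ≤ ν.m := by exact_mod_cast h1
  have := lamR_ge ν.r ν.m
  linarith

/-- The overhead of one instruction of the routing network. -/
def aU (ν : Nets) : ℕ := 16 * ν.Δ + 36 * ν.m + 1800

theorem sz_insU {ν : Nets} (h : ν.Ok) (i : ℕ) (c : UC) (hN : 2 ^ (ν.r * (i + 1)) ≤ c.2.1)
    (hn : c.2.2.2.2.2.v ≤ ν.m ^ (i + 1)) (g : UC → List Ps) {x : QI} (hx : x ∈ ν.qp) :
    sz ((insU ν c x).flatMap fun y => y.1.elim y.2 g) ≤ aU ν * ν.m ^ i * c.2.1 +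
      if !x.1 then sz (g (callU ν c x.2.2.2.1 x.2.2.2.2)) else 0 := by
  have h1 : 1 ≤ c.2.1 / 2 ^ ν.r := le_trans Nat.one_le_two_pow (le_div_pow hN)
  have h2 : c.2.1 / 2 ^ ν.r ≤ c.2.1 := Nat.div_le_self _ _
  have h3 : 1 ≤ ν.m ^ i := Nat.one_le_pow _ _ h.mpos
  have h4 : c.2.1 ≤ ν.m ^ i * c.2.1 := Nat.le_mul_of_pos_left _ h3
  have h5 := div_le_pow hn
  have e : aU ν * ν.m ^ i * c.2.1 = 16 * (ν.Δ * (ν.m ^ i * c.2.1)) +
      36 * (ν.m * (ν.m ^ i * c.2.1)) + 1800 * (ν.m ^ i * c.2.1) := by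
    unfold aU
    ring
  unfold insU
  cases hb : x.1
  · obtain ⟨l1, -, -, -, l5⟩ := h.q.lab x hx hb
    have ha := getD_le h.pos fun z hz => l5 z (List.mem_append_left _ hz)
    have hb' := getD_le h.pos fun z hz => l5 z (List.mem_append_right _ hz)
    have w1 : x.2.1 * (c.2.1 / 2 ^ ν.r) ≤ c.2.1 :=
      (Nat.mul_le_mul_right _ (h.q.wire x hx).1.le).trans (Nat.mul_div_le _ _)
    have d1 := sz_dPre ha hb' (c.2.1 / 2 ^ ν.r) c.2.2.2.1 c.2.2.2.2.1 (c.2.2.2.2.2.v / ν.m)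
    have d2 := sz_dPost ha hb' (c.2.1 / 2 ^ ν.r) c.2.2.2.1 c.2.2.2.2.1 (c.2.2.2.2.2.v / ν.m)
    have s1 := sz_hShr (-1) x.2.2.2.1 (c.2.1 / 2 ^ ν.r) c.2.2.1 c.2.2.2.2.1 (c.2.2.2.2.2.v / ν.m)
    have s2 := sz_hShr 1 x.2.2.2.1 (c.2.1 / 2 ^ ν.r) c.2.2.1 c.2.2.2.2.1 (c.2.2.2.2.2.v / ν.m)
    rw [l1] at s1 s2
    have k1 : c.2.2.2.2.2.v / ν.m * (c.2.1 / 2 ^ ν.r + 1) ≤ ν.m ^ i * (2 * c.2.1) :=
      Nat.mul_le_mul h5 (by omega)
    have k2 : c.2.2.2.2.2.v / ν.m * ((4 * ν.Δ + 444) * (c.2.1 / 2 ^ ν.r + 1)) ≤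
        8 * (ν.Δ * (ν.m ^ i * c.2.1)) + 888 * (ν.m ^ i * c.2.1) := by
      calc _ = (4 * ν.Δ + 444) * (c.2.2.2.2.2.v / ν.m * (c.2.1 / 2 ^ ν.r + 1)) := by ring
        _ ≤ (4 * ν.Δ + 444) * (ν.m ^ i * (2 * c.2.1)) := Nat.mul_le_mul_left _ k1
        _ = _ := by ring
    have k3 : c.2.2.2.2.2.v / ν.m * (ν.m * (9 * (c.2.1 / 2 ^ ν.r + 1))) ≤
        18 * (ν.m * (ν.m ^ i * c.2.1)) := by
      calc _ = (9 * ν.m) * (c.2.2.2.2.2.v / ν.m * (c.2.1 / 2 ^ ν.r + 1)) := by ring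
        _ ≤ (9 * ν.m) * (ν.m ^ i * (2 * c.2.1)) := Nat.mul_le_mul_left _ k1
        _ = _ := by ring
    simp only [Bool.false_eq_true, if_false, List.flatMap_cons, List.flatMap_nil, Option.elim,
      sz_append, sz_pMv, List.append_nil, Bool.not_false, if_true]
    omega
  · simp only [if_true, List.flatMap_cons, List.flatMap_nil, Option.elim, List.append_nil, sz_accL,
      Bool.not_true, Bool.false_eq_true, if_false]
    omega

/-- The constant of the shear. -/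
def cU (ν : Nets) : ℕ := 2 ^ ν.r * ν.S * aU ν

/-- **The size of the shear.** -/
theorem sz_genU {ν : Nets} (h : ν.Ok) (i : ℕ) : ∀ c : UC, 2 ^ (ν.r * i) ≤ c.2.1 →
    c.2.2.2.2.2.v ≤ ν.m ^ i → (sz (genU ν i c) : ℝ) ≤
      (18 * Nat.size c.2.2.2.2.1 * lamR ν.r ν.m ^ i + cU ν * (ν.m : ℝ) ^ i) * c.2.1 := by
  have hl := lamR_pos h
  induction i with
  | zero =>
    intro c hN _
    have h1 : 1 ≤ c.2.1 := le_trans Nat.one_le_two_pow hN
    have h2 : sz (genU ν 0 c) ≤ Nat.size c.2.2.2.2.1 * (9 * (c.2.1 + 1)) :=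
      sz_range_le fun t _ => (sz_rotL _ _ _ _ _).le
    have h3 : sz (genU ν 0 c) ≤ 18 * Nat.size c.2.2.2.2.1 * c.2.1 := by
      refine h2.trans ?_
      rw [mul_comm 18, mul_assoc]
      exact Nat.mul_le_mul_left _ (by omega)
    have h4 : (sz (genU ν 0 c) : ℝ) ≤ 18 * Nat.size c.2.2.2.2.1 * c.2.1 := by exact_mod_cast h3
    have h5 : (0 : ℝ) ≤ cU ν * c.2.1 := by positivity
    rw [pow_zero, pow_zero]
    linarith
  | succ i ih =>
    intro c hN hn
    obtain ⟨U, hU⟩ : ∃ U : ℝ, U = 18 * Nat.size c.2.2.2.2.1 * lamR ν.r ν.m ^ i +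
      cU ν * (ν.m : ℝ) ^ i := ⟨_, rfl⟩
    have hU0 : 0 ≤ U := by rw [hU]; positivity
    have h1 := sz_prog_le (l := ν.qp)
      (f := fun x => (insU ν c x).flatMap fun y => y.1.elim y.2 (genU ν i)) (fun x => !x.1)
      (a := aU ν * (ν.m : ℝ) ^ i * c.2.1) (b := U * (c.2.1 / 2 ^ ν.r)) (fun x hx => by
        have h2 := sz_insU h i c hN hn (genU ν i) hx
        have h3 := ih (callU ν c x.2.2.2.1 x.2.2.2.2) (le_div_pow hN) (div_le_pow hn)
        have h4 : (sz (genU ν i (callU ν c x.2.2.2.1 x.2.2.2.2)) : ℝ) ≤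
            U * (c.2.1 / 2 ^ ν.r) := by
          refine h3.trans ?_
          rw [hU]
          refine mul_le_mul_of_nonneg_left ?_ (hU ▸ hU0)
          have := div_le_real c.2.1 (2 ^ ν.r)
          push_cast at this
          exact this
        cases hb : x.1
        · rw [hb] at h2
          simp only [Bool.not_false, if_true] at h2 ⊢
          have h5 : (sz ((insU ν c x).flatMap fun y => y.1.elim y.2 (genU ν i)) : ℝ) ≤
              aU ν * (ν.m : ℝ) ^ i * c.2.1 + sz (genU ν i (callU ν c x.2.2.2.1 x.2.2.2.2)) := by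
            exact_mod_cast h2
          linarith
        · rw [hb] at h2
          simp only [Bool.not_true, Bool.false_eq_true, if_false] at h2 ⊢
          exact_mod_cast h2)
    have e : genU ν (i + 1) c = ν.qp.flatMap fun x => (insU ν c x).flatMap
        fun y => y.1.elim y.2 (genU ν i) := tree_succ _ _ _ _ _
    rw [e]
    refine h1.trans ?_
    have h6 := calls_le h.q.cnt
    have h7 : (ν.qp.length : ℝ) ≤ ν.S := by exact_mod_cast h.lq.le
    have hN0 : (0 : ℝ) ≤ c.2.1 := Nat.cast_nonneg _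
    have h8 := mul_le_mul_of_nonneg_right h6 (by positivity : 0 ≤ U * (c.2.1 / 2 ^ ν.r))
    have h9 := mul_le_mul_of_nonneg_right h7 (by positivity : 0 ≤ aU ν * (ν.m : ℝ) ^ i * c.2.1)
    have e1 : lamR ν.r ν.m * 2 ^ ν.r * (U * (c.2.1 / 2 ^ ν.r)) = lamR ν.r ν.m * U * c.2.1 := by
      field_simp
    have e2 : (ν.S : ℝ) * (aU ν * (ν.m : ℝ) ^ i * c.2.1) + lamR ν.r ν.m * U * c.2.1 =
        (18 * Nat.size c.2.2.2.2.1 * lamR ν.r ν.m ^ (i + 1) + cU ν * (ν.m : ℝ) ^ (i + 1)) *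
          c.2.1 := by
      rw [hU, cU, pow_succ (lamR ν.r ν.m), pow_succ (ν.m : ℝ)]
      generalize lamR ν.r ν.m ^ i = y
      unfold lamR
      push_cast
      field_simp
      ring
    linarith

theorem size_pow_le (R k : ℕ) : Nat.size (R ^ k) ≤ k * Nat.size R + 1 := by
  have := Vale.Agent.Lib.PolyTime.esize_pow_le R k
  rwa [Vale.Agent.Lib.PolyTime.esize_nat, Vale.Agent.Lib.PolyTime.esize_nat] at this

/-- **The size of `wadd`.** -/
theorem sz_wadd {ν : Nets} (h : ν.Ok) (L : Lay) (i Q N : ℕ) (g : ℕ → Pl) (hN : 2 ^ (ν.r * i) ≤ N) :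
    (sz (wadd ν L i (ν.m ^ i) Q N g) : ℝ) ≤
      (36 * Nat.size Q * lamR ν.r ν.m ^ i + (2 * cU ν + 36) * (ν.m : ℝ) ^ i) * N := by
  have h1 : 1 ≤ N := le_trans Nat.one_le_two_pow hN
  have h2 : ∀ f : ℕ → Pl, (sz ((List.range (ν.m ^ i)).flatMap fun c =>
      rotL N (L.B (Lay.fo 0) * Q ^ c) Q (f c) fz) : ℝ) ≤ 18 * (ν.m : ℝ) ^ i * N := by
    intro f
    have h3 := sz_range_le (n := ν.m ^ i) (w := 18 * N)
      (f := fun c => rotL N (L.B (Lay.fo 0) * Q ^ c) Q (f c) fz) fun c _ => by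
        rw [sz_rotL]
        omega
    have h4 : ((ν.m ^ i * (18 * N) : ℕ) : ℝ) = 18 * (ν.m : ℝ) ^ i * N := by
      push_cast
      ring
    rw [← h4]
    exact_mod_cast h3
  have h5 := sz_genU h i (false, N, L.B (L.fp 0), L.B (Lay.fo 0), Q, ⟨ν.m ^ i⟩) hN le_rfl
  have h6 := sz_genU h i (true, N, L.B (L.fp 0), L.B (Lay.fo 0), Q, ⟨ν.m ^ i⟩) hN le_rfl
  have h7 := h2 g
  have h8 := h2 fun c => psm (Q - 1) (g c)
  unfold wadd
  simp only [sz_append]
  push_cast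
  simp only at h5 h6
  linarith

/-- The growth factor of the addition of selected bits. -/
noncomputable def muX (ν : Nets) : ℝ := Real.sqrt (lamR ν.r ν.m * ν.m)

theorem m_ge {ν : Nets} (h : ν.Ok) : (8 : ℝ) ≤ ν.m := by
  exact_mod_cast Nat.le_of_dvd h.mpos h.m8

theorem muX_sq {ν : Nets} (h : ν.Ok) : muX ν ^ 2 = lamR ν.r ν.m * ν.m := by
  have h1 := lamR_pos h
  have h2 := m_ge h
  exact Real.sq_sqrt (by positivity)

theorem lamR_lt (r m : ℕ) : lamR r m < m := by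
  have h : (0 : ℝ) < 1 / 2 ^ r := by positivity
  unfold lamR
  linarith

theorem lamR_lt_muX {ν : Nets} (h : ν.Ok) : lamR ν.r ν.m < muX ν := by
  have h1 := lamR_pos h
  refine Real.lt_sqrt_of_sq_lt ?_
  rw [sq]
  exact mul_lt_mul_of_pos_left (lamR_lt _ _) (by linarith)

theorem muX_pow {ν : Nets} (h : ν.Ok) (i : ℕ) :
    (ν.m : ℝ) ^ (i / 2) * lamR ν.r ν.m ^ ((i + 1) / 2) ≤ muX ν ^ i := by
  have h1 := lamR_pos h
  have h2 := m_ge h
  obtain ⟨k, rfl | rfl⟩ := Nat.even_or_odd' i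
  · rw [show 2 * k / 2 = k by omega, show (2 * k + 1) / 2 = k by omega, pow_mul, muX_sq h, mul_pow,
      mul_comm]
  · rw [show (2 * k + 1) / 2 = k by omega, show (2 * k + 1 + 1) / 2 = k + 1 by omega, pow_succ,
      pow_succ, pow_mul, muX_sq h, mul_pow, ← mul_assoc, mul_comm ((ν.m : ℝ) ^ k)]
    exact mul_le_mul_of_nonneg_left (lamR_lt_muX h).le (by positivity)

theorem half_pow_le {ν : Nets} (h : ν.Ok) (i : ℕ) :
    (ν.m : ℝ) ^ ((i + 1) / 2) ≤ ν.m * muX ν ^ i := by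
  have h1 := lamR_pos h
  have h2 := m_ge h
  have h3 : (ν.m : ℝ) ^ ((i + 1) / 2) ≤ (ν.m : ℝ) ^ (i / 2 + 1) :=
    pow_le_pow_right₀ (by linarith) (by omega)
  have h4 : (ν.m : ℝ) ^ (i / 2) ≤ (ν.m : ℝ) ^ (i / 2) * lamR ν.r ν.m ^ ((i + 1) / 2) :=
    le_mul_of_one_le_right (by positivity) (one_le_pow₀ (by linarith))
  rw [pow_succ'] at h3
  exact h3.trans (mul_le_mul_of_nonneg_left (h4.trans (muX_pow h i)) (by linarith))

/-- The constant of the addition of selected bits. -/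
def cX (ν : Nets) : ℕ := (4 * cU ν + 72) * ν.m + 200

/-- **The size of the addition of selected bits.** -/
theorem sz_xorL {ν : Nets} (h : ν.Ok) (L : Lay) (i N km : ℕ) (tg : List (ℕ × Option ℕ))
    (hN : 2 ^ (ν.r * i) ≤ N) :
    (sz (xorL ν L (ν.m ^ i) N km tg) : ℝ) ≤ cX ν * (Nat.size L.R + 1) * muX ν ^ i * N := by
  have h1 : 1 ≤ N := le_trans Nat.one_le_two_pow hN
  have hm : 2 ≤ ν.m := le_trans (by norm_num) (Nat.le_of_dvd h.mpos h.m8)
  have hN' : 2 ^ (ν.r * ((i + 1) / 2)) ≤ N :=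
    le_trans (Nat.pow_le_pow_right (by norm_num) (Nat.mul_le_mul_left _ (by omega))) hN
  have hl := lamR_pos h
  have hm8 := m_ge h
  have hN0 : (1 : ℝ) ≤ N := by exact_mod_cast h1
  have hR : (0 : ℝ) ≤ Nat.size L.R := Nat.cast_nonneg _
  have hmu : (1 : ℝ) ≤ muX ν ^ i := one_le_pow₀ (by have := lamR_lt_muX h; linarith)
  have s1 : (Nat.size (L.R ^ ν.m ^ (i / 2)) : ℝ) ≤ (ν.m : ℝ) ^ (i / 2) * (Nat.size L.R + 1) := by
    have a1 := size_pow_le L.R (ν.m ^ (i / 2))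
    have a2 : 1 ≤ ν.m ^ (i / 2) := Nat.one_le_pow _ _ h.mpos
    have a3 : Nat.size (L.R ^ ν.m ^ (i / 2)) ≤ ν.m ^ (i / 2) * (Nat.size L.R + 1) := by
      rw [Nat.mul_add]
      omega
    exact_mod_cast a3
  have s2 : 36 * (Nat.size (L.R ^ ν.m ^ (i / 2)) : ℝ) * lamR ν.r ν.m ^ ((i + 1) / 2) ≤
      36 * ((Nat.size L.R + 1) * muX ν ^ i) := by
    calc 36 * (Nat.size (L.R ^ ν.m ^ (i / 2)) : ℝ) * lamR ν.r ν.m ^ ((i + 1) / 2)
        ≤ 36 * ((ν.m : ℝ) ^ (i / 2) * (Nat.size L.R + 1)) * lamR ν.r ν.m ^ ((i + 1) / 2) := by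
          gcongr
      _ = 36 * ((Nat.size L.R + 1) * ((ν.m : ℝ) ^ (i / 2) * lamR ν.r ν.m ^ ((i + 1) / 2))) := by
          ring
      _ ≤ _ := by
          have := muX_pow h i
          gcongr
  have s3 : (2 * cU ν + 36) * (ν.m : ℝ) ^ ((i + 1) / 2) ≤
      (2 * cU ν + 36) * ν.m * ((Nat.size L.R + 1) * muX ν ^ i) := by
    rw [mul_assoc]
    refine mul_le_mul_of_nonneg_left ((half_pow_le h i).trans ?_) (by positivity)
    exact mul_le_mul_of_nonneg_left (le_mul_of_one_le_left (by linarith) (by linarith))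
      (by linarith)
  have w : ∀ g : ℕ → Pl, (sz (wadd ν L ((i + 1) / 2) (ν.m ^ ((i + 1) / 2))
      (L.R ^ ν.m ^ (i / 2)) N g) : ℝ) ≤
      (36 + (2 * cU ν + 36) * ν.m) * ((Nat.size L.R + 1) * muX ν ^ i) * N := fun g =>
    (sz_wadd h L _ _ N g hN').trans (mul_le_mul_of_nonneg_right (by linarith) (by linarith))
  have w1 := w (xg2 L (ν.m ^ (i / 2)) tg)
  have w2 := w (xg4 L (ν.m ^ (i / 2)) tg)
  have y1 : (1 : ℝ) ≤ (Nat.size L.R + 1) * muX ν ^ i :=
    one_le_mul_of_one_le_of_one_le (by linarith) hmu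
  have y2 : (N : ℝ) ≤ (Nat.size L.R + 1) * muX ν ^ i * N := le_mul_of_one_le_left (by linarith) y1
  unfold xorL
  rw [lg_pow hm]
  simp only [sz_append, sz_rotL, cX]
  push_cast
  linarith

end Cost

end Vale.Agent.P338Z
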