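import Vale.Agent.P338Z.Gen.Defs

/-!
P338 power saving: recursion trees in polynomial time, the logarithm.
-/

namespace Vale.Agent.P338Z

open Vale.Agent.Lib.PolyTime

namespace TreeH

variable {C Q : Type}

/-- One level of the recursion. -/
def stp (body : C → List (Option C × List Q)) (l : List (Option C × List Q)) :
    List (Option C × List Q) := l.flatMap fun y => y.1.elim [y] body

/-- The results. -/
def fin (g : C → List Q) (l : List (Option C × List Q)) : List Q :=
  l.flatMap fun y => y.1.elim y.2 g

/-- The number of calls. -/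
def cnt (l : List (Option C × List Q)) : ℕ := (l.filter fun y => y.1.isSome).length

variable {base : C → List Q} {body : C → List (Option C × List Q)}

theorem fin_succ (i : ℕ) (l : List (Option C × List Q)) :
    fin (tree base body (i + 1)) l = fin (tree base body i) (stp body l) := by
  unfold fin stp
  rw [List.flatMap_assoc]
  refine List.flatMap_congr fun y _ => ?_
  rcases y with ⟨_ | x, q⟩
  · simp
  · rfl

theorem fin_iter (i : ℕ) : ∀ l : List (Option C × List Q),
    fin (tree base body i) l = fin base ((stp body)^[i] l) := by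
  induction i with
  | zero => exact fun l => rfl
  | succ i ih => exact fun l => by rw [fin_succ, ih, Function.iterate_succ_apply]

theorem stp_cons (y : Option C × List Q) (l : List (Option C × List Q)) :
    stp body (y :: l) = y.1.elim [y] body ++ stp body l := List.flatMap_cons

theorem cnt_append (l l' : List (Option C × List Q)) : cnt (l ++ l') = cnt l + cnt l' := by
  simp [cnt]

theorem cnt_stp {S : ℕ} (hS : ∀ x, cnt (body x) ≤ S) (l : List (Option C × List Q)) :
    cnt (stp body l) ≤ cnt l * S := by
  induction l with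
  | nil => simp [stp, cnt]
  | cons y l ih =>
    rw [stp_cons, cnt_append]
    rcases y with ⟨_ | x, q⟩
    · simpa [cnt] using ih
    · have h1 : cnt ((some x, q) :: l) = cnt l + 1 := by simp [cnt]
      have h2 := hS x
      rw [h1, Option.elim_some, Nat.succ_mul]
      omega

theorem inv_stp {I : C → Prop} (hI : ∀ x, I x → ∀ y ∈ body x, ∀ x', y.1 = some x' → I x')
    {l : List (Option C × List Q)} (h : ∀ y ∈ l, ∀ x, y.1 = some x → I x) :
    ∀ y ∈ stp body l, ∀ x, y.1 = some x → I x := by
  intro y hy x hx
  obtain ⟨⟨o, q⟩, hz, hy⟩ := List.mem_flatMap.1 hy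
  rcases o with _ | x'
  · rw [Option.elim_none, List.mem_singleton] at hy
    exact h _ hz x (hy ▸ hx)
  · exact hI x' (h _ hz x' rfl) y hy x hx

variable [Enc C] [Enc Q]

theorem esize_stp {B : ℕ} (l : List (Option C × List Q))
    (h : ∀ y ∈ l, ∀ x, y.1 = some x → esize (body x) ≤ B) :
    esize (stp body l) ≤ esize l + cnt l * B := by
  induction l with
  | nil => simp [stp]
  | cons y l ih =>
    have h0 := ih fun z hz => h z (List.mem_cons_of_mem _ hz)
    rw [stp_cons, esize_append, esize_list_cons]
    rcases y with ⟨_ | x, q⟩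
    · have h1 : cnt ((none, q) :: l) = cnt l := by simp [cnt]
      rw [h1, Option.elim_none, esize_list_cons, esize_list_nil]
      omega
    · have h1 : cnt ((some x, q) :: l) = cnt l + 1 := by simp [cnt]
      have h2 := h _ List.mem_cons_self x rfl
      rw [h1, Option.elim_some, Nat.add_mul (cnt l), one_mul]
      omega

theorem pt_elim {α β γ : Type} [Enc α] [Enc β] [Enc γ] {o : α → Option β} {f : α → γ} {g : β → γ}
    (ho : PT ∅ o) (hf : PT ∅ f) (hg : PT ∅ g) : PT ∅ fun a => (o a).elim (f a) g :=
  (PT.optCase ho hf (g := fun _ b => g b) (hg.comp PT.snd')).congr fun a => by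
    rcases o a <;> rfl

end TreeH

open TreeH

theorem tree_pt : TREE := by
  intro α C Q _ _ _ base body k bd c S Inv hbase hbody hk hc hkb hS hbd hcnt h0 hI
  obtain ⟨d, hd⟩ := hbody.pbd
  have hi : PT ∅ fun a => [((some (c a), []) : Option C × List Q)] :=
    PT.cons (hc.some.pair PT.nil) PT.nil
  have hs : PT ∅ (stp body) :=
    PT.flatMap (l := fun l => l)
      (f := fun _ (y : Option C × List Q) => y.1.elim [y] body) PT.id
      (pt_elim PT.snd'.fst (PT.cons PT.snd' PT.nil) hbody)
  have hf : PT ∅ (fin base) :=
    PT.flatMap (l := fun l => l)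
      (f := fun _ (y : Option C × List Q) => y.1.elim y.2 base) PT.id
      (pt_elim PT.snd'.fst PT.snd'.snd hbase)
  have hb : PBd fun a => esize [((some (c a), []) : Option C × List Q)] +
      k a * ((S ^ k a + 1) * (bd a + 2) ^ d) :=
    hi.pbd.add (hkb.mul ((hS.add (PBd.const 1)).mul ((hbd.add (PBd.const 2)).pow d)))
  refine (hf.comp (PT.iterate hk hkb hi hs hb fun a j hj => ?_)).congr fun a => ?_
  · have key : ∀ j ≤ k a, cnt ((stp body)^[j] [(some (c a), [])]) ≤ S ^ j ∧
        (∀ y ∈ (stp body)^[j] [(some (c a), [])], ∀ x, y.1 = some x → Inv a x) ∧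
        esize ((stp body)^[j] [(some (c a), [])]) ≤
          esize [((some (c a), []) : Option C × List Q)] + j * ((S ^ k a + 1) * (bd a + 2) ^ d) := by
      intro j
      induction j with
      | zero =>
        refine fun _ => ⟨by simp [cnt], fun y hy x hx => ?_, by simp⟩
        rw [Function.iterate_zero_apply, List.mem_singleton] at hy
        subst hy
        exact Option.some.inj hx ▸ h0 a
      | succ j ih =>
        intro hj
        obtain ⟨h1, h2, h3⟩ := ih (by omega)
        rw [Function.iterate_succ_apply']
        refine ⟨(cnt_stp hcnt _).trans ?_, inv_stp (fun x hx => (hI a x hx).2) h2, ?_⟩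
        · rw [pow_succ]
          exact Nat.mul_le_mul_right _ h1
        · have h4 := esize_stp (body := body) (B := (bd a + 2) ^ d) _ fun y hy x hx =>
            (hd x).trans (pb_mono d (hI a x (h2 y hy x hx)).1)
          have h5 : S ^ j ≤ S ^ k a + 1 := by
            rcases Nat.eq_zero_or_pos S with rfl | h
            · exact (Nat.pow_le_pow_left (Nat.zero_le 1) j).trans (by simp)
            · exact (Nat.pow_le_pow_right h (by omega)).trans (Nat.le_succ _)
          have h6 := Nat.mul_le_mul_right ((bd a + 2) ^ d) (h1.trans h5)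
          rw [Nat.succ_mul j]
          omega
    exact (key j hj).2.2.trans (Nat.add_le_add_left (Nat.mul_le_mul_right _ hj) _)
  · rw [← fin_iter]
    simp [fin]

theorem lg_eq_log {m : ℕ} (hm : 2 ≤ m) (n : ℕ) : lg m n = Nat.log m n := by
  rcases Nat.eq_zero_or_pos n with rfl | hn
  · simp [lg]
  have h1 : Nat.log m n ≤ n := Nat.log_le_self m n
  have h2 : ((List.range n).filter fun k => decide (m ^ (k + 1) ≤ n)) =
      List.range (Nat.log m n) := by
    obtain ⟨r, hr⟩ := Nat.exists_eq_add_of_le h1
    conv_lhs => rw [show List.range n = List.range (Nat.log m n + r) by rw [← hr]]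
    rw [List.range_add, List.filter_append, List.filter_eq_self.2, List.filter_eq_nil_iff.2,
      List.append_nil]
    · intro k hk
      obtain ⟨i, -, rfl⟩ := List.mem_map.1 hk
      rw [decide_eq_true_eq, ← Nat.le_log_iff_pow_le hm hn.ne']
      omega
    · intro k hk
      rw [decide_eq_true_eq, ← Nat.le_log_iff_pow_le hm hn.ne']
      exact List.mem_range.1 hk
  rw [lg, h2, List.length_range]

theorem lg_pow {m : ℕ} (hm : 2 ≤ m) (i : ℕ) : lg m (m ^ i) = i := by
  rw [lg_eq_log hm, Nat.log_pow hm]

theorem lg_le (m n : ℕ) : lg m n ≤ n :=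
  (List.length_filter_le _ _).trans (List.length_range).le

theorem pbd_lg {α : Type} [Enc α] {n : α → ℕ} (m : ℕ) (hb : PBd n) : PBd fun a => lg m (n a) :=
  hb.mono fun _ => lg_le _ _

theorem pt_lg {α : Type} [Enc α] {n : α → ℕ} (m : ℕ) (hn : PT ∅ n) (hb : PBd n) :
    PT ∅ fun a => lg m (n a) := by
  have h1 : PT ∅ fun p : α × ℕ => Min.min p.2 (n p.1) + 1 :=
    (PT.snd'.min (hn.comp PT.fst')).add (PT.const 1)
  have h2 : PBd fun p : α × ℕ => Min.min p.2 (n p.1) + 1 :=
    ((hb.comp (PT.fst' (A := ∅))).add (PBd.const 1)).mono fun p =>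
      Nat.add_le_add_right (min_le_right _ _) 1
  refine (PT.filter (f := fun a k => decide (m ^ (Min.min k (n a) + 1) ≤ n a)) (PT.range hn hb)
    (((PT.const m).pow h1 h2).le (hn.comp PT.fst'))).length.congr fun a => ?_
  unfold lg
  congr 1
  refine List.filter_congr fun k hk => ?_
  rw [min_eq_left (List.mem_range.1 hk).le]

/-- A constant list. -/
theorem pt_flatMap_const {α β ι : Type} [Enc α] [Enc β] (l : List ι) {f : α → ι → List β}
    (h : ∀ i ∈ l, PT ∅ fun a => f a i) : PT ∅ fun a => l.flatMap (f a) := by
  induction l with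
  | nil => exact PT.nil
  | cons i l ih =>
    exact ((h i List.mem_cons_self).append
      (ih fun j hj => h j (List.mem_cons_of_mem _ hj))).congr fun a => List.flatMap_cons.symm

end Vale.Agent.P338Z
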