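import Vale.Agent.P338Z.Gen.Crec1
import Vale.Agent.P338Z.Gen.Tree
import Vale.Agent.P338Z.Ps.Dia
import Vale.Agent.P338Z.Ps.Acc

/-!
P338 power saving: the complex network on the machine.
-/

namespace Vale.Agent.P338Z

open Vale.Agent.P338.R3.H968 Vale.Agent.P338.R3.H898

namespace Crec

variable {L : Lay} {Δ : ℕ}

/-- The arrays of the roles below `T` change by `Ψ`. -/
def Arr (L : Lay) (T : ℕ) (Ψ : ((Fin L.K → ZMod 2) → ℕ → ℂ) → (Fin L.K → ZMod 2) → ℕ → ℂ)
    (F F' : ℕ → Cell) : Prop :=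
  ∀ t < T, ∀ δ, L.Real δ → δ 0 % 2 = 0 → vir L F' t δ = Ψ (vir L F t δ)

/-- The wires change by `Ψ`. -/
def Wir (L : Lay) (W T : ℕ)
    (Ψ : (ℕ → (Fin L.K → ZMod 2) → ℕ → ℂ) → ℕ → (Fin L.K → ZMod 2) → ℕ → ℂ)
    (F F' : ℕ → Cell) : Prop :=
  ∀ t < T, ∀ δ, L.Real δ → δ 0 % 2 = 0 → ∀ w < W,
    vir L F' (w * T + t) δ = Ψ (fun w => vir L F (w * T + t) δ) w

theorem arr_seq {P : CPar} {l l' : List Ps} {N T : ℕ} {Ψ Ψ'} (h : Blk P l N (Arr L T Ψ))
    (h' : Blk P l' N (Arr L T Ψ')) : Blk P (l ++ l') N (Arr L T fun z => Ψ' (Ψ z)) :=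
  (h.seq h').mono fun _ _ ⟨_, h1, h2⟩ t ht δ hδ h0 => by rw [h2 t ht δ hδ h0, h1 t ht δ hδ h0]

theorem cell_lt {W N w v : ℕ} (hw : w < W) (hv : v < N) : w * N + v < W * N := by
  have h1 := Nat.mul_le_mul_right N (show w + 1 ≤ W from hw)
  rw [add_mul, one_mul] at h1
  omega

/-- Passes on one wire. -/
theorem wire (h : L.Ok Δ) {P : CPar} {l : List Ps} {W T w0 : ℕ} (hw : w0 < W) {Ψ}
    (hl : Blk P l (T * L.N) (Arr L T Ψ)) :
    Blk P (subL (w0 * (T * L.N)) l) (W * (T * L.N))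
      (Wir L W T fun y w => if w = w0 then Ψ (y w) else y w) := by
  have h1 := Nat.mul_le_mul_right (T * L.N) (show w0 + 1 ≤ W from hw)
  rw [add_mul, one_mul] at h1
  refine (sub P l (T * L.N) _ _ _ h1 hl).mono ?_
  rintro F F' ⟨⟨G, h2, h3⟩, h4⟩ t ht δ hδ h0 w hw'
  simp only [vir_shift]
  by_cases e : w = w0
  · subst e
    rw [if_pos rfl, vir_congr h ht hδ h0 h3, h2 t ht δ hδ h0]
  · rw [if_neg e]
    refine vir_congr h ht hδ h0 fun u hu => h4 _ (cell_lt hw' hu) ?_
    rcases Nat.lt_or_gt_of_ne e with e1 | e1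
    · exact Or.inl (cell_lt e1 hu)
    · have h5 := Nat.mul_le_mul_right (T * L.N) (show w0 + 1 ≤ w from e1)
      rw [add_mul, one_mul] at h5
      omega

/-- All wires but one are multiplied by a power of two. -/
theorem scale (h : L.Ok Δ) {P : CPar} (hP : P.Ok) {W T w0 g : ℕ} (hg : P.s + g + 2 ≤ P.b) :
    Blk P [pDia P.s (W * (T * L.N)) (selW (T * L.N) w0) [] [(2 ^ g, 0), (1, 0)]] (W * (T * L.N))
      (Wir L W T fun y w => (if w = w0 then 1 else (2 : ℂ) ^ g) • y w) := by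
  have hb : ∀ k ≤ g, 2 * ((2 : ℤ) ^ k * 2 ^ P.s) < 2 ^ P.b := fun k hk => by
    rw [← pow_add, ← pow_succ']
    exact pow_lt_pow_right₀ one_lt_two (by omega)
  have h1 : 2 * ((1 : ℤ) * 2 ^ P.s) < 2 ^ P.b := by simpa using hb 0 (Nat.zero_le _)
  refine (dia P _ _ _ _ hP ((N_even h).mul_left _ |>.mul_left _) ?_).mono ?_
  · intro c hc
    simp only [List.mem_cons, List.not_mem_nil, or_false] at hc
    rcases hc with rfl | rfl | rfl
    · exact ⟨by simpa using h1, by simp⟩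
    · exact ⟨by simpa using hb g le_rfl, by simp⟩
    · exact ⟨by simpa using h1, by simp⟩
  · intro F F' hF t ht δ hδ h0 w hw
    funext x j
    have h2 := h.ad_lt ht (real_lt h (real_put h hδ x))
    obtain ⟨v, hv⟩ : ∃ v, L.ad (w * T + t) (L.put δ x) = 2 * v :=
      ⟨L.ad (w * T + t) (L.put δ x) / 2, by have := ad_even h (w * T + t) h0 x; omega⟩
    have h3 : 2 * v = w * (T * L.N) + L.ad t (L.put δ x) := by rw [← hv, ad_shift]
    have h4 : 2 * v / (T * L.N) = w := by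
      rw [h3, add_comm, Nat.add_mul_div_right _ _ (by omega), Nat.div_eq_of_lt h2, zero_add]
    obtain ⟨h5, h6⟩ := hF v (h3 ▸ cell_lt hw h2) j
    have h7 : dcst (selW (T * L.N) w0) [] [(2 ^ g, 0), (1, 0)] (2 * v) =
        (if w = w0 then 1 else 2 ^ g, 0) := by
      rw [dcst, selW, sev_selEq, fev_fl, Nat.mod_zero, h4]
      by_cases e : w = w0 <;> simp [e, pev]
    rw [h7] at h5 h6
    simp only [vir, hv, h5, h6, Pi.smul_apply, smul_eq_mul]
    by_cases e : w = w0 <;> simp [e, mul_add, mul_left_comm]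

/-- A gate on the empty block. -/
theorem gate_zero {P : CPar} (hP : P.Ok) (hb : P.s + 3 ≤ P.b) (i j : ℕ) (n f : Bool) :
    Blk P (gateL P.s 0 0 i j n f) 0 fun _ _ => True := by
  have h2 : 2 * ((2 : ℤ) * 2 ^ P.s) < 2 ^ P.b := by
    rw [← pow_succ', ← pow_succ']
    exact pow_lt_pow_right₀ one_lt_two (by omega)
  have h1 : 2 * ((1 : ℤ) * 2 ^ P.s) < 2 ^ P.b := by
    have : (0 : ℤ) < 2 ^ P.s := by positivity
    omega
  have hE : ∀ s : Sel, Enum 0 0 s id := fun s =>
    ⟨fun _ _ _ h => absurd h (by omega), fun _ h => absurd h (by omega),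
      fun _ h => absurd h (by omega)⟩
  have hA := acc P (bif n then 1 else 0) 0 0 _ _ _ _ (hE (selW 0 j)) (hE (selW 0 i))
  have hD : ∀ a b : ℤ, a = 1 ∨ a = 2 → b = 1 ∨ b = 2 →
      Blk P [pDia P.s 0 (selW 0 j) [] [(a, 0), (b, 0)]] 0 fun _ _ => True := fun a b ha hb' => by
    refine (dia P _ _ _ _ hP (dvd_zero 2) ?_).mono fun _ _ _ => trivial
    intro c hc
    simp only [List.mem_cons, List.not_mem_nil, or_false] at hc
    rcases hc with rfl | rfl | rfl
    · exact ⟨by simpa using h1, by simp⟩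
    · rcases ha with rfl | rfl
      · exact ⟨by simpa using h1, by simp⟩
      · exact ⟨by simpa using h2, by simp⟩
    · rcases hb' with rfl | rfl
      · exact ⟨by simpa using h1, by simp⟩
      · exact ⟨by simpa using h2, by simp⟩
  cases f
  · exact hA.mono fun _ _ _ => trivial
  · exact ((hD 2 1 (by simp) (by simp)).seq (hA.seq (hD 1 2 (by simp) (by simp)))).mono
      fun _ _ _ => trivial

/-- A gate. -/
theorem gate_w (hG : GATE) (h : L.Ok Δ) {P : CPar} (hP : P.Ok) (hb : P.s + 3 ≤ P.b)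
    {W T i j : ℕ} (hi : i < W) (hj : j < W) (hne : j ≠ i) (n f : Bool) :
    Blk P (gateL P.s (W * (T * L.N)) (T * L.N) i j n f) (W * (T * L.N))
      (Wir L W T fun y w => (2 : ℂ) ^ (if f then 1 else 0) •
        Function.update y i (y i + csc n f • y j) w) := by
  rcases Nat.eq_zero_or_pos T with rfl | hT
  · simp only [zero_mul, mul_zero]
    exact (gate_zero hP hb i j n f).mono fun _ _ _ t ht => absurd ht (Nat.not_lt_zero t)
  refine (hG P W (T * L.N) i j n f hP hb ((N_even h).mul_left _) (Nat.mul_pos hT h.N_pos) hi hj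
    hne).mono ?_
  intro F F' hF t ht δ hδ h0 w hw
  funext x k
  have h1 := h.ad_lt ht (real_lt h (real_put h hδ x))
  have h2 := h.ad_lt ht (real_lt h (real_put h (real_up h hδ h0) x))
  rw [ad_up] at h2
  have h3 := hF w hw _ h1 k
  have h4 := hF w hw _ h2 k
  by_cases e : w = i
  · subst e
    simp only [Function.update_self, vir, ad_shift, add_assoc, h3, h4, Pi.smul_apply, Pi.add_apply,
      smul_eq_mul, csc]
    cases n <;> cases f <;> simp <;> ring
  · simp only [Function.update_of_ne e, vir, ad_shift, add_assoc, h3, h4, Pi.smul_apply,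
      smul_eq_mul, if_neg e]
    cases f <;> simp
    ring

/-- The addition of selected bits. -/
theorem xor_a {ν : Nets} (hx : XOR ν) (h : L.Ok ν.Δ) (P : CPar) {i T km : ℕ}
    {tg : List (ℕ × Option ℕ)} (hi : ν.m ^ i ≤ L.K) (hl : tg.length ≤ ν.m ^ i)
    (hn : (tg.map Prod.fst).Nodup) (hkm : km < L.K)
    (htg : ∀ y ∈ tg, y.1 ≤ km ∧ ∀ c, y.2 = some c → km < c ∧ c < L.K) :
    Blk P (xorL ν L (ν.m ^ i) (2 ^ (ν.r * i) * T * L.N) km tg) (2 ^ (ν.r * i) * T * L.N)
      (Arr L (2 ^ (ν.r * i) * T) fun z x => z (sig tg x)) :=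
  (hx P L i T km tg h hi hl hn hkm htg).mono fun _ _ hF t ht _ hδ h0 =>
    vir_xor h hkm tg hn htg (hF t ht) hδ h0

/-- One bit. -/
theorem base (hS : SQ) (h : L.Ok Δ) {P : CPar} (hP : P.Ok) (hb : P.s + 3 ≤ P.b) (n : Bool)
    {k0 : ℕ} (hk : k0 < L.K) (T : ℕ) :
    Blk P (sqL n P.s (T * L.N) (L.B (L.fb k0))) (T * L.N)
      (Arr L T fun z => (2 : ℂ) • cop n (uv L.K k0) z) := by
  have hf := fb_lt hk
  have e1 : L.B 1 = 4 := by rw [Lay.B_succ, Lay.B_zero, h.zero.1]
  obtain ⟨B, hB⟩ : ∃ B, L.B (L.fb k0) = 2 * B := by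
    obtain ⟨c, hc⟩ := L.B_dvd (show 1 ≤ L.fb k0 by unfold Lay.fb; omega)
    exact ⟨2 * c, by rw [hc, e1]; ring⟩
  have hB0 : 0 < B := by
    have := h.B_pos (L.fb k0)
    omega
  have e2 : L.B (L.fb k0 + 1) = 2 * (2 * B) := by rw [Lay.B_succ, hB, (h.bit k0 hk).1, mul_comm]
  have e3 : T * L.N = T * L.W (L.fb k0 + 1) (L.nf - (L.fb k0 + 1)) * (2 * (2 * B)) := by
    rw [h.N_split (a := L.fb k0 + 1) hf, e2, mul_assoc]
  rw [e3, hB]
  refine (hS P n _ B hP hb hB0).mono ?_
  intro F F' hF t ht δ hδ h0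
  funext x j
  have hr := real_lt h (real_put h hδ x)
  have a1 : ∀ y : Fin L.K → ZMod 2, L.ad t (L.put δ y) =
      ((t * L.W (L.fb k0 + 1) (L.nf - (L.fb k0 + 1)) +
        L.seg (L.fb k0 + 1) (L.nf - (L.fb k0 + 1)) (L.put δ y)) * 2 + (y ⟨k0, hk⟩).val) * (2 * B) +
        L.low (L.fb k0) (L.put δ y) := fun y => by
    rw [h.ad_split (a := L.fb k0 + 1) hf, e2, Lay.low_succ, put_fb _ _ hk, hB]
    ring
  have a2 : ∀ f, f ≠ L.fb k0 → L.put δ (x + uv L.K k0) f = L.put δ x f := fun f hne => by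
    by_cases e : ∃ k < L.K, f = L.fb k
    · obtain ⟨k, hk', rfl⟩ := e
      have h1 : k ≠ k0 := fun e' => hne (by rw [e'])
      rw [put_fb _ _ hk', put_fb _ _ hk']
      simp [uv, h1]
    · rw [put_not _ _ fun k hk e1 => e ⟨k, hk, e1⟩, put_not _ _ fun k hk e1 => e ⟨k, hk, e1⟩]
  have a3 : ((x + uv L.K k0) ⟨k0, hk⟩).val = 1 - (x ⟨k0, hk⟩).val := by
    simp only [Pi.add_apply, uv, if_true]
    generalize x ⟨k0, hk⟩ = a
    revert a
    decide
  have a4 := a1 (x + uv L.K k0)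
  rw [a3, L.seg_congr (d' := L.put δ x) fun j _ => a2 _ (by omega),
    L.low_congr (d' := L.put δ x) fun f hf' => a2 _ (by omega)] at a4
  have a5 : L.low (L.fb k0) (L.put δ x) < 2 * B := hB ▸ L.low_lt fun f hf' => hr f (by omega)
  obtain ⟨i, hi⟩ : ∃ i, L.low (L.fb k0) (L.put δ x) = 2 * i := by
    have h1 := ad_even h t h0 x
    rw [a1 x, ← mul_assoc, mul_right_comm] at h1
    exact ⟨L.low (L.fb k0) (L.put δ x) / 2, by omega⟩
  have a6 : L.seg (L.fb k0 + 1) (L.nf - (L.fb k0 + 1)) (L.put δ x) <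
      L.W (L.fb k0 + 1) (L.nf - (L.fb k0 + 1)) := L.seg_lt fun j hj => hr _ (by omega)
  have a7 := hF _ (cell_lt ht a6) _ (ZMod.val_lt (x ⟨k0, hk⟩)) i (by omega) j
  simp only [vir, cop, Pi.smul_apply, smul_eq_mul]
  rw [a4, a1 x, hi, a7]
  ring

/-- The exponent of the scale of one instruction. -/
def scI (g : ℕ) (x : CI) : ℕ :=
  if x.1 = 0 then (if x.2.2.2.2.1 then 1 else 0) else if x.1 = 1 then g else 0

theorem sum_sc (g : ℕ) : ∀ l : List CI, (l.map (scI g)).sum =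
    (l.filter fun c => decide (c.1 = 1)).length * g +
      (l.filter fun c => decide (c.1 = 0) && c.2.2.2.2.1).length
  | [] => by simp
  | x :: l => by
    rw [List.map_cons, List.sum_cons, sum_sc g l, List.filter_cons, List.filter_cons]
    unfold scI
    by_cases h0 : x.1 = 0
    · by_cases h1 : x.2.2.2.2.1 = true <;> simp [h0, h1]
      ring
    · by_cases h1 : x.1 = 1 <;> simp [h0, h1]
      ring

theorem crun_smul {M : Type} [AddCommGroup M] [Module ℂ M] (m W : ℕ)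
    (Φ : ((Fin m → ZMod 2) → ZMod 4) → M →ₗ[ℂ] M) (a : ℂ) {y z : ℕ → M}
    (h : ∀ w < W, y w = a • z w) {x : CI} (hx : x.2.1 < W ∧ (x.1 = 0 → x.2.2.1 < W)) {w : ℕ}
    (hw : w < W) : crun m Φ y x w = a • crun m Φ z x w := by
  unfold crun
  by_cases e : w = x.2.1
  · subst e
    split_ifs with h0 h1 h2
    · simp only [Function.update_self]
      rw [h _ hx.1, h _ (hx.2 h0), smul_add, smul_comm]
    all_goals
      simp only [Function.update_self]
      rw [h _ hx.1, map_smul]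
  · split_ifs <;> simp only [Function.update_of_ne e] <;> exact h w hw

end Crec

open Crec

theorem crec_of {ν : Nets} (hS : SQ) (hG : GATE) (hF : FRM) (hx : XOR ν) (h : ν.Ok) : CREC ν := by
  have hm2 : 2 ≤ ν.m := le_trans (by norm_num) (Nat.le_of_dvd h.mpos h.m8)
  intro P L i n k0 T hP hL
  induction i generalizing n k0 T with
  | zero =>
    intro hk hb
    have h1 := hb 0 le_rfl
    simp only [mul_zero, pow_zero, one_mul] at hk ⊢
    exact (base hS hL hP h1 n (k0 := k0) (by omega) T).mono fun F F' h2 t ht δ hδ h0 => by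
      rw [h2 t ht δ hδ h0]
      simp [gam]
  | succ i ih =>
    intro hk hb
    have hb0 : P.s + 3 ≤ P.b := hb 0 (Nat.zero_le _)
    have hbi := hb i (Nat.le_succ i)
    have hmn : ν.m ^ (i + 1) = ν.m * ν.m ^ i := pow_succ' _ _
    have hdiv : ν.m ^ (i + 1) / ν.m = ν.m ^ i := by rw [hmn, Nat.mul_div_cancel_left _ h.mpos]
    have hn0 : 0 < ν.m ^ i := pow_pos h.mpos i
    obtain ⟨Φ, f0, f1, f2, f3, f4⟩ := hF L.K ν.m (ν.m ^ i) k0 (hmn ▸ hk) n
    obtain ⟨T', hT'⟩ : ∃ T', T' = 2 ^ (ν.r * (i + 1)) * (2 ^ (ν.r * i) * T) := ⟨_, rfl⟩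
    have eT : 2 ^ (ν.r * (2 * (i + 1))) * T = 2 ^ ν.r * T' := by rw [hT']; ring
    have eT2 : T' = 2 ^ (ν.r * (2 * i)) * (2 ^ ν.r * T) := by rw [hT']; ring
    have eN : 2 ^ ν.r * (T' * L.N) / 2 ^ ν.r = T' * L.N :=
      Nat.mul_div_cancel_left _ (by positivity)
    rw [eT, mul_assoc]
    have key : ∀ x ∈ ν.cp, Blk P ((insC ν (n, 2 ^ ν.r * (T' * L.N), k0, ⟨ν.m ^ (i + 1)⟩, P.s, L)
        x).flatMap fun y => y.1.elim y.2 (genC ν i)) (2 ^ ν.r * (T' * L.N))
        (Wir L (2 ^ ν.r) T' fun y w => (2 : ℂ) ^ scI (gam ν i) x • crun ν.m Φ y x w) := by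
      intro x hx'
      obtain ⟨w1, w2⟩ := h.c.wire x hx'
      unfold insC scI crun
      by_cases h0 : x.1 = 0
      · simp only [if_pos h0, List.flatMap_cons, List.flatMap_nil, Option.elim_none,
          List.append_nil, eN]
        exact gate_w hG hL hP hb0 w1 (w2 h0).1 (w2 h0).2 _ _
      obtain ⟨l1, l2⟩ := h.c.lab x hx' h0
      obtain ⟨u1, -, -⟩ := uHi_spec l2
      rw [l1] at u1
      have hm := Nat.mul_le_mul_right (ν.m ^ i) (show uHi x.2.2.2.2.2 + 1 ≤ ν.m from u1)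
      rw [add_mul, one_mul] at hm
      by_cases h1 : x.1 = 1
      · simp only [if_neg h0, if_pos h1, List.flatMap_cons, List.flatMap_nil, Option.elim_none,
          Option.elim_some, List.append_nil, eN, hdiv, lg_pow hm2]
        have htg : ∀ y ∈ tgC x.2.2.2.2.2 k0 (ν.m ^ i),
            y.1 ≤ k0 + uHi x.2.2.2.2.2 * ν.m ^ i - 1 ∧ ∀ c, y.2 = some c →
              k0 + uHi x.2.2.2.2.2 * ν.m ^ i - 1 < c ∧ c < L.K := by
          intro y hy
          obtain ⟨b, hb', c, hc, rfl⟩ := mem_grid hy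
          have h2 := cell_lt hb' hc
          refine ⟨by simp only; omega, fun c' e => ?_⟩
          simp only [Option.some.injEq] at e
          omega
        have x1 := xor_a hx hL P (i := i + 1) (T := 2 ^ (ν.r * i) * T)
          (km := k0 + uHi x.2.2.2.2.2 * ν.m ^ i - 1) (tg := tgC x.2.2.2.2.2 k0 (ν.m ^ i))
          (by omega) ((length_grid _ _ _ _).trans (by omega)) (nodup_grid _ _ _ _ _) (by omega) htg
        rw [← hT'] at x1
        have x2 := ih (xor n x.2.2.2.1) (k0 + uHi x.2.2.2.2.2 * ν.m ^ i) (2 ^ ν.r * T) (by omega)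
          fun i' hi' => hb i' (by omega)
        rw [← eT2] at x2
        have x3 := arr_seq x1 (arr_seq (L := L) (T := T') (Ψ := fun z => (2 : ℂ) ^ gam ν i •
          (List.range (ν.m ^ i)).foldr (fun c => cop (xor n x.2.2.2.1)
            (uv L.K (k0 + uHi x.2.2.2.2.2 * ν.m ^ i + c))) z) x2 x1)
        have x4 := (wire hL w1 x3).seq (scale hL hP (W := 2 ^ ν.r) (T := T') (w0 := x.2.1) hbi)
        simp only [subL, List.append_assoc] at x4 ⊢
        refine x4.mono ?_
        rintro F F'' ⟨F', y1, y2⟩ t ht δ hδ hδ0 w hw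
        rw [y2 t ht δ hδ hδ0 w hw]
        simp only
        rw [y1 t ht δ hδ hδ0 w hw]
        by_cases e : w = x.2.1
        · subst e
          simp only [if_true, one_smul, Function.update_self]
          have e1 := conj_cop _ (sig_sig _ htg) (sig_add _ fun y hy => by
              obtain ⟨b, _, c, _, rfl⟩ := mem_grid hy
              rfl) (xor n x.2.2.2.1) (fun c => uv L.K (k0 + uHi x.2.2.2.2.2 * ν.m ^ i + c))
            (vir L F (x.2.1 * T' + t) δ) (List.range (ν.m ^ i))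
          rw [f2]
          refine Eq.trans ?_ (congrArg ((2 : ℂ) ^ gam ν i • ·) (e1.trans
            (foldr_congr _ _ fun c hc => by
              rw [sig_tgC l1 l2 (hmn ▸ hk) (List.mem_range.1 hc)])))
          rfl
        · simp only [if_neg e, Function.update_of_ne e]
      · simp only [if_neg h0, if_neg h1, List.flatMap_cons, List.flatMap_nil, Option.elim_none,
          List.append_nil, eN, hdiv]
        have htg : ∀ y ∈ tgF x.2.2.2.2.2 k0 (ν.m ^ i),
            y.1 ≤ k0 + ν.m ^ (i + 1) - 1 ∧ ∀ c, y.2 = some c →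
              k0 + ν.m ^ (i + 1) - 1 < c ∧ c < L.K := by
          intro y hy
          obtain ⟨b, hb', c, hc, rfl⟩ := mem_grid hy
          rw [l1] at hb'
          have h2 := cell_lt hb' hc
          exact ⟨by simp only; omega, fun c' e => by simp at e⟩
        have x1 := xor_a hx hL P (i := i + 1) (T := 2 ^ (ν.r * i) * T)
          (km := k0 + ν.m ^ (i + 1) - 1) (tg := tgF x.2.2.2.2.2 k0 (ν.m ^ i))
          (by omega) ((length_grid _ _ _ _).trans (by rw [l1]; omega))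
          (nodup_grid _ _ _ _ fun _ => none) (by omega) htg
        rw [← hT'] at x1
        refine (wire hL w1 x1).mono fun F F' y1 t ht δ hδ hδ0 w hw => ?_
        rw [y1 t ht δ hδ hδ0 w hw]
        by_cases e : w = x.2.1
        · subst e
          simp only [if_true, pow_zero, one_smul, Function.update_self]
          funext z
          rw [f3, sig, adv_tgF l1]
        · simp only [if_neg e, Function.update_of_ne e, pow_zero, one_smul]
    have ch := Blk.chain _ _ ν.cp key (fun l => Wir L (2 ^ ν.r) T' fun y w =>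
      (2 : ℂ) ^ (l.map (scI (gam ν i))).sum • l.foldl (crun ν.m Φ) y w)
      (fun F t _ δ _ _ w _ => by simp) (by
        intro l₁ x l₂ e F F' F'' y1 y2 t ht δ hδ hδ0 w hw
        obtain ⟨w1, w2⟩ := h.c.wire x (by simp [e])
        rw [y2 t ht δ hδ hδ0 w hw]
        simp only
        rw [crun_smul ν.m (2 ^ ν.r) Φ _ (fun w' hw' => y1 t ht δ hδ hδ0 w' hw')
          ⟨w1, fun h0 => (w2 h0).1⟩ hw, List.foldl_append, List.map_append, List.sum_append,
          smul_smul, ← pow_add, add_comm]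
        simp)
    rw [genC, tree, List.flatMap_assoc]
    refine ch.mono fun F F' y t ht δ hδ hδ0 => ?_
    have hT0 : 0 < T' := Nat.pos_of_ne_zero fun e => by simp [e] at ht
    have y1 := y (t % T') (Nat.mod_lt _ hT0) δ hδ hδ0 (t / T') (Nat.div_lt_of_lt_mul (by
      rwa [mul_comm]))
    simp only at y1
    rw [h.c.sem _ Φ f0 f1 _ _ (Nat.div_lt_of_lt_mul (by rwa [mul_comm])), f4, sum_sc,
      Nat.div_add_mod', ← hmn] at y1
    exact y1

end Vale.Agent.P338Z
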