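import Vale.Agent.P338Z.Gen.Defs

/-!
P338 power saving: digit lemmas for the padded layout, and the statement about `wadd`.
-/

namespace Vale.Agent.P338Z

open Vale.Agent.P338.R3.H968 Vale.Agent.P338.R3.H898

/-- **Early digits += `G`**, in groups of `per` digits, modulo `R ^ per`. -/
def WADD (ν : Nets) : Prop := ∀ (P : CPar) (L : Lay) (i per T : ℕ) (g : ℕ → Pl)
  (G : ℕ → (ℕ → ℕ) → ℕ), L.Ok ν.Δ → 0 < per → ν.m ^ i * per ≤ L.K →
  (∀ c < ν.m ^ i, ∀ (t : ℕ) (d : ℕ → ℕ), (∀ f < L.nf, d f < L.q f) →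
    pev (g c) (L.ad t d) ≡ G c d [MOD L.R ^ per]) →
  (∀ c < ν.m ^ i, ∀ d d' : ℕ → ℕ, (∀ f, L.K + 1 ≤ f → f < 3 * L.K + 2 → d f = d' f) →
    G c d = G c d') →
  Blk P (wadd ν L i (ν.m ^ i) (L.R ^ per) (2 ^ (ν.r * i) * T * L.N) g) (2 ^ (ν.r * i) * T * L.N)
    fun F F' => ∀ t < 2 ^ (ν.r * i) * T, ∀ d d' : ℕ → ℕ, (∀ f < L.nf, d f < L.q f) →
      (∀ f < L.nf, d' f < L.q f) →
      (∀ f < L.nf, (∀ y < ν.m ^ i * per, f ≠ L.fp y) → d' f = d f) →
      (∀ c < ν.m ^ i, vl L.R per (fun k => d' (L.fp (c * per + k))) ≡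
        vl L.R per (fun k => d (L.fp (c * per + k))) + G c d [MOD L.R ^ per]) →
      F' (L.ad t d') = F (L.ad t d)

/-! ### Values of digits of one radix -/

theorem vl_zero (Q : ℕ) (H : ℕ → ℕ) : vl Q 0 H = 0 := by simp [vl]

theorem vl_succ (Q n : ℕ) (H : ℕ → ℕ) : vl Q (n + 1) H = vl Q n H + H n * Q ^ n := by
  simp [vl, Finset.sum_range_succ]

theorem vl_add (Q a b : ℕ) (H : ℕ → ℕ) :
    vl Q (a + b) H = vl Q a H + vl Q b (fun k => H (a + k)) * Q ^ a := by
  induction b with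
  | zero => simp [vl_zero]
  | succ b ih => rw [← add_assoc, vl_succ, vl_succ, ih, pow_add]; ring

theorem vl_congr {Q n : ℕ} {H H' : ℕ → ℕ} (h : ∀ c < n, H c = H' c) : vl Q n H = vl Q n H' :=
  Finset.sum_congr rfl fun c hc => by rw [h c (Finset.mem_range.1 hc)]

theorem vl_lt {Q n : ℕ} {H : ℕ → ℕ} (h : ∀ c < n, H c < Q) : vl Q n H < Q ^ n := by
  induction n with
  | zero => simp [vl_zero]
  | succ n ih =>
    have h1 := ih fun c hc => h c (by omega)
    have h2 : H n + 1 ≤ Q := h n (by omega)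
    have h3 := Nat.mul_le_mul_right (Q ^ n) h2
    rw [vl_succ, pow_succ]
    nlinarith

/-- Groups of `per` digits. -/
theorem vl_group (R per n : ℕ) (H : ℕ → ℕ) :
    vl R (n * per) H = vl (R ^ per) n fun c => vl R per fun k => H (c * per + k) := by
  induction n with
  | zero => simp [vl_zero]
  | succ n ih => rw [add_mul, one_mul, vl_add, ih, vl_succ, ← pow_mul, mul_comm per n]

theorem div_mod_add (x y B q : ℕ) (hB : 0 < B) : (x + y * (B * q)) / B % q = x / B % q := by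
  have e : x + y * (B * q) = x + B * (y * q) := by ring
  rw [e, Nat.add_mul_div_left _ _ hB, Nat.add_mul_mod_self_right]

namespace Lay

variable (L : Lay)

/-- The product of the radices of `k` fields from `a` on. -/
def W (a k : ℕ) : ℕ := ∏ j ∈ Finset.range k, L.q (a + j)

/-- The value of `k` fields from `a` on. -/
def seg (a k : ℕ) (d : ℕ → ℕ) : ℕ := ∑ j ∈ Finset.range k, d (a + j) * L.W a j

/-- The value of the fields below `a`. -/
def low (a : ℕ) (d : ℕ → ℕ) : ℕ := ∑ f ∈ Finset.range a, d f * L.B f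

/-- The digits of an address. -/
def dig (u f : ℕ) : ℕ := u / L.B f % L.q f

theorem B_zero : L.B 0 = 1 := by simp [B]

theorem B_succ (f : ℕ) : L.B (f + 1) = L.B f * L.q f := by
  unfold B q
  by_cases h : f < L.2.2.1.length
  · rw [List.prod_take_succ _ _ h, List.getD_eq_getElem _ _ h]
  · rw [List.take_of_length_le (by omega), List.take_of_length_le (by omega),
      List.getD_eq_default _ _ (by omega), mul_one]

theorem W_zero (a : ℕ) : L.W a 0 = 1 := by simp [W]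

theorem W_succ (a k : ℕ) : L.W a (k + 1) = L.W a k * L.q (a + k) := by
  simp [W, Finset.prod_range_succ]

theorem B_add (a k : ℕ) : L.B (a + k) = L.B a * L.W a k := by
  induction k with
  | zero => simp [W_zero]
  | succ k ih => rw [← add_assoc, B_succ, ih, W_succ, mul_assoc]

theorem B_dvd {a b : ℕ} (h : a ≤ b) : L.B a ∣ L.B b := by
  obtain ⟨k, rfl⟩ := Nat.exists_eq_add_of_le h
  exact ⟨_, L.B_add a k⟩

theorem seg_zero (a : ℕ) (d : ℕ → ℕ) : L.seg a 0 d = 0 := by simp [seg]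

theorem seg_succ (a k : ℕ) (d : ℕ → ℕ) :
    L.seg a (k + 1) d = L.seg a k d + d (a + k) * L.W a k := by
  simp [seg, Finset.sum_range_succ]

theorem low_zero (d : ℕ → ℕ) : L.low 0 d = 0 := by simp [low]

theorem low_succ (a : ℕ) (d : ℕ → ℕ) : L.low (a + 1) d = L.low a d + d a * L.B a := by
  simp [low, Finset.sum_range_succ]

theorem low_add (a k : ℕ) (d : ℕ → ℕ) : L.low (a + k) d = L.low a d + L.seg a k d * L.B a := by
  induction k with
  | zero => simp [seg_zero]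
  | succ k ih => rw [← add_assoc, low_succ, ih, seg_succ, B_add]; ring

theorem ad_eq (t : ℕ) (d : ℕ → ℕ) : L.ad t d = t * L.N + L.low L.nf d := rfl

theorem seg_congr {a k : ℕ} {d d' : ℕ → ℕ} (h : ∀ j < k, d (a + j) = d' (a + j)) :
    L.seg a k d = L.seg a k d' :=
  Finset.sum_congr rfl fun j hj => by rw [h j (Finset.mem_range.1 hj)]

theorem low_congr {a : ℕ} {d d' : ℕ → ℕ} (h : ∀ f < a, d f = d' f) : L.low a d = L.low a d' :=
  Finset.sum_congr rfl fun j hj => by rw [h j (Finset.mem_range.1 hj)]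

theorem ad_congr (t : ℕ) {d d' : ℕ → ℕ} (h : ∀ f < L.nf, d f = d' f) : L.ad t d = L.ad t d' := by
  rw [ad_eq, ad_eq, L.low_congr h]

theorem seg_lt {a k : ℕ} {d : ℕ → ℕ} (h : ∀ j < k, d (a + j) < L.q (a + j)) :
    L.seg a k d < L.W a k := by
  induction k with
  | zero => simp [seg_zero, W_zero]
  | succ k ih =>
    have h1 := ih fun j hj => h j (by omega)
    have h2 : d (a + k) + 1 ≤ L.q (a + k) := h k (by omega)
    have h3 := Nat.mul_le_mul_right (L.W a k) h2
    rw [seg_succ, W_succ]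
    nlinarith

theorem low_lt {a : ℕ} {d : ℕ → ℕ} (h : ∀ f < a, d f < L.q f) : L.low a d < L.B a := by
  induction a with
  | zero => simp [low_zero, B_zero]
  | succ k ih =>
    have h1 := ih fun j hj => h j (by omega)
    have h2 : d k + 1 ≤ L.q k := h k (by omega)
    have h3 := Nat.mul_le_mul_right (L.B k) h2
    rw [low_succ, B_succ]
    nlinarith

theorem W_const {a k R : ℕ} (h : ∀ j < k, L.q (a + j) = R) : L.W a k = R ^ k := by
  induction k with
  | zero => simp [W_zero]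
  | succ k ih => rw [W_succ, ih fun j hj => h j (by omega), h k (by omega), pow_succ]

theorem seg_const {a k R : ℕ} (h : ∀ j < k, L.q (a + j) = R) (d : ℕ → ℕ) :
    L.seg a k d = vl R k fun j => d (a + j) :=
  Finset.sum_congr rfl fun j hj => by
    have hj' := Finset.mem_range.1 hj
    rw [L.W_const (k := j) fun j' h' => h j' (by omega)]

theorem low_dig (u a : ℕ) : L.low a (L.dig u) = u % L.B a := by
  induction a with
  | zero => simp [low_zero, B_zero, Nat.mod_one]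
  | succ a ih => rw [low_succ, ih, B_succ, Nat.mod_mul, dig, mul_comm]

variable {L} {Δ : ℕ}

theorem Ok.q_pos (h : L.Ok Δ) (f : ℕ) : 0 < L.q f := (h.pos f).1.trans_le (h.pos f).2

theorem Ok.W_pos (h : L.Ok Δ) (a k : ℕ) : 0 < L.W a k :=
  Finset.prod_pos fun _ _ => h.q_pos _

theorem Ok.B_pos (h : L.Ok Δ) (f : ℕ) : 0 < L.B f := by
  have e := L.B_add 0 f
  rw [zero_add, B_zero, one_mul] at e
  rw [e]
  exact h.W_pos 0 f

theorem Ok.B_nf (h : L.Ok Δ) : L.B L.nf = L.N := by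
  unfold B N
  rw [List.take_of_length_le h.lq.le]

theorem Ok.N_pos (h : L.Ok Δ) : 0 < L.N := h.B_nf ▸ h.B_pos _

theorem Ok.dig_lt (h : L.Ok Δ) (u f : ℕ) : L.dig u f < L.q f := Nat.mod_lt _ (h.q_pos f)

/-- Every number is an address. -/
theorem Ok.ad_dig (h : L.Ok Δ) (u : ℕ) : L.ad (u / L.N) (L.dig u) = u := by
  rw [ad_eq, low_dig, h.B_nf, mul_comm, Nat.div_add_mod]

theorem Ok.ad_lt (h : L.Ok Δ) {t T : ℕ} (ht : t < T) {d : ℕ → ℕ} (hd : ∀ f < L.nf, d f < L.q f) :
    L.ad t d < T * L.N := by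
  have h1 := L.low_lt hd
  have h3 := Nat.mul_le_mul_right L.N (show t + 1 ≤ T from ht)
  rw [h.B_nf] at h1
  rw [ad_eq]
  nlinarith

/-- The address split at the field `a`. -/
theorem Ok.ad_split (h : L.Ok Δ) {a : ℕ} (ha : a ≤ L.nf) (t : ℕ) (d : ℕ → ℕ) :
    L.ad t d = (t * L.W a (L.nf - a) + L.seg a (L.nf - a) d) * L.B a + L.low a d := by
  have e1 := L.low_add a (L.nf - a) d
  have e2 := L.B_add a (L.nf - a)
  rw [Nat.add_sub_cancel' ha] at e1 e2
  rw [ad_eq, e1, ← h.B_nf, e2]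
  ring

theorem Ok.N_split (h : L.Ok Δ) {a : ℕ} (ha : a ≤ L.nf) : L.N = L.W a (L.nf - a) * L.B a := by
  have e2 := L.B_add a (L.nf - a)
  rw [Nat.add_sub_cancel' ha] at e2
  rw [← h.B_nf, e2, mul_comm]

/-- The digits of an address. -/
theorem Ok.dig_ad (h : L.Ok Δ) (t : ℕ) {d : ℕ → ℕ} (hd : ∀ f < L.nf, d f < L.q f) {f : ℕ}
    (hf : f < L.nf) : L.dig (L.ad t d) f = d f := by
  have h1 : L.low f d < L.B f := L.low_lt fun j hj => hd j (by omega)
  rw [dig, h.ad_split (a := f + 1) hf, low_succ, B_succ, add_comm, div_mod_add _ _ _ _ (h.B_pos f),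
    Nat.add_mul_div_right _ _ (h.B_pos f), Nat.div_eq_of_lt h1, zero_add,
    Nat.mod_eq_of_lt (hd f hf)]

theorem Ok.fev_ad (h : L.Ok Δ) (t : ℕ) {d : ℕ → ℕ} (hd : ∀ f < L.nf, d f < L.q f) {f : ℕ}
    (hf : f < L.nf) : fev (fl (L.B f) (L.q f)) (L.ad t d) = d f := by
  rw [fev_fl]
  exact h.dig_ad t hd hf

theorem Ok.ad_div (h : L.Ok Δ) (t : ℕ) {d : ℕ → ℕ} (hd : ∀ f < L.nf, d f < L.q f) :
    L.ad t d / L.N = t := by
  have h1 := L.low_lt hd
  rw [h.B_nf] at h1
  rw [ad_eq, add_comm, Nat.add_mul_div_right _ _ h.N_pos, Nat.div_eq_of_lt h1, zero_add]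

/-- The digits of number at least `a` depend only on the quotient by the weight of `a`. -/
theorem dig_of_div {a f u v : ℕ} (haf : a ≤ f) (huv : u / L.B a = v / L.B a) :
    L.dig u f = L.dig v f := by
  obtain ⟨w, hw⟩ := L.B_dvd haf
  rw [dig, dig, hw, ← Nat.div_div_eq_div_mul, ← Nat.div_div_eq_div_mul, huv]

/-- The digits of number below `b` depend only on the residue modulo the weight of `b`. -/
theorem dig_mod {b f : ℕ} (hfb : f < b) (u : ℕ) : L.dig (u % L.B b) f = L.dig u f := by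
  have h1 : L.B f * L.q f ∣ L.B b := L.B_succ f ▸ L.B_dvd hfb
  rw [dig, dig, ← Nat.mod_mul_right_div_self, ← Nat.mod_mul_right_div_self,
    Nat.mod_mod_of_dvd _ h1]

end Lay

end Vale.Agent.P338Z
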