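import Vale.Agent.P338Z.Gen.Top
import Vale.Agent.P338Z.Gen.LayLem

/-!
P338 power saving: digits with selected bits, the complex arrays and the action of the bit
additions on them.
-/

namespace Vale.Agent.P338Z.Crec

open Vale.Agent.P338.R3.H968 Vale.Agent.P338.R3.H898

/-! ### Vectors of bits -/

/-- A vector of bits extended by zero. -/
def ext {K : ℕ} (x : Fin K → ZMod 2) (c : ℕ) : ZMod 2 := if h : c < K then x ⟨c, h⟩ else 0

theorem ext_add {K : ℕ} (x y : Fin K → ZMod 2) (c : ℕ) : ext (x + y) c = ext x c + ext y c := by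
  unfold ext
  split_ifs <;> simp

theorem ext_uv {K k c : ℕ} (hc : c < K) : ext (uv K k) c = if c = k then 1 else 0 := by
  simp [ext, uv, hc]

/-- The vector which is added by a list of targets with controls. -/
def adv {K : ℕ} (tg : List (ℕ × Option ℕ)) (x : Fin K → ZMod 2) : Fin K → ZMod 2 :=
  (tg.map fun y => (y.2.elim 1 (ext x)) • uv K y.1).sum

theorem adv_cons {K : ℕ} (y : ℕ × Option ℕ) (tg : List (ℕ × Option ℕ)) (x : Fin K → ZMod 2) :
    adv (y :: tg) x = (y.2.elim 1 (ext x)) • uv K y.1 + adv tg x := by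
  simp [adv]

theorem adv_zero {K : ℕ} (x : Fin K → ZMod 2) (k : Fin K) :
    ∀ tg : List (ℕ × Option ℕ), (∀ y ∈ tg, y.1 ≠ k) → adv tg x k = 0
  | [], _ => by simp [adv]
  | y :: tg, h => by
    have h1 : (k : ℕ) ≠ y.1 := fun e => h y (by simp) e.symm
    rw [adv_cons, Pi.add_apply, adv_zero x k tg fun z hz => h z (by simp [hz])]
    simp [uv, h1]

theorem adv_mem {K : ℕ} (x : Fin K → ZMod 2) (k : Fin K) :
    ∀ tg : List (ℕ × Option ℕ), (tg.map Prod.fst).Nodup → ∀ y ∈ tg, y.1 = k →
      adv tg x k = y.2.elim 1 (ext x)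
  | [], _, y, hy, _ => by simp at hy
  | z :: tg, h, y, hy, e => by
    rw [List.map_cons, List.nodup_cons] at h
    rw [adv_cons, Pi.add_apply]
    rcases List.mem_cons.1 hy with rfl | hy'
    · rw [adv_zero x k tg fun w hw e' => h.1 (List.mem_map.2 ⟨w, hw, e'.trans e.symm⟩)]
      simp [uv, e]
    · have h1 : (k : ℕ) ≠ z.1 := fun e' => h.1 (List.mem_map.2 ⟨y, hy', e.trans e'⟩)
      rw [adv_mem x k tg h.2 y hy' e]
      simp [uv, h1]

theorem adv_congr {K : ℕ} (tg : List (ℕ × Option ℕ)) {x x' : Fin K → ZMod 2}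
    (h : ∀ y ∈ tg, ∀ c, y.2 = some c → ext x c = ext x' c) : adv tg x = adv tg x' := by
  unfold adv
  refine congrArg List.sum (List.map_congr_left fun y hy => ?_)
  rcases e : y.2 with _ | c
  · rfl
  · simp only [Option.elim_some]
    rw [h y hy c e]

/-- The addition of the controls to the targets. -/
def sig {K : ℕ} (tg : List (ℕ × Option ℕ)) (x : Fin K → ZMod 2) : Fin K → ZMod 2 := x + adv tg x

theorem two_zero {K : ℕ} (x : Fin K → ZMod 2) : x + x = 0 := by
  funext k
  simp only [Pi.add_apply, Pi.zero_apply]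
  generalize x k = a
  revert a
  decide

theorem sig_sig {K km : ℕ} (tg : List (ℕ × Option ℕ))
    (h : ∀ y ∈ tg, y.1 ≤ km ∧ ∀ c, y.2 = some c → km < c ∧ c < K) (x : Fin K → ZMod 2) :
    sig tg (sig tg x) = x := by
  have e : adv tg (sig tg x) = adv tg x := adv_congr tg fun y hy c hc => by
    have h1 := (h y hy).2 c hc
    have h2 : ext (adv tg x) c = 0 := by
      rw [ext, dif_pos h1.2]
      exact adv_zero x _ tg fun z hz e => by
        have h3 := (h z hz).1
        simp only at e
        omega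
    rw [sig, ext_add, h2, add_zero]
  rw [sig, e, sig, add_assoc, two_zero, add_zero]

theorem adv_add {K : ℕ} (x x' : Fin K → ZMod 2) :
    ∀ tg : List (ℕ × Option ℕ), (∀ y ∈ tg, y.2.isSome = true) →
      adv tg (x + x') = adv tg x + adv tg x'
  | [], _ => by simp [adv]
  | y :: tg, h => by
    obtain ⟨c, hc⟩ := Option.isSome_iff_exists.1 (h y (by simp))
    rw [adv_cons, adv_cons, adv_cons, adv_add x x' tg fun z hz => h z (by simp [hz]), hc]
    simp only [Option.elim_some]
    rw [ext_add, add_smul]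
    abel

theorem sig_add {K : ℕ} (tg : List (ℕ × Option ℕ)) (h : ∀ y ∈ tg, y.2.isSome = true)
    (x x' : Fin K → ZMod 2) : sig tg (x + x') = sig tg x + sig tg x' := by
  rw [sig, sig, sig, adv_add x x' tg h]
  abel

/-- Conjugation of the square roots of translations by a linear involution. -/
theorem conj_cop {K : ℕ} (σ : (Fin K → ZMod 2) → Fin K → ZMod 2) (h1 : ∀ x, σ (σ x) = x)
    (h2 : ∀ x y, σ (x + y) = σ x + σ y) (n : Bool) (e : ℕ → Fin K → ZMod 2)
    (f : (Fin K → ZMod 2) → ℕ → ℂ) : ∀ l : List ℕ,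
    (fun x => l.foldr (fun c => cop n (e c)) (fun x => f (σ x)) (σ x)) =
      l.foldr (fun c => cop n (σ (e c))) f
  | [] => by
    funext x
    simp [h1]
  | c :: l => by
    funext x j
    simp only [List.foldr_cons]
    rw [← conj_cop σ h1 h2 n e f l]
    simp only [cop, h2, h1]

theorem foldr_congr {α β : Type*} {f g : α → β → β} (b : β) :
    ∀ l : List α, (∀ a ∈ l, f a = g a) → l.foldr f b = l.foldr g b
  | [], _ => rfl
  | a :: l, h => by
    rw [List.foldr_cons, List.foldr_cons, h a (by simp),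
      foldr_congr b l fun a' ha' => h a' (by simp [ha'])]

/-! ### Sums over the lists of targets -/

theorem sum_range_map {M : Type*} [AddCommMonoid M] (f : ℕ → M) (n : ℕ) :
    ((List.range n).map f).sum = ∑ c ∈ Finset.range n, f c := by
  induction n with
  | zero => simp
  | succ n ih => rw [List.range_succ, List.map_append, List.sum_append, ih,
      Finset.sum_range_succ]; simp

theorem sum_flat {M β : Type*} [AddCommMonoid M] (p : ℕ → Bool) (f : ℕ → List β) (g : β → M) :
    ∀ l : List ℕ, (((l.filter p).flatMap f).map g).sum =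
      (l.map fun b => if p b then ((f b).map g).sum else 0).sum
  | [] => by simp
  | b :: l => by
    have ih := sum_flat p f g l
    by_cases h : p b = true
    · rw [List.filter_cons_of_pos h, List.flatMap_cons, List.map_append, List.sum_append, ih]
      simp [h]
    · rw [List.filter_cons_of_neg h, ih]
      simp [h]

theorem getLastD_filter_range (p : ℕ → Bool) : ∀ n : ℕ, (∃ k < n, p k = true) →
    ((List.range n).filter p).getLastD 0 < n ∧ p (((List.range n).filter p).getLastD 0) = true ∧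
      ∀ k < n, p k = true → k ≤ ((List.range n).filter p).getLastD 0
  | 0, h => by
    obtain ⟨k, hk, _⟩ := h
    omega
  | n + 1, h => by
    rw [List.range_succ, List.filter_append]
    by_cases hn : p n = true
    · have e : [n].filter p = [n] := by simp [hn]
      rw [e, List.getLastD_concat]
      exact ⟨by omega, hn, fun k hk _ => by omega⟩
    · have e : [n].filter p = [] := by simp [hn]
      have h' : ∃ k < n, p k = true := by
        obtain ⟨k, hk, hp⟩ := h
        refine ⟨k, ?_, hp⟩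
        rcases Nat.lt_succ_iff_lt_or_eq.1 hk with h1 | h1
        · exact h1
        · exact absurd (h1 ▸ hp) hn
      obtain ⟨h1, h2, h3⟩ := getLastD_filter_range p n h'
      rw [e, List.append_nil]
      refine ⟨by omega, h2, fun k hk hp => h3 k ?_ hp⟩
      rcases Nat.lt_succ_iff_lt_or_eq.1 hk with h4 | h4
      · exact h4
      · exact absurd (h4 ▸ hp) hn

theorem uHi_spec {u : List Bool} (h : true ∈ u) : uHi u < u.length ∧ u.getD (uHi u) false = true ∧
    ∀ k < u.length, u.getD k false = true → k ≤ uHi u := by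
  refine getLastD_filter_range (fun k => u.getD k false) u.length ?_
  obtain ⟨k, hk, e⟩ := List.getElem_of_mem h
  exact ⟨k, hk, by rw [List.getD_eq_getElem _ _ hk, e]⟩

theorem nodup_grid (p : ℕ → Bool) (k0 n a : ℕ) (o : ℕ → Option ℕ) :
    ((((List.range a).filter p).flatMap fun b =>
      (List.range n).map fun c => (k0 + b * n + c, o c)).map Prod.fst).Nodup := by
  rw [List.map_flatMap, List.nodup_flatMap]
  refine ⟨fun b _ => ?_, ?_⟩
  · rw [List.map_map]
    exact List.nodup_range.map fun c c' e => by simpa using e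
  · refine List.Pairwise.imp ?_ ((List.pairwise_lt_range (n := a)).filter p)
    intro b b' hb
    simp only [Function.onFun, List.map_map, List.disjoint_left, List.mem_map, List.mem_range,
      Function.comp]
    rintro v ⟨c, hc, rfl⟩ ⟨c', hc', e⟩
    have h1 := Nat.mul_le_mul_right n (show b + 1 ≤ b' from hb)
    rw [add_mul, one_mul] at h1
    omega

theorem length_grid (p : ℕ → Bool) (n a : ℕ) (g : ℕ → ℕ → ℕ × Option ℕ) :
    (((List.range a).filter p).flatMap fun b => (List.range n).map (g b)).length ≤ a * n := by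
  induction a with
  | zero => simp
  | succ a ih =>
    rw [List.range_succ, List.filter_append, List.flatMap_append, List.length_append, add_mul,
      one_mul]
    refine Nat.add_le_add ih ?_
    by_cases h : p a = true <;> simp [h]

theorem mem_grid {p : ℕ → Bool} {n a : ℕ} {g : ℕ → ℕ → ℕ × Option ℕ} {y : ℕ × Option ℕ}
    (h : y ∈ ((List.range a).filter p).flatMap fun b => (List.range n).map (g b)) :
    ∃ b < a, ∃ c < n, y = g b c := by
  simp only [List.mem_flatMap, List.mem_filter, List.mem_range, List.mem_map] at h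
  obtain ⟨b, ⟨hb, _⟩, c, hc, e⟩ := h
  exact ⟨b, hb, c, hc, e.symm⟩

theorem adv_tgF {K m : ℕ} {u : List Bool} (hu : u.length = m) (k0 n : ℕ) (x : Fin K → ZMod 2) :
    adv (tgF u k0 n) x =
      ∑ c : Fin n, ∑ a : Fin m, if u.getD a false then uv K (k0 + a * n + c) else 0 := by
  rw [adv, tgF, sum_flat, sum_range_map, hu, Finset.sum_comm,
    Finset.sum_range (fun b => if u.getD b false = true then _ else 0)]
  refine Finset.sum_congr rfl fun a _ => ?_
  by_cases h : u.getD a false = true
  · simp only [h, if_true, List.map_map]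
    rw [sum_range_map, Finset.sum_range]
    simp
  · simp only [if_neg h, Finset.sum_const_zero]

theorem sig_tgC {K m : ℕ} {u : List Bool} (hu : u.length = m) (ht : true ∈ u) {k0 n c : ℕ}
    (hK : k0 + m * n ≤ K) (hc : c < n) :
    sig (tgC u k0 n) (uv K (k0 + uHi u * n + c)) =
      ∑ a : Fin m, if u.getD a false then uv K (k0 + a * n + c) else 0 := by
  obtain ⟨h1, h2, h3⟩ := uHi_spec ht
  rw [hu] at h1 h3
  have hm := Nat.mul_le_mul_right n (show uHi u + 1 ≤ m from h1)
  rw [add_mul, one_mul] at hm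
  have e1 : adv (tgC u k0 n) (uv K (k0 + uHi u * n + c)) =
      ∑ a ∈ Finset.range (uHi u), if u.getD a false then uv K (k0 + a * n + c) else 0 := by
    rw [adv, tgC, sum_flat, sum_range_map]
    refine Finset.sum_congr rfl fun a _ => ?_
    by_cases h : u.getD a false = true
    · simp only [h, if_true, List.map_map]
      rw [sum_range_map, Finset.sum_eq_single c]
      · simp only [Function.comp, Option.elim_some]
        rw [ext_uv (by omega), if_pos rfl, one_smul]
      · intro c' hc' hne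
        have h4 := Finset.mem_range.1 hc'
        simp only [Function.comp, Option.elim_some]
        rw [ext_uv (by omega), if_neg (by omega), zero_smul]
      · exact fun h4 => absurd (Finset.mem_range.2 hc) h4
    · rw [if_neg h, if_neg h]
  rw [sig, e1, ← Finset.sum_range (fun a => if u.getD a false = true then
      uv K (k0 + a * n + c) else 0),
    ← Finset.sum_subset (Finset.range_subset_range.2 (show uHi u + 1 ≤ m from h1)),
    Finset.sum_range_succ, if_pos h2, add_comm]
  intro a ha hb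
  rw [Finset.mem_range] at ha hb
  exact if_neg fun h4 => hb (Nat.lt_succ_of_le (h3 a ha h4))

/-! ### Digits -/

variable {L : Lay} {Δ : ℕ}

theorem fb_lt {k : ℕ} (hk : k < L.K) : L.fb k < L.nf := by
  unfold Lay.fb Lay.nf
  omega

theorem put_fb (δ : ℕ → ℕ) (x : Fin L.K → ZMod 2) {k : ℕ} (hk : k < L.K) :
    L.put δ x (L.fb k) = (x ⟨k, hk⟩).val := by
  have e : (L.fb k - (L.K + 2)) / 2 = k := by
    unfold Lay.fb
    omega
  have h : L.K + 2 ≤ L.fb k ∧ (L.fb k - (L.K + 2)) % 2 = 0 ∧ (L.fb k - (L.K + 2)) / 2 < L.K := by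
    unfold Lay.fb
    omega
  rw [Lay.put, dif_pos h]
  exact congrArg (fun z => (x z).val) (Fin.ext e)

theorem put_not (δ : ℕ → ℕ) (x : Fin L.K → ZMod 2) {f : ℕ} (hf : ∀ k < L.K, f ≠ L.fb k) :
    L.put δ x f = δ f := by
  refine dif_neg fun h => hf _ h.2.2 ?_
  unfold Lay.fb
  omega

theorem put_zero (δ : ℕ → ℕ) (x : Fin L.K → ZMod 2) : L.put δ x 0 = δ 0 :=
  put_not δ x fun k _ => by
    unfold Lay.fb
    omega

theorem real_put (h : L.Ok Δ) {δ : ℕ → ℕ} (hδ : L.Real δ) (x : Fin L.K → ZMod 2) :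
    L.Real (L.put δ x) := by
  intro f hf
  by_cases e : ∃ k < L.K, f = L.fb k
  · obtain ⟨k, hk, rfl⟩ := e
    rw [put_fb δ x hk, (h.bit k hk).2.1]
    exact ZMod.val_lt _
  · rw [put_not δ x fun k hk e' => e ⟨k, hk, e'⟩]
    exact hδ f hf

theorem real_lt (h : L.Ok Δ) {δ : ℕ → ℕ} (hδ : L.Real δ) : ∀ f < L.nf, δ f < L.q f :=
  fun f hf => (hδ f hf).trans_le (h.pos f).2

/-- The digits of the imaginary part. -/
def up (δ : ℕ → ℕ) : ℕ → ℕ := Function.update δ 0 (δ 0 + 1)

theorem real_up (h : L.Ok Δ) {δ : ℕ → ℕ} (hδ : L.Real δ) (h0 : δ 0 % 2 = 0) : L.Real (up δ) := by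
  intro f hf
  by_cases e : f = 0
  · subst e
    have h1 := hδ 0 hf
    rw [h.zero.2] at h1 ⊢
    simp only [up, Function.update_self]
    omega
  · rw [up, Function.update_of_ne e]
    exact hδ f hf

theorem ad_up (t : ℕ) (δ : ℕ → ℕ) (x : Fin L.K → ZMod 2) :
    L.ad t (L.put (up δ) x) = L.ad t (L.put δ x) + 1 := by
  have e : ∀ f, L.put (up δ) x (f + 1) = L.put δ x (f + 1) := fun f => by
    unfold Lay.put
    rw [up, Function.update_of_ne (Nat.succ_ne_zero f)]
  unfold Lay.ad Lay.nf
  rw [Finset.sum_range_succ', Finset.sum_range_succ' (fun f => L.put δ x f * L.B f), put_zero,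
    put_zero, Lay.B_zero]
  simp only [e]
  rw [up, Function.update_self]
  ring

theorem ad_even (h : L.Ok Δ) (t : ℕ) {δ : ℕ → ℕ} (h0 : δ 0 % 2 = 0) (x : Fin L.K → ZMod 2) :
    L.ad t (L.put δ x) % 2 = 0 := by
  have e : L.B 1 = 4 := by rw [Lay.B_succ, Lay.B_zero, h.zero.1]
  rw [h.ad_split (a := 1) (by unfold Lay.nf; omega), e, Lay.low_succ, Lay.low_zero, put_zero,
    Lay.B_zero]
  omega

theorem N_even (h : L.Ok Δ) : 2 ∣ L.N := by
  have e : L.B 1 = 4 := by rw [Lay.B_succ, Lay.B_zero, h.zero.1]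
  rw [h.N_split (a := 1) (by unfold Lay.nf; omega), e]
  exact Dvd.intro_left (L.W 1 (L.nf - 1) * 2) (by ring)

theorem ad_shift (w T t : ℕ) (d : ℕ → ℕ) : L.ad (w * T + t) d = w * (T * L.N) + L.ad t d := by
  unfold Lay.ad
  ring

theorem tog_put {km : ℕ} (hkm : km < L.K) (tg : List (ℕ × Option ℕ))
    (hn : (tg.map Prod.fst).Nodup)
    (h : ∀ y ∈ tg, y.1 ≤ km ∧ ∀ c, y.2 = some c → km < c ∧ c < L.K) (δ : ℕ → ℕ)
    (x : Fin L.K → ZMod 2) : L.tog tg (L.put δ x) = L.put δ (sig tg x) := by
  funext f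
  unfold Lay.tog
  rcases e : tg.find? fun y => decide (L.fb y.1 = f) with _ | y
  · rw [e, Option.elim_none]
    rw [List.find?_eq_none] at e
    by_cases e' : ∃ k < L.K, f = L.fb k
    · obtain ⟨k, hk, rfl⟩ := e'
      rw [put_fb _ _ hk, put_fb _ _ hk, sig, Pi.add_apply,
        adv_zero x _ tg fun y hy e1 => e y hy (by simp only at e1; simp [e1]), add_zero]
    · rw [put_not _ _ fun k hk e1 => e' ⟨k, hk, e1⟩, put_not _ _ fun k hk e1 => e' ⟨k, hk, e1⟩]
  · have hy := List.mem_of_find?_eq_some e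
    have e1 : L.fb y.1 = f := by simpa using List.find?_some e
    have hk : y.1 < L.K := (h y hy).1.trans_lt hkm
    rw [e, Option.elim_some]
    subst e1
    rw [put_fb _ _ hk, put_fb _ _ hk, sig, Pi.add_apply, adv_mem x ⟨y.1, hk⟩ tg hn y hy rfl,
      ZMod.val_add]
    rcases e2 : y.2 with _ | c
    · rfl
    · have hc := ((h y hy).2 c e2).2
      simp only [Option.elim_some]
      rw [put_fb _ _ hc, ext, dif_pos hc]

/-! ### The complex arrays -/

theorem vir_congr (h : L.Ok Δ) {F G : ℕ → Cell} {T t : ℕ} (ht : t < T) {δ : ℕ → ℕ}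
    (hδ : L.Real δ) (h0 : δ 0 % 2 = 0) (e : ∀ u < T * L.N, F u = G u) :
    vir L F t δ = vir L G t δ := by
  funext x j
  have h1 := h.ad_lt ht (real_lt h (real_put h hδ x))
  have h2 := h.ad_lt ht (real_lt h (real_put h (real_up h hδ h0) x))
  rw [ad_up] at h2
  simp only [vir]
  rw [e _ h1, e _ h2]

theorem vir_shift (F : ℕ → Cell) (w T t : ℕ) (δ : ℕ → ℕ) :
    vir L F (w * T + t) δ = vir L (fun u => F (w * (T * L.N) + u)) t δ := by
  funext x j
  simp only [vir, ad_shift, add_assoc]

/-- The addition of selected bits acts on the complex arrays. -/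
theorem vir_xor (h : L.Ok Δ) {km : ℕ} (hkm : km < L.K) (tg : List (ℕ × Option ℕ))
    (hn : (tg.map Prod.fst).Nodup)
    (htg : ∀ y ∈ tg, y.1 ≤ km ∧ ∀ c, y.2 = some c → km < c ∧ c < L.K) {F F' : ℕ → Cell} {t : ℕ}
    (hF : ∀ δ, L.Real δ → F' (L.ad t (L.tog tg δ)) = F (L.ad t δ)) {δ : ℕ → ℕ} (hδ : L.Real δ)
    (h0 : δ 0 % 2 = 0) : vir L F' t δ = fun x => vir L F t δ (sig tg x) := by
  funext x j
  have h1 := hF _ (real_put h hδ (sig tg x))
  have h2 := hF _ (real_put h (real_up h hδ h0) (sig tg x))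
  rw [tog_put hkm tg hn htg, sig_sig tg htg] at h1 h2
  rw [ad_up, ad_up] at h2
  simp only [vir]
  rw [h1, h2]

end Vale.Agent.P338Z.Crec
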