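import Vale.Agent.P338Z.Ps.Defs
import Vale.Agent.P338Z.Net.Defs
import Vale.Agent.P338.R3.H313.MicroDef

/-!
P338 power saving: the generators of the passes (rotations, scalings, the shear by the routing
network, the selected bit addition, the complex network, the fast Hadamard step) and the statements.
-/

namespace Vale.Agent.P338Z

open Vale.Agent.Lib.PolyTime (PT Enc esize PBd Un)
open Vale.Agent.P338.R3.H968 Vale.Agent.P338.R3.H898
open Vale.Agent.P338.R3.H313 (PV KP)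
open Vale.Agent.P338.R3.H282 (upF dnF)
open Vale.Agent.P338.R3.H501.Rad (aR)

/-! ### Rotations and scalings of one field -/

/-- The field with the value `0`. -/
def fz : Fl := (1, 1, 1, 1)

/-- Sources of the colour `k` of a rotation. -/
def rotS (B Q : ℕ) (e : Pl) (κ : Fl) (k : ℕ) : Sel :=
  selEq κ (k / 2) ++ [(decide (k % 2 = 0), (1, [fl B Q]) :: e, Q, e, Q)]

/-- Targets of the colour `k` of a rotation. -/
def rotT (B Q : ℕ) (e : Pl) (κ : Fl) (k : ℕ) : Sel :=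
  selEq κ (k / 2) ++ [(decide (k % 2 = 0), [(1, [fl B Q])], 0, e, Q)]

/-- The field `(B, Q)` += `e` modulo `Q`. -/
def rotL (N B Q : ℕ) (e : Pl) (κ : Fl) : List Ps := permL N 4 (rotS B Q e κ) (rotT B Q e κ)

/-- Sources of the colour `k` of a scaling. -/
def sclS (B Q p k : ℕ) : Sel :=
  [(true, [(p, [fl B Q])], 0, [(k * Q, [])], 0), (false, [(p, [fl B Q])], 0, [((k + 1) * Q, [])], 0)]

/-- Targets of the colour `k` of a scaling. -/
def sclT (B Q p k : ℕ) : Sel := [(false, [(1, [fl B Q]), (k * Q, [])], p, [(1, [])], 0)]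

/-- The field `(B, Q)` is multiplied by `p` modulo `Q`. -/
def sclL (N B Q p : ℕ) : List Ps := permL N p (sclS B Q p) (sclT B Q p)

/-- The field `(B, Q)` is divided by `p` modulo `Q`. -/
def uscL (N B Q p : ℕ) : List Ps := permL N p (sclT B Q p) (sclS B Q p)

/-- Rotations: the offset depends on the outer part of the address and on one bit `κ`. -/
def ROT : Prop := ∀ (P : CPar) (O Q B : ℕ) (e : Pl) (κ : Fl) (g kf : ℕ → ℕ → ℕ), 0 < Q → 0 < B →
  (∀ o < O, ∀ x < Q, ∀ i < B, pev e ((o * Q + x) * B + i) % Q = g o i % Q ∧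
    fev κ ((o * Q + x) * B + i) = kf o i ∧ kf o i < 2) →
  (∀ o < O, ∀ i < B, ∀ i' < B, kf o i = kf o i' → g o i % Q = g o i' % Q) →
  Blk P (rotL (O * (Q * B)) B Q e κ) (O * (Q * B)) fun F F' => ∀ o < O, ∀ x < Q, ∀ i < B,
    F' ((o * Q + (x + g o i) % Q) * B + i) = F ((o * Q + x) * B + i)

/-- Scalings. -/
def SCL : Prop := ∀ (P : CPar) (O Q B p : ℕ), 0 < Q → 0 < B → 0 < p → Q ≡ 1 [MOD p] →
  (Blk P (sclL (O * (Q * B)) B Q p) (O * (Q * B)) fun F F' => ∀ o < O, ∀ x < Q, ∀ i < B,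
    F' ((o * Q + p * x % Q) * B + i) = F ((o * Q + x) * B + i)) ∧
  Blk P (uscL (O * (Q * B)) B Q p) (O * (Q * B)) fun F F' => ∀ o < O, ∀ x < Q, ∀ i < B,
    F' ((o * Q + x) * B + i) = F ((o * Q + p * x % Q) * B + i)

/-! ### Recursion trees -/

/-- Recursion: an item is a list of results (`none`) or a call. -/
def tree {C Q : Type} (base : C → List Q) (body : C → List (Option C × List Q)) : ℕ → C → List Q
  | 0, c => base c
  | i + 1, c => (body c).flatMap fun x => x.1.elim x.2 (tree base body i)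

/-- Recursion trees in polynomial time. -/
def TREE : Prop := ∀ {α C Q : Type} [Enc α] [Enc C] [Enc Q] {base : C → List Q}
  {body : C → List (Option C × List Q)} {k bd : α → ℕ} {c : α → C} (S : ℕ) (Inv : α → C → Prop),
  PT ∅ base → PT ∅ body → PT ∅ k → PT ∅ c → PBd k → PBd (fun a => S ^ k a) → PBd bd →
  (∀ x, ((body x).filter fun y => y.1.isSome).length ≤ S) → (∀ a, Inv a (c a)) →
  (∀ a x, Inv a x → esize x ≤ bd a ∧ ∀ y ∈ body x, ∀ x', y.1 = some x' → Inv a x') →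
  PT ∅ fun a => tree base body (k a) (c a)

/-- The logarithm. -/
def lg (m n : ℕ) : ℕ := ((List.range n).filter fun k => decide (m ^ (k + 1) ≤ n)).length

/-! ### The shear `H += ± D` on `n` pairs of fields modulo `Q` -/

/-- Residue of an integer. -/
def zc (Q : ℕ) (z : ℤ) : ℕ := (z % (Q : ℤ)).toNat

/-- Inverse of `p` modulo `Q` if `Q ≡ 1` modulo `p`. -/
def minv (Q p : ℕ) : ℕ := (Q * (p - 1) + 1) / p

/-- The last index with a nonzero entry. -/
def pHi (α : List ℤ) : ℕ := ((List.range α.length).filter fun k => α.getD k 0 != 0).getLastD 0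

/-- The first index with a nonzero entry. -/
def pLo (β : List ℤ) : ℕ := ((List.range β.length).filter fun k => β.getD k 0 != 0).headD 0

/-- Context of the shear: sign, size of the block, weights of `H 0` and `D 0`, modulus, number of
pairs. -/
abbrev UC : Type := Bool × ℕ × ℕ × ℕ × ℕ × Un

/-- One pair: one rotation for every bit of `D`. -/
def baseU (c : UC) : List Ps :=
  (List.range (Nat.size c.2.2.2.2.1)).flatMap fun t =>
    rotL c.2.1 c.2.2.1 c.2.2.2.2.1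
      [((bif c.1 then c.2.2.2.2.1 - 1 else 1) * 2 ^ t, [(c.2.2.2.1, c.2.2.2.2.1, 2 ^ t, 2)])]
      (c.2.2.2.1, c.2.2.2.2.1, 2 ^ t, 2)

/-- The earlier coordinates of `± β · D` in the copy `κ`. -/
def eD (β : List ℤ) (BD Q n κ : ℕ) : Pl :=
  ((List.range β.length).filter fun k => decide (pLo β < k)).map fun k =>
    (zc Q ((β.getD (pLo β) 0).sign * β.getD k 0), [fl (BD * Q ^ (k * n + κ)) Q])

/-- `D (pLo β) := ± α (pHi α) * (β · D) / 216` in all copies. -/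
def dPre (α β : List ℤ) (N BD Q n : ℕ) : List Ps :=
  (List.range n).flatMap fun κ =>
    sclL N (BD * Q ^ (pLo β * n + κ)) Q (β.getD (pLo β) 0).natAbs ++
    (rotL N (BD * Q ^ (pLo β * n + κ)) Q (eD β BD Q n κ) fz ++
    (sclL N (BD * Q ^ (pLo β * n + κ)) Q (α.getD (pHi α) 0).natAbs ++
    uscL N (BD * Q ^ (pLo β * n + κ)) Q 216))

/-- The inverse of `dPre`. -/
def dPost (α β : List ℤ) (N BD Q n : ℕ) : List Ps :=
  (List.range n).flatMap fun κ =>
    sclL N (BD * Q ^ (pLo β * n + κ)) Q 216 ++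
    (uscL N (BD * Q ^ (pLo β * n + κ)) Q (α.getD (pHi α) 0).natAbs ++
    (rotL N (BD * Q ^ (pLo β * n + κ)) Q (psm (Q - 1) (eD β BD Q n κ)) fz ++
    uscL N (BD * Q ^ (pLo β * n + κ)) Q (β.getD (pLo β) 0).natAbs))

/-- `H k += σ * (α k / α (pHi α)) * H (pHi α)` for `k < pHi α`, in all copies. -/
def hShr (σ : ℤ) (α : List ℤ) (N BH Q n : ℕ) : List Ps :=
  (List.range n).flatMap fun κ => (List.range (pHi α)).flatMap fun k =>
    rotL N (BH * Q ^ (k * n + κ)) Q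
      [(zc Q (σ * ((α.getD (pHi α) 0).sign * α.getD k 0)) * minv Q (α.getD (pHi α) 0).natAbs,
        [fl (BH * Q ^ (pHi α * n + κ)) Q])] fz

/-- The selection of the wire `w` (blocks of `N` cells). -/
def selW (N w : ℕ) : Sel := selEq (fl N 0) w

/-- The context of a call. -/
def callU (ν : Nets) (c : UC) (α β : List ℤ) : UC :=
  (xor c.1 (xor (decide (α.getD (pHi α) 0 < 0)) (decide (β.getD (pLo β) 0 < 0))), c.2.1 / 2 ^ ν.r,
    c.2.2.1 * c.2.2.2.2.1 ^ (pHi α * (c.2.2.2.2.2.v / ν.m)),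
    c.2.2.2.1 * c.2.2.2.2.1 ^ (pLo β * (c.2.2.2.2.2.v / ν.m)), c.2.2.2.2.1, ⟨c.2.2.2.2.2.v / ν.m⟩)

/-- One instruction of the routing network. -/
def insU (ν : Nets) (c : UC) (x : QI) : List (Option UC × List Ps) :=
  if x.1 then
    [(none, accL 2 c.2.1 (c.2.1 / 2 ^ ν.r) (selW (c.2.1 / 2 ^ ν.r) x.2.2.1)
      (selW (c.2.1 / 2 ^ ν.r) x.2.1))]
  else
    [(none, [pMv true (x.2.1 * (c.2.1 / 2 ^ ν.r))] ++
      (dPre x.2.2.2.1 x.2.2.2.2 (c.2.1 / 2 ^ ν.r) c.2.2.2.1 c.2.2.2.2.1 (c.2.2.2.2.2.v / ν.m) ++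
      hShr (-1) x.2.2.2.1 (c.2.1 / 2 ^ ν.r) c.2.2.1 c.2.2.2.2.1 (c.2.2.2.2.2.v / ν.m))),
    (some (callU ν c x.2.2.2.1 x.2.2.2.2), []),
    (none, hShr 1 x.2.2.2.1 (c.2.1 / 2 ^ ν.r) c.2.2.1 c.2.2.2.2.1 (c.2.2.2.2.2.v / ν.m) ++
      (dPost x.2.2.2.1 x.2.2.2.2 (c.2.1 / 2 ^ ν.r) c.2.2.2.1 c.2.2.2.2.1 (c.2.2.2.2.2.v / ν.m) ++
      [pMv false (x.2.1 * (c.2.1 / 2 ^ ν.r))]))]

/-- The shear on `m ^ i` pairs of fields. -/
def genU (ν : Nets) : ℕ → UC → List Ps := tree baseU fun c => ν.qp.flatMap (insU ν c)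

/-- The value of `n` digits. -/
def vl (Q n : ℕ) (H : ℕ → ℕ) : ℕ := ∑ c ∈ Finset.range n, H c * Q ^ c

/-- The address with the fields `o, H, md, D, lo`. -/
def adU (n Q Md BD o : ℕ) (H : ℕ → ℕ) (md : ℕ) (D : ℕ → ℕ) (lo : ℕ) : ℕ :=
  (o * Q ^ n + vl Q n H) * (Md * (Q ^ n * BD)) + ((md * Q ^ n + vl Q n D) * BD + lo)

/-- The block `F'` is the block `F` after `H += g D`. -/
def Shr (n Q O Md BD : ℕ) (g : (ℕ → ℕ) → ℕ → ZMod Q) (F F' : ℕ → Cell) : Prop :=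
  ∀ o < O, ∀ md < Md, ∀ lo < BD, ∀ H D H' : ℕ → ℕ,
    (∀ c < n, H c < Q ∧ D c < Q ∧ H' c < Q ∧ (H' c : ZMod Q) = H c + g D c) →
    F' (adU n Q Md BD o H' md D lo) = F (adU n Q Md BD o H md D lo)

/-- **The shear.** -/
def USH (ν : Nets) : Prop := ∀ (P : CPar) (i : ℕ) (ε : Bool) (O Md BD Q : ℕ), Q ≡ 1 [MOD ν.Δ] →
  1 < Q → 0 < Md → 0 < BD →
  Blk P (genU ν i (ε, 2 ^ (ν.r * i) * O * (Q ^ ν.m ^ i * (Md * (Q ^ ν.m ^ i * BD))),
      Md * (Q ^ ν.m ^ i * BD), BD, Q, ⟨ν.m ^ i⟩))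
    (2 ^ (ν.r * i) * O * (Q ^ ν.m ^ i * (Md * (Q ^ ν.m ^ i * BD))))
    (Shr (ν.m ^ i) Q (2 ^ (ν.r * i) * O) Md BD fun D c => (bif ε then -1 else 1) * (D c : ZMod Q))

/-! ### The padded layout and the addition of selected bits -/

/-- Layout: number `K` of selected bits, radix `R` of the auxiliary digits, radices of the
`4 K + 2` fields (lowest first) with and without padding.  Fields: `0` the four cells of a position,
`1 + k` late digits, `K + 1 + 2 k` gaps, `K + 2 + 2 k` selected bits, `3 K + 2 + k` early digits. -/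
abbrev Lay : Type := Un × ℕ × List ℕ × List ℕ

namespace Lay

variable (L : Lay)

/-- Number of selected bits. -/
def K : ℕ := L.1.v
/-- Radix of the auxiliary digits. -/
def R : ℕ := L.2.1
/-- Radix of a field. -/
def q (f : ℕ) : ℕ := L.2.2.1.getD f 1
/-- Radix of a field without padding. -/
def e (f : ℕ) : ℕ := L.2.2.2.getD f 1
/-- Number of fields. -/
def nf : ℕ := 4 * L.K + 2
/-- Weight of a field. -/
def B (f : ℕ) : ℕ := (L.2.2.1.take f).prod
/-- Number of addresses. -/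
def N : ℕ := L.2.2.1.prod
/-- Late digits. -/
def fo (k : ℕ) : ℕ := 1 + k
/-- Selected bits. -/
def fb (k : ℕ) : ℕ := L.K + 2 + 2 * k
/-- Early digits. -/
def fp (k : ℕ) : ℕ := 3 * L.K + 2 + k

/-- Digits without padding. -/
def Real (δ : ℕ → ℕ) : Prop := ∀ f < L.nf, δ f < L.e f

/-- The address of a role `t` and of the digits `δ`. -/
def ad (t : ℕ) (δ : ℕ → ℕ) : ℕ := t * L.N + ∑ f ∈ Finset.range L.nf, δ f * L.B f

/-- The conditions. -/
structure Ok (Δ : ℕ) : Prop where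
  lq : L.2.2.1.length = L.nf
  le : L.2.2.2.length = L.nf
  pos : ∀ f, 0 < L.e f ∧ L.e f ≤ L.q f
  zero : L.q 0 = 4 ∧ L.e 0 = 4
  aux : ∀ k < L.K, L.q (fo k) = L.R ∧ L.q (L.fp k) = L.R ∧ L.e (L.fp k) < L.R
  bit : ∀ k < L.K, L.q (L.fb k) = 2 ∧ L.e (L.fb k) = 2 ∧ L.e (L.fb k + 1) + L.R ≤ L.q (L.fb k + 1)
  md : L.R ≡ 1 [MOD Δ]
  one : 1 < L.R

/-- The field of a control (`none`: the constant one). -/
def cf (x : Option ℕ) : List Fl := x.elim [] fun c => [fl (L.B (L.fb c)) 2]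

/-- The digits after the addition of the controls to the target bits. -/
def tog (tg : List (ℕ × Option ℕ)) (δ : ℕ → ℕ) (f : ℕ) : ℕ :=
  (tg.find? fun x => decide (L.fb x.1 = f)).elim (δ f) fun x =>
    (δ f + x.2.elim 1 fun c => δ (L.fb c)) % 2

/-- The digits with the selected bits `x`. -/
def put (δ : ℕ → ℕ) (x : Fin L.K → ZMod 2) (f : ℕ) : ℕ :=
  if h : L.K + 2 ≤ f ∧ (f - (L.K + 2)) % 2 = 0 ∧ (f - (L.K + 2)) / 2 < L.K then
    (x ⟨_, h.2.2⟩).val else δ f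

end Lay

/-- Early digits += `g` (`nU` groups of digits, modulo `Q`), through the late digits. -/
def wadd (ν : Nets) (L : Lay) (i nU Q N : ℕ) (g : ℕ → Pl) : List Ps :=
  ((List.range nU).flatMap fun c => rotL N (L.B (Lay.fo 0) * Q ^ c) Q (g c) fz) ++
  (genU ν i (false, N, L.B (L.fp 0), L.B (Lay.fo 0), Q, ⟨nU⟩) ++
  (((List.range nU).flatMap fun c => rotL N (L.B (Lay.fo 0) * Q ^ c) Q (psm (Q - 1) (g c)) fz) ++
  genU ν i (true, N, L.B (L.fp 0), L.B (Lay.fo 0), Q, ⟨nU⟩)))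

/-- The target number `y`. -/
def tgt (tg : List (ℕ × Option ℕ)) (y : ℕ) : ℕ × Option ℕ := tg.getD y (0, none)

/-- `u += 2 z w`. -/
def xe1 (L : Lay) (tg : List (ℕ × Option ℕ)) : Pl :=
  (List.range tg.length).map fun y =>
    (2 * L.B (L.fb (tgt tg y).1), L.cf (tgt tg y).2 ++ [fl (L.B (L.fp y)) L.R])

/-- `u += z - 2 z w` modulo `QU`. -/
def xe3 (L : Lay) (QU : ℕ) (tg : List (ℕ × Option ℕ)) : Pl :=
  ((List.range tg.length).map fun y => (L.B (L.fb (tgt tg y).1), L.cf (tgt tg y).2)) ++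
    psm (QU - 1) (xe1 L tg)

/-- `w += a` in the group `c` of `per` digits. -/
def xg2 (L : Lay) (per : ℕ) (tg : List (ℕ × Option ℕ)) (c : ℕ) : Pl :=
  ((List.range tg.length).filter fun y => decide (y / per = c)).map fun y =>
    (L.R ^ (y % per), [fl (L.B (L.fb (tgt tg y).1)) 2])

/-- `w -= a + z - 2 a z` in the group `c`. -/
def xg4 (L : Lay) (per : ℕ) (tg : List (ℕ × Option ℕ)) (c : ℕ) : Pl :=
  ((List.range tg.length).filter fun y => decide (y / per = c)).flatMap fun y =>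
    [((L.R ^ per - 1) * L.R ^ (y % per), [fl (L.B (L.fb (tgt tg y).1)) 2]),
      ((L.R ^ per - 1) * L.R ^ (y % per), L.cf (tgt tg y).2),
      (2 * L.R ^ (y % per), fl (L.B (L.fb (tgt tg y).1)) 2 :: L.cf (tgt tg y).2)]

/-- The addition of controls to at most `n = m ^ i` target bits of number at most `km`. -/
def xorL (ν : Nets) (L : Lay) (n N km : ℕ) (tg : List (ℕ × Option ℕ)) : List Ps :=
  rotL N 1 (L.B (L.fb km + 2)) (xe1 L tg) fz ++
  (wadd ν L ((lg ν.m n + 1) / 2) (ν.m ^ ((lg ν.m n + 1) / 2)) (L.R ^ ν.m ^ (lg ν.m n / 2)) N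
    (xg2 L (ν.m ^ (lg ν.m n / 2)) tg) ++
  (rotL N 1 (L.B (L.fb km + 2)) (xe3 L (L.B (L.fb km + 2)) tg) fz ++
  wadd ν L ((lg ν.m n + 1) / 2) (ν.m ^ ((lg ν.m n + 1) / 2)) (L.R ^ ν.m ^ (lg ν.m n / 2)) N
    (xg4 L (ν.m ^ (lg ν.m n / 2)) tg)))

/-- **The addition of selected bits.** -/
def XOR (ν : Nets) : Prop := ∀ (P : CPar) (L : Lay) (i T km : ℕ) (tg : List (ℕ × Option ℕ)),
  L.Ok ν.Δ → ν.m ^ i ≤ L.K → tg.length ≤ ν.m ^ i → (tg.map Prod.fst).Nodup → km < L.K →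
  (∀ x ∈ tg, x.1 ≤ km ∧ ∀ c, x.2 = some c → km < c ∧ c < L.K) →
  Blk P (xorL ν L (ν.m ^ i) (2 ^ (ν.r * i) * T * L.N) km tg) (2 ^ (ν.r * i) * T * L.N)
    fun F F' => ∀ t < 2 ^ (ν.r * i) * T, ∀ δ, L.Real δ → F' (L.ad t (L.tog tg δ)) = F (L.ad t δ)

end Vale.Agent.P338Z
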