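import Vale.Agent.P338Z.Gen.Top
import Vale.Agent.P338Z.Gen.Tree
import Vale.Agent.P338Z.Ps.Dia

/-!
P338 power saving: the fast Hadamard step is correct.
-/

namespace Vale.Agent.P338Z

open Vale.Agent.P338.R3.H968 Vale.Agent.P338.R3.H898
open Vale.Agent.P338.R3.H313 (PV KP)
open Vale.Agent.P338.R3.H501.Rad (aR)
open Vale.Agent.P338.R3.H121 (cpar cpar_ok wW sc bW le_wW_of le_wW)

namespace FhH

theorem add_xor : ∀ (p u : ℕ), u.testBit p = false → u + 2 ^ p = u ^^^ 2 ^ p
  | 0, u, h => by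
    rw [pow_zero, Nat.xor_one_of_even]
    rw [Nat.even_iff]
    simpa using h
  | p + 1, u, h => by
    have h1 := add_xor p (u / 2) (by rwa [Nat.testBit_succ] at h)
    have h2 : (u ^^^ 2 ^ (p + 1)) / 2 = u / 2 ^^^ 2 ^ p := by
      rw [Nat.xor_div_two, pow_succ, Nat.mul_div_cancel _ two_pos]
    have h3 : (u ^^^ 2 ^ (p + 1)) % 2 = u % 2 := by
      rw [Nat.xor_mod_two_eq, pow_succ]
      omega
    rw [pow_succ] at *
    omega

theorem sub_xor (p u : ℕ) (h : u.testBit p = true) : u - 2 ^ p = u ^^^ 2 ^ p := by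
  have h1 := add_xor p (u ^^^ 2 ^ p) (by simp [h])
  rw [Nat.xor_xor_cancel_right] at h1
  omega

theorem hF_eq (p : ℕ) (F : ℕ → Cell) (u k : ℕ) : hF p F u k =
    F (u ^^^ 2 ^ p) k + (if u.testBit p then -1 else 1) * F u k := by
  unfold hF
  cases h : u.testBit p
  · simp [cAdd, add_xor p u h, add_comm]
  · simp [cSub, sub_xor p u h, sub_eq_add_neg]

instance : LeftCommutative hF := ⟨fun p q F => by
  rcases eq_or_ne p q with rfl | h
  · rfl
  funext u k
  simp only [hF_eq, Nat.testBit_xor, Nat.testBit_two_pow_of_ne h, Nat.testBit_two_pow_of_ne h.symm,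
    Bool.xor_false, Nat.xor_assoc, Nat.xor_comm (2 ^ p)]
  ring⟩

variable {P : CPar} {n : ℕ}

theorem xor_lt {p u : ℕ} (hp : p < n) (hu : u < 2 ^ n) : u ^^^ 2 ^ p < 2 ^ n :=
  Nat.xor_lt_two_pow hu (Nat.pow_lt_pow_right one_lt_two hp)

theorem fold_congr {F G : ℕ → Cell} (h : ∀ u < 2 ^ n, F u = G u) : ∀ ps : List ℕ,
    (∀ p ∈ ps, p < n) → ∀ u < 2 ^ n, ps.foldr hF F u = ps.foldr hF G u
  | [], _ => h
  | p :: ps, hp => fun u hu => funext fun k => by
    have ih := fold_congr h ps fun q hq => hp q (List.mem_cons_of_mem _ hq)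
    rw [List.foldr_cons, List.foldr_cons, hF_eq, hF_eq, ih u hu,
      ih _ (xor_lt (hp p List.mem_cons_self) hu)]

/-- The bound of the entries. -/
def Bd (P : CPar) (n β : ℕ) (F : ℕ → Cell) : Prop := ∀ u < 2 ^ n, ∀ k < P.nw, |F u k| ≤ 2 ^ β

/-- The free space. -/
def Zr (n : ℕ) (F : ℕ → Cell) : Prop := ∀ u, 2 ^ n ≤ u → u < 4 * 2 ^ n → F u = cZero

theorem fold_bd {β : ℕ} {F : ℕ → Cell} (h : Bd P n β F) : ∀ ps : List ℕ,
    (∀ p ∈ ps, p < n) → Bd P n (β + ps.length) (ps.foldr hF F)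
  | [], _ => h
  | p :: ps, hp => fun u hu k hk => by
    have ih := fold_bd h ps fun q hq => hp q (List.mem_cons_of_mem _ hq)
    have h1 := abs_le.1 (ih u hu k hk)
    have h2 := abs_le.1 (ih _ (xor_lt (hp p List.mem_cons_self) hu) k hk)
    rw [List.foldr_cons, hF_eq, List.length_cons, ← add_assoc, pow_succ, abs_le]
    split_ifs <;> constructor <;> linarith [h1.1, h1.2, h2.1, h2.2]

/-- The passes `L` apply the butterflies on the bits `ps`. -/
def Gd (P : CPar) (n β : ℕ) (L : List Ps) (ps : List ℕ) : Prop :=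
  (∀ p ∈ ps, p < n) ∧ Blk P L (4 * 2 ^ n) fun F F' => Bd P n β F → Zr n F →
    (∀ u < 2 ^ n, F' u = ps.foldr hF F u) ∧ Zr n F'

theorem Gd.mono {β β' : ℕ} {L : List Ps} {ps : List ℕ} (h : Gd P n β' L ps) (hb : β ≤ β') :
    Gd P n β L ps :=
  ⟨h.1, h.2.mono fun _ _ k b => k fun u hu j hj =>
    (b u hu j hj).trans (pow_le_pow_right₀ one_le_two hb)⟩

theorem Gd.perm {β : ℕ} {L : List Ps} {ps qs : List ℕ} (h : Gd P n β L ps) (e : ps.Perm qs) :
    Gd P n β L qs :=
  ⟨fun p hp => h.1 p (e.mem_iff.2 hp), h.2.mono fun F _ k b z => e.foldr_eq (f := hF) F ▸ k b z⟩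

theorem Gd.append {β : ℕ} {L L' : List Ps} {ps qs : List ℕ} (h : Gd P n β L ps)
    (h' : Gd P n (β + ps.length) L' qs) : Gd P n β (L ++ L') (ps ++ qs) := by
  refine Gd.perm ⟨fun p hp => (List.mem_append.1 hp).elim (h'.1 p) (h.1 p),
    (h.2.seq h'.2).mono ?_⟩ List.perm_append_comm
  rintro F F'' ⟨F', k1, k2⟩ b z
  obtain ⟨a1, a2⟩ := k1 b z
  obtain ⟨a3, a4⟩ := k2 (fun u hu => a1 u hu ▸ fold_bd b ps h.1 u hu) a2
  exact ⟨fun u hu => by rw [a3 u hu, List.foldr_append, fold_congr a1 qs h'.1 u hu], a4⟩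

theorem Gd.flatMap {ι : Type} {β' : ℕ} {f : ι → List Ps} {g : ι → List ℕ} : ∀ (l : List ι) (β : ℕ),
    (∀ i ∈ l, Gd P n β' (f i) (g i)) → β + (l.flatMap g).length ≤ β' →
    Gd P n β (l.flatMap f) (l.flatMap g)
  | [], _, _, _ => ⟨fun _ hp => (List.not_mem_nil hp).elim,
      (Blk.nil P _).mono fun _ _ e _ z => ⟨fun u _ => congrFun e u, e ▸ z⟩⟩
  | i :: l, β, h, hb => by
    rw [List.flatMap_cons, List.length_append] at hb
    exact ((h i List.mem_cons_self).mono (by omega)).append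
      (Gd.flatMap l _ (fun j hj => h j (List.mem_cons_of_mem _ hj)) (by omega))

theorem gd_nai (hn : NAI) {p : ℕ} (β : ℕ) (h0 : P.Ok) (h1 : P.s + 3 ≤ P.b) (h2 : 1 ≤ p)
    (h3 : p < n) : Gd P n β (subL 0 (naiL P.s (2 ^ n) p)) [p] := by
  refine ⟨by simpa using h3, (sub P _ (2 ^ n) 0 (4 * 2 ^ n) _ (by omega)
    ((hn P n p h3).2.2 h0 h1 h2)).mono ?_⟩
  rintro F F' ⟨⟨G, k1, k2⟩, k3⟩ _ z
  simp only [Nat.zero_add] at k1 k2 k3
  exact ⟨fun u hu => (k2 u hu).trans (k1 u hu),
    fun u a b => (k3 u b (Or.inr a)).trans (z u a b)⟩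

theorem groups {α : Type} (l : List α) (M : ℕ) : ∀ G : ℕ,
    ((List.range G).flatMap fun g => (l.drop (g * M)).take M) = l.take (G * M)
  | 0 => by simp
  | G + 1 => by
    rw [List.range_succ, List.flatMap_append, groups l M G, List.flatMap_singleton, Nat.succ_mul,
      List.take_add]

theorem gam_le {ν : Nets} (h : ν.Ok) : ∀ i, gam ν i ≤ (ν.S * ν.S) ^ i
  | 0 => le_rfl
  | i + 1 => by
    have h1 : ν.c1 ≤ ν.S := (List.length_filter_le _ _).trans h.lc.le
    have h2 : ν.c0 ≤ ν.S := (List.length_filter_le _ _).trans h.lc.le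
    have h3 : 2 ≤ ν.S := by rw [h.S]; norm_num
    have h4 : 1 ≤ (ν.S * ν.S) ^ i := Nat.one_le_pow _ _ (by positivity)
    have h5 := Nat.mul_le_mul h1 (gam_le h i)
    have h6 := Nat.mul_le_mul h2 h4
    have h7 := Nat.mul_le_mul_right (ν.S * (ν.S * ν.S) ^ i) h3
    rw [gam, pow_succ]
    nlinarith

theorem pow_le {ν : Nets} (h : ν.Ok) {d i : ℕ} (h1 : 1 ≤ dep ν d) (hi : i ≤ dep ν d) :
    (ν.S * ν.S) ^ i ≤ d := by
  have h3 : 2 ≤ ν.S := by rw [h.S]; norm_num
  unfold dep at h1 hi
  rw [lg_eq_log h3] at h1 hi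
  have h4 : d ≠ 0 := by
    rintro rfl
    simp at h1
  rw [← sq, ← pow_mul]
  exact (Nat.pow_le_pow_right (by omega) (by omega)).trans (Nat.pow_log_le_self _ h4)

end FhH

open FhH

theorem fh_of {ν : Nets} (hn : NAI) (hg : HG ν) (h : ν.Ok) : FH ν := by
  intro p t β J hs ht hJ hd hb
  have w1 : p.d ≤ wW p.d p.s p.y :=
    le_wW_of (c := 1) (k := 1) p.y (by norm_num) (by norm_num) (by rw [pow_one]; omega)
  have w2 := le_wW (d := p.d) (s := p.s) p.y
  have eb : (cpar p.d p.s p.y).b = 64 * wW p.d p.s p.y := rfl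
  have es : (cpar p.d p.s p.y).s = 16 * wW p.d p.s p.y := rfl
  have a1 : p.d + 3 ≤ aR p.d := by
    show p.d + 3 ≤ p.d ^ 2 + 3
    exact Nat.add_le_add_right (Nat.le_self_pow two_ne_zero p.d) 3
  have a2 : ∀ i j, i < j → aR p.d * i + aR p.d ≤ aR p.d * j := fun i j k =>
    (Nat.mul_succ _ _).ge.trans (Nat.mul_le_mul_left _ k)
  have bp : ∀ i ∈ J, bpos p t i = aR p.d * i + t + 2 := fun i hi => by
    have := a2 i _ (hd i hi)
    unfold bpos KP
    omega
  have hl : J.length ≤ p.d := by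
    have := (List.subperm_of_subset (hJ.imp ne_of_lt)
      fun i hi => List.mem_range.2 (hd i hi)).length_le
    rwa [List.length_range] at this
  have pm : ((inner p J).take (ngr ν p J * ν.m ^ dep ν p.d) ++
      ((inner p J).drop (ngr ν p J * ν.m ^ dep ν p.d) ++ outer p J)).Perm J := by
    rw [← List.append_assoc, List.take_append_drop]
    exact List.filter_append_perm _ _
  have e1 : ((List.range (ngr ν p J)).flatMap fun g => (((inner p J).drop
      (g * ν.m ^ dep ν p.d)).take (ν.m ^ dep ν p.d)).map (bpos p t)) =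
      ((inner p J).take (ngr ν p J * ν.m ^ dep ν p.d)).map (bpos p t) := by
    rw [← groups, List.map_flatMap]
  have e2 : ∀ l : List ℕ, (l.flatMap fun i => [bpos p t i]) = l.map (bpos p t) := fun l =>
    List.map_eq_flatMap.symm
  have hl2 := pm.length_eq
  rw [List.length_append] at hl2
  have key : Gd (cpar p.d p.s p.y) (KP p + 2) β (fastH ν p t J) (J.map (bpos p t)) := by
    refine Gd.perm (Gd.append (Gd.flatMap (β' := β + p.d) (g := fun g => (((inner p J).drop
      (g * ν.m ^ dep ν p.d)).take (ν.m ^ dep ν p.d)).map (bpos p t)) _ β (fun g hg' => ?_) ?_)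
      (Gd.flatMap (β' := β + p.d) (g := fun i => [bpos p t i]) _ _ (fun i hi => ?_) ?_)) ?_
    · have g1 := List.mem_range.1 hg'
      unfold ngr at g1
      cases hgd : good ν p.d
      · simp [hgd] at g1
      rw [hgd, cond_true] at g1
      simp only [good, Bool.and_eq_true, decide_eq_true_eq] at hgd
      obtain ⟨c1, c2, c3⟩ := hgd
      have m1 : ν.m ^ dep ν p.d ≤ p.d := (Nat.pow_le_pow_left
        (h.mle.trans (by rw [h.S]; norm_num)) _).trans (pow_le h c1 le_rfl)
      have m2 : ∀ i ≤ dep ν p.d, gam ν i ≤ p.d := fun i hi => (gam_le h i).trans (pow_le h c1 hi)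
      have m3 := m2 _ le_rfl
      have sl : (((inner p J).drop (g * ν.m ^ dep ν p.d)).take (ν.m ^ dep ν p.d)).Sublist
          (inner p J) := (List.take_sublist _ _).trans (List.drop_sublist _ _)
      have ln : ((((inner p J).drop (g * ν.m ^ dep ν p.d)).take (ν.m ^ dep ν p.d)).map
          (bpos p t)).length = ν.m ^ dep ν p.d := by
        have := (Nat.le_div_iff_mul_le (pow_pos h.mpos _)).1 g1
        rw [Nat.succ_mul] at this
        rw [List.length_map, List.length_take, List.length_drop]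
        omega
      have mem : ∀ q ∈ (((inner p J).drop (g * ν.m ^ dep ν p.d)).take (ν.m ^ dep ν p.d)).map
          (bpos p t), aR p.d + 2 ≤ q ∧ q + aR p.d ≤ aR p.d * p.d + 1 := fun q hq => by
        obtain ⟨i, hi, rfl⟩ := List.mem_map.1 hq
        have k := List.mem_filter.1 (sl.subset hi)
        simp only [Bool.and_eq_true, decide_eq_true_eq] at k
        have k1 := a2 0 i k.2.1
        have k2 := a2 _ _ k.2.2
        rw [Nat.mul_succ] at k2
        rw [bp i k.1]
        omega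
      refine ⟨fun q hq => ?_, (hg (cpar p.d p.s p.y) (wid ν p.d) (KP p + 2) (aR p.d - 1)
        (dep ν p.d) (β + p.d) _ (cpar_ok _ _ _) c1 ln ?_ (fun q hq => ?_) ?_ ?_ (fun i hi => ?_)
        (by omega) (by omega) (by omega)).mono fun F F' k b _ => k b⟩
      · have := mem q hq
        unfold KP
        omega
      · refine List.pairwise_map.2 ((hJ.sublist (sl.trans List.filter_sublist)).imp_of_mem
          fun {i j} hi hj k => ?_)
        have := a2 i j k
        rw [bp i ((sl.trans List.filter_sublist).subset hi),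
          bp j ((sl.trans List.filter_sublist).subset hj)]
        omega
      · have := mem q hq
        rw [ln]
        unfold KP
        omega
      · rw [ln]
        exact (Nat.lt_size_self _).le
      · rw [ln]
        refine (Nat.mul_le_mul_right _ (Nat.lt_size_self _).le).trans ?_
        rw [← pow_add]
        exact Nat.pow_le_pow_right two_pos (by omega)
      · have := m2 i hi
        omega
    · rw [e1, List.length_map]
      omega
    · have k : i ∈ J := pm.subset (List.mem_append_right _ hi)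
      have := a2 i _ (hd i k)
      refine gd_nai hn _ (cpar_ok _ _ _) (by omega) ?_ ?_
      · rw [bp i k]
        omega
      · rw [bp i k]
        unfold KP
        omega
    · rw [e1, e2, List.length_map, List.length_map]
      omega
    · rw [e1, e2, ← List.map_append]
      exact pm.map _
  rw [List.map_congr_left bp] at key
  exact key.2

end Vale.Agent.P338Z
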