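import Vale.Agent.P338Z.Gen.Top

/-!
P338 power saving: the frames of the complex network, by the Fourier transform.
-/

namespace Vale.Agent.P338Z

namespace Frames

open Matrix Complex

variable {K : ℕ}

/-- The sign of a bit. -/
noncomputable def sg (z : ZMod 2) : ℂ := if z = 0 then 1 else -1

theorem bit : ∀ z : ZMod 2, z = 0 ∨ z = 1 := by decide

theorem sg_zero : sg 0 = 1 := if_pos rfl

theorem sg_one : sg 1 = -1 := if_neg one_ne_zero

theorem sg_add (a b : ZMod 2) : sg (a + b) = sg a * sg b := by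
  have h : (1 : ZMod 2) + 1 = 0 := rfl
  rcases bit a with rfl | rfl <;> rcases bit b with rfl | rfl <;> simp [sg_zero, sg_one, h]

theorem sg_sum {ι : Type} (s : Finset ι) (f : ι → ZMod 2) : sg (∑ i ∈ s, f i) = ∏ i ∈ s, sg (f i) := by
  classical
  induction s using Finset.induction_on with
  | empty => simp [sg_zero]
  | insert a s ha ih => rw [Finset.sum_insert ha, Finset.prod_insert ha, sg_add, ih]

theorem add_self (y : Fin K → ZMod 2) : y + y = 0 := funext fun _ => CharTwo.add_self_eq_zero _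

theorem orth (v : Fin K → ZMod 2) : ∑ ξ, sg (v ⬝ᵥ ξ) = if v = 0 then 2 ^ K else 0 := by
  split_ifs with h
  · simp [h, sg_zero]
  · obtain ⟨i, hi⟩ := Function.ne_iff.1 h
    have h1 : v i = 1 := (bit _).resolve_left hi
    have h2 := Equiv.sum_comp (Equiv.addRight (Pi.single i (1 : ZMod 2) : Fin K → ZMod 2))
      fun ξ => sg (v ⬝ᵥ ξ)
    simp only [Equiv.coe_addRight, dotProduct_add, dotProduct_single, mul_one, h1, sg_add, sg_one,
      ← Finset.sum_mul] at h2
    linear_combination (-1 / 2 : ℂ) * h2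

/-- The Fourier transform. -/
noncomputable def fo : ((Fin K → ZMod 2) → ℕ → ℂ) →ₗ[ℂ] ((Fin K → ZMod 2) → ℕ → ℂ) where
  toFun z ξ j := ∑ y, sg (y ⬝ᵥ ξ) * z y j
  map_add' z z' := by
    ext ξ j
    simp [mul_add, Finset.sum_add_distrib]
  map_smul' c z := by
    ext ξ j
    simp [Finset.mul_sum, mul_left_comm]

theorem fo_apply (z : (Fin K → ZMod 2) → ℕ → ℂ) (ξ : Fin K → ZMod 2) (j : ℕ) :
    fo z ξ j = ∑ y, sg (y ⬝ᵥ ξ) * z y j := rfl

theorem fo_fo (z : (Fin K → ZMod 2) → ℕ → ℂ) : fo (fo z) = (2 : ℂ) ^ K • z := by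
  ext x j
  have h : ∀ y, ∑ ξ, sg (ξ ⬝ᵥ x) * (sg (y ⬝ᵥ ξ) * z y j) = if y = x then 2 ^ K * z y j else 0 :=
    fun y => by
      have h1 : y + x = 0 ↔ y = x := by
        rw [← add_self x]
        exact add_left_inj x
      simp only [← mul_assoc, ← Finset.sum_mul, ← sg_add, dotProduct_comm _ x, ← add_dotProduct,
        orth, add_comm x, h1, ite_mul, zero_mul]
  simp only [fo_apply, Finset.mul_sum]
  rw [Finset.sum_comm]
  simp [h]

theorem fo_inj {z z' : (Fin K → ZMod 2) → ℕ → ℂ} (h : fo z = fo z') : z = z' := by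
  have h1 := congrArg fo h
  rw [fo_fo, fo_fo] at h1
  exact smul_right_injective _ (pow_ne_zero K two_ne_zero) h1

/-- Multiplication by a function. -/
noncomputable def dg (μ : (Fin K → ZMod 2) → ℂ) :
    ((Fin K → ZMod 2) → ℕ → ℂ) →ₗ[ℂ] ((Fin K → ZMod 2) → ℕ → ℂ) where
  toFun w ξ j := μ ξ * w ξ j
  map_add' z z' := by
    ext ξ j
    simp [mul_add]
  map_smul' c z := by
    ext ξ j
    simp [mul_left_comm]

/-- Multipliers. -/
noncomputable def ml (μ : (Fin K → ZMod 2) → ℂ) :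
    ((Fin K → ZMod 2) → ℕ → ℂ) →ₗ[ℂ] ((Fin K → ZMod 2) → ℕ → ℂ) :=
  ((2 : ℂ) ^ K)⁻¹ • (fo ∘ₗ dg μ ∘ₗ fo)

theorem fo_ml (μ : (Fin K → ZMod 2) → ℂ) (z : (Fin K → ZMod 2) → ℕ → ℂ) (ξ : Fin K → ZMod 2)
    (j : ℕ) : fo (ml μ z) ξ j = μ ξ * fo z ξ j := by
  rw [ml, LinearMap.smul_apply, map_smul, LinearMap.comp_apply, fo_fo, smul_smul,
    inv_mul_cancel₀ (pow_ne_zero K two_ne_zero), one_smul]
  rfl

theorem ml_eq {μ : (Fin K → ZMod 2) → ℂ} {z w : (Fin K → ZMod 2) → ℕ → ℂ}
    (h : ∀ ξ j, fo w ξ j = μ ξ * fo z ξ j) : ml μ z = w :=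
  fo_inj (funext fun ξ => funext fun j => (fo_ml μ z ξ j).trans (h ξ j).symm)

theorem fo_shift (y : Fin K → ZMod 2) (z : (Fin K → ZMod 2) → ℕ → ℂ) (ξ : Fin K → ZMod 2) (j : ℕ) :
    fo (fun x => z (x + y)) ξ j = sg (y ⬝ᵥ ξ) * fo z ξ j := by
  rw [fo_apply, fo_apply, ← Equiv.sum_comp (Equiv.addRight y), Finset.mul_sum]
  refine Finset.sum_congr rfl fun x _ => ?_
  simp only [Equiv.coe_addRight, add_assoc, add_self, add_zero, add_dotProduct, sg_add]
  ring

/-- The eigenvalues of the square roots of translations. -/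
noncomputable def ev (n : Bool) (z : ZMod 2) : ℂ := if z = 0 then 1 else (bif n then -1 else 1) * I

theorem fo_cop (n : Bool) (y : Fin K → ZMod 2) (z : (Fin K → ZMod 2) → ℕ → ℂ) (ξ : Fin K → ZMod 2)
    (j : ℕ) : fo (cop n y z) ξ j = ev n (y ⬝ᵥ ξ) * fo z ξ j := by
  have h : cop n y z = ((1 + (bif n then -1 else 1) * I) / 2 : ℂ) • z +
      ((1 - (bif n then -1 else 1) * I) / 2 : ℂ) • fun x => z (x + y) := rfl
  rw [h, map_add, map_smul, map_smul]
  simp only [Pi.add_apply, Pi.smul_apply, smul_eq_mul, fo_shift, ev, sg]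
  split_ifs <;> ring

theorem fo_fold (n : Bool) (y : ℕ → Fin K → ZMod 2) (z : (Fin K → ZMod 2) → ℕ → ℂ)
    (ξ : Fin K → ZMod 2) (j N : ℕ) : fo ((List.range N).foldr (fun c => cop n (y c)) z) ξ j =
      (∏ c ∈ Finset.range N, ev n (y c ⬝ᵥ ξ)) * fo z ξ j := by
  induction N generalizing z with
  | zero => simp
  | succ N ih =>
    rw [List.range_succ, List.foldr_append, ih, Finset.prod_range_succ, mul_assoc, ← fo_cop]
    rfl

/-- The character of the residues modulo four. -/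
noncomputable def io (n : Bool) (g : ZMod 4) : ℂ := ((bif n then -1 else 1) * I) ^ g.val

theorem io_zero (n : Bool) : io n 0 = 1 := pow_zero _

theorem io_add (n : Bool) (g g' : ZMod 4) : io n (g + g') = io n g * io n g' := by
  rw [io, io, io, ZMod.val_add, ← pow_add, ← pow_eq_pow_mod]
  cases n <;> simp [Even.neg_pow (by decide : Even 4)]

theorem io_sum (n : Bool) {ι : Type} (s : Finset ι) (f : ι → ZMod 4) :
    io n (∑ i ∈ s, f i) = ∏ i ∈ s, io n (f i) := by
  classical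
  induction s using Finset.induction_on with
  | empty => simp [io_zero]
  | insert a s ha ih => rw [Finset.sum_insert ha, Finset.prod_insert ha, io_add, ih]

theorem io_bit (n : Bool) (z : ZMod 2) : io n (if z = 0 then 0 else 1) = ev n z := by
  rw [ev]
  split_ifs
  · exact io_zero n
  · exact pow_one _

theorem io_neg (n : Bool) (z : ZMod 2) : io n (-if z = 0 then 0 else 1) = ev (!n) z := by
  rw [ev]
  split_ifs
  · exact io_zero n
  · have h : (-1 : ZMod 4).val = 3 := rfl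
    rw [io, h]
    cases n <;> simp [pow_succ]

theorem ev_sq (n : Bool) (z : ZMod 2) : ev n z * ev n z = sg z := by
  rw [ev, sg]
  split_ifs
  · exact one_mul _
  · cases n <;> simp

theorem prod_mul (f : ℕ → ℂ) (m n : ℕ) : ∏ c ∈ Finset.range (m * n), f c =
    ∏ c ∈ Finset.range n, ∏ a : Fin m, f (a * n + c) := by
  rw [Finset.prod_comm, Fin.prod_univ_eq_prod_range (fun a => ∏ c ∈ Finset.range n, f (a * n + c))]
  induction m with
  | zero => simp
  | succ m ih => rw [Nat.succ_mul, Finset.prod_range_add, ih, Finset.prod_range_succ]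

theorem dotL_eq (m : ℕ) (u : List Bool) (y : Fin m → Fin K → ZMod 2) (ξ : Fin K → ZMod 2) :
    dotL m u (fun a => y a ⬝ᵥ ξ) = (∑ a : Fin m, if u.getD a false then y a else 0) ⬝ᵥ ξ := by
  rw [dotL, sum_dotProduct]
  refine Finset.sum_congr rfl fun a _ => ?_
  split_ifs
  · rfl
  · exact (zero_dotProduct _).symm

end Frames

open Frames Matrix in
theorem frm : FRM := by
  intro K m n k0 _ ng
  refine ⟨fun q => ml fun ξ => ∏ c ∈ Finset.range n, io ng (q fun a => uv K (k0 + a * n + c) ⬝ᵥ ξ),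
    fun z => ml_eq fun ξ j => ?_, fun g g' z => ml_eq fun ξ j => ?_,
    fun u s z => ml_eq fun ξ j => ?_, fun u z => congrFun (ml_eq fun ξ j => ?_),
    fun z => ml_eq fun ξ j => ?_⟩
  · simp [io_zero]
  · simp only [fo_ml, Pi.add_apply, io_add, Finset.prod_mul_distrib, mul_assoc]
  · rw [fo_fold]
    refine congrArg (· * _) (Finset.prod_congr rfl fun c _ => ?_)
    cases s
    · simp only [Bool.false_eq_true, if_false, qa, io_bit, dotL_eq, Bool.xor_false]
    · simp only [if_true, Pi.neg_apply, qa, io_neg, dotL_eq, Bool.xor_true]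
  · rw [fo_shift, sum_dotProduct, sg_sum, ← Fin.prod_univ_eq_prod_range
      (fun c => io ng ((qa m u + qa m u) fun a => uv K (k0 + a * n + c) ⬝ᵥ ξ))]
    simp only [Pi.add_apply, io_add, qa, io_bit, ev_sq, dotL_eq]
  · rw [fo_fold, prod_mul]
    simp only [qfull, io_sum, io_bit, add_assoc]

end Vale.Agent.P338Z
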