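import Vale.Agent.P338Z.Gen.Top
import Vale.Agent.P338Z.Gen.LayLem
import Vale.Agent.P338Z.Ps.Acc
import Vale.Agent.P338Z.Ps.Dia

/-!
P338 power saving: one group of butterflies.
-/

namespace Vale.Agent.P338Z

open Vale.Agent.P338.R3.H968 Vale.Agent.P338.R3.H898

namespace Hg

/-! ### The Hadamard kernel -/

/-- The sign. -/
def sgn (a : ZMod 2) : ℤ := if a = 0 then 1 else -1

theorem sgn_add (a b : ZMod 2) : sgn (a + b) = sgn a * sgn b := by
  revert a b
  decide

theorem sgn_sum {ι : Type} (s : Finset ι) (f : ι → ZMod 2) :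
    sgn (∑ c ∈ s, f c) = ∏ c ∈ s, sgn (f c) := by
  classical
  induction s using Finset.induction_on with
  | empty => simp [sgn]
  | insert a s ha ih => rw [Finset.sum_insert ha, Finset.prod_insert ha, sgn_add, ih]

theorem abs_sgn (a : ZMod 2) : |sgn a| = 1 := by
  revert a
  decide

variable {K : ℕ}

/-- The kernel of the butterflies on the bits in `S`. -/
def ker (S : List (Fin K)) (x y : Fin K → ZMod 2) : ℤ :=
  ∏ c, if c ∈ S then sgn (x c * y c) else if x c = y c then 1 else 0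

theorem ker_nil (x y : Fin K → ZMod 2) : ker [] x y = if x = y then 1 else 0 := by
  simp only [ker, List.not_mem_nil, if_false]
  split_ifs with h
  · simp [h]
  · obtain ⟨c, hc⟩ := Function.ne_iff.1 h
    exact Finset.prod_eq_zero (Finset.mem_univ c) (if_neg hc)

theorem ker_cons {S : List (Fin K)} {c : Fin K} (hc : c ∉ S) (x y : Fin K → ZMod 2) :
    ∑ b : ZMod 2, sgn (x c * b) * ker S (Function.update x c b) y = ker (c :: S) x y := by
  have e : ∀ b, ker S (Function.update x c b) y = (if b = y c then 1 else 0) *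
      ∏ c' ∈ Finset.univ.erase c,
        if c' ∈ S then sgn (x c' * y c') else if x c' = y c' then 1 else 0 := by
    intro b
    rw [ker, ← Finset.mul_prod_erase _ _ (Finset.mem_univ c), if_neg hc, Function.update_self]
    congr 1
    refine Finset.prod_congr rfl fun c' h' => ?_
    rw [Function.update_of_ne (Finset.ne_of_mem_erase h')]
  simp only [e]
  rw [ker, ← Finset.mul_prod_erase _ _ (Finset.mem_univ c), if_pos List.mem_cons_self,
    Finset.sum_eq_single (y c) (fun b _ hb => by rw [if_neg hb]; ring) (by simp), if_pos rfl,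
    one_mul]
  congr 1
  refine Finset.prod_congr rfl fun c' h' => ?_
  simp only [List.mem_cons, Finset.ne_of_mem_erase h', false_or]

theorem ker_all (x y : Fin K → ZMod 2) :
    ker (List.finRange K) x y = if ∑ c, x c * y c = 0 then 1 else -1 := by
  simp only [ker, List.mem_finRange, if_true]
  rw [← sgn_sum]
  rfl

/-- A chain of butterflies. -/
theorem fold_ker (A : (Fin K → ZMod 2) → ℕ) (pos : Fin K → ℕ)
    (hA : ∀ (c : Fin K) (G : ℕ → Cell) (x : Fin K → ZMod 2) (k : ℕ), hF (pos c) G (A x) k =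
      ∑ b : ZMod 2, sgn (x c * b) * G (A (Function.update x c b)) k) (F : ℕ → Cell) (k : ℕ)
    (S : List (Fin K)) (hS : S.Nodup) (x : Fin K → ZMod 2) :
    (S.map pos).foldr hF F (A x) k = ∑ y, ker S x y * F (A y) k := by
  induction S generalizing x with
  | nil => simp [ker_nil]
  | cons c S ih =>
    rw [List.nodup_cons] at hS
    rw [List.map_cons, List.foldr_cons, hA]
    simp only [ih hS.2, Finset.mul_sum]
    rw [Finset.sum_comm]
    refine Finset.sum_congr rfl fun y _ => ?_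
    rw [← ker_cons hS.1, Finset.sum_mul]
    exact Finset.sum_congr rfl fun b _ => by ring

/-! ### The layout without padding -/

/-- The layout without padding. -/
def un (L : Lay) : Lay := (L.1, L.2.1, L.2.2.2, L.2.2.2)

/-- The weak conditions. -/
structure Wk (L : Lay) : Prop where
  lq : L.2.2.1.length = L.nf
  pos : ∀ f, 0 < L.q f

section

variable {L : Lay}

theorem wk_un {Δ : ℕ} (h : L.Ok Δ) : Wk (un L) := ⟨h.le, fun f => (h.pos f).1⟩

theorem Wk.B_pos (h : Wk L) (f : ℕ) : 0 < L.B f := by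
  have e := L.B_add 0 f
  rw [zero_add, Lay.B_zero, one_mul] at e
  rw [e]
  exact Finset.prod_pos fun _ _ => h.pos _

theorem Wk.B_nf (h : Wk L) : L.B L.nf = L.N := by
  unfold Lay.B Lay.N
  rw [List.take_of_length_le h.lq.le]

theorem Wk.ad_dig (h : Wk L) (u : ℕ) : L.ad (u / L.N) (L.dig u) = u := by
  rw [Lay.ad_eq, Lay.low_dig, h.B_nf, mul_comm, Nat.div_add_mod]

theorem Wk.ad_lt (h : Wk L) {t T : ℕ} (ht : t < T) {d : ℕ → ℕ} (hd : ∀ f < L.nf, d f < L.q f) :
    L.ad t d < T * L.N := by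
  have h1 := L.low_lt hd
  have h3 := Nat.mul_le_mul_right L.N (show t + 1 ≤ T from ht)
  rw [h.B_nf] at h1
  rw [Lay.ad_eq]
  nlinarith

theorem Wk.ad_split (h : Wk L) {a : ℕ} (ha : a ≤ L.nf) (t : ℕ) (d : ℕ → ℕ) :
    L.ad t d = (t * L.W a (L.nf - a) + L.seg a (L.nf - a) d) * L.B a + L.low a d := by
  have e1 := L.low_add a (L.nf - a) d
  have e2 := L.B_add a (L.nf - a)
  rw [Nat.add_sub_cancel' ha] at e1 e2
  rw [Lay.ad_eq, e1, ← h.B_nf, e2]
  ring

theorem Wk.dig_ad (h : Wk L) (t : ℕ) {d : ℕ → ℕ} (hd : ∀ f < L.nf, d f < L.q f) {f : ℕ}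
    (hf : f < L.nf) : L.dig (L.ad t d) f = d f := by
  have h1 : L.low f d < L.B f := L.low_lt fun j hj => hd j (by omega)
  rw [Lay.dig, h.ad_split (a := f + 1) hf, Lay.low_succ, Lay.B_succ, add_comm,
    div_mod_add _ _ _ _ (h.B_pos f), Nat.add_mul_div_right _ _ (h.B_pos f), Nat.div_eq_of_lt h1,
    zero_add, Nat.mod_eq_of_lt (hd f hf)]

theorem Wk.ad_div (h : Wk L) (t : ℕ) {d : ℕ → ℕ} (hd : ∀ f < L.nf, d f < L.q f) :
    L.ad t d / L.N = t := by
  have h1 := L.low_lt hd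
  have h0 : 0 < L.N := h.B_nf ▸ h.B_pos _
  rw [h.B_nf] at h1
  rw [Lay.ad_eq, add_comm, Nat.add_mul_div_right _ _ h0, Nat.div_eq_of_lt h1, zero_add]

/-- Addresses which differ in one digit. -/
theorem ad_one (L : Lay) (t : ℕ) {d d' : ℕ → ℕ} {a : ℕ} (ha : a < L.nf)
    (h : ∀ f, f ≠ a → d' f = d f) : L.ad t d' + d a * L.B a = L.ad t d + d' a * L.B a := by
  have hm : a ∈ Finset.range L.nf := Finset.mem_range.2 ha
  rw [Lay.ad, Lay.ad, ← Finset.add_sum_erase _ _ hm, ← Finset.add_sum_erase _ _ hm,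
    Finset.sum_congr rfl fun f hf => by rw [h f (Finset.ne_of_mem_erase hf)]]
  ring

theorem fb_lt (c : Fin L.K) : L.fb c < L.nf := by
  have := c.2
  simp only [Lay.fb, Lay.nf]
  omega

theorem put_fb (δ : ℕ → ℕ) (x : Fin L.K → ZMod 2) (c : Fin L.K) :
    L.put δ x (L.fb c) = (x c).val := by
  have hc := c.2
  have e : (L.fb c - (L.K + 2)) / 2 = c := by simp only [Lay.fb]; omega
  have h : L.K + 2 ≤ L.fb c ∧ (L.fb c - (L.K + 2)) % 2 = 0 ∧ (L.fb c - (L.K + 2)) / 2 < L.K := by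
    simp only [Lay.fb]; omega
  rw [Lay.put, dif_pos h]
  congr 2
  exact Fin.ext e

theorem put_cases (δ : ℕ → ℕ) (f : ℕ) :
    (∃ c : Fin L.K, f = L.fb c) ∨ ∀ x : Fin L.K → ZMod 2, L.put δ x f = δ f := by
  by_cases h : L.K + 2 ≤ f ∧ (f - (L.K + 2)) % 2 = 0 ∧ (f - (L.K + 2)) / 2 < L.K
  · refine Or.inl ⟨⟨_, h.2.2⟩, ?_⟩
    simp only [Lay.fb]
    omega
  · exact Or.inr fun x => dif_neg h

theorem put_real {Δ : ℕ} (h : L.Ok Δ) {δ : ℕ → ℕ} (hδ : L.Real δ) (x : Fin L.K → ZMod 2) :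
    L.Real (L.put δ x) := by
  intro f hf
  rcases put_cases (L := L) δ f with ⟨c, rfl⟩ | h1
  · rw [put_fb, (h.bit c c.2).2.1]
    exact ZMod.val_lt _
  · rw [h1]
    exact hδ f hf

theorem put_update (δ : ℕ → ℕ) (x : Fin L.K → ZMod 2) (c : Fin L.K) (b : ZMod 2) (f : ℕ)
    (hf : f ≠ L.fb c) : L.put δ (Function.update x c b) f = L.put δ x f := by
  rcases put_cases (L := L) δ f with ⟨c', rfl⟩ | h1
  · rw [put_fb, put_fb, Function.update_of_ne fun e => hf (by rw [e])]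
  · rw [h1, h1]

theorem dg_real {Δ : ℕ} (h : L.Ok Δ) (u : ℕ) : L.Real (L.dg u) := fun f _ =>
  Nat.mod_lt _ (h.pos f).1

/-- The selected bits of an address. -/
def bits (L : Lay) (u : ℕ) (c : Fin L.K) : ZMod 2 := (L.dg u (L.fb c) : ℕ)

theorem put_bits {Δ : ℕ} (h : L.Ok Δ) (u f : ℕ) : L.put (L.dg u) (bits L u) f = L.dg u f := by
  rcases put_cases (L := L) (L.dg u) f with ⟨c, rfl⟩ | h1
  · rw [put_fb, bits, ZMod.val_natCast, Nat.mod_eq_of_lt]
    have := dg_real h u _ (fb_lt c)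
    rwa [(h.bit c c.2).2.1] at this
  · rw [h1]

/-- One butterfly. -/
theorem step {Δ : ℕ} (h : L.Ok Δ) (t : ℕ) {δ : ℕ → ℕ} (hδ : L.Real δ) (c : Fin L.K) {p : ℕ}
    (hp : (un L).B (L.fb c) = 2 ^ p) (G : ℕ → Cell) (x : Fin L.K → ZMod 2) (k : ℕ) :
    hF p G ((un L).ad t (L.put δ x)) k =
      ∑ b : ZMod 2, sgn (x c * b) * G ((un L).ad t (L.put δ (Function.update x c b))) k := by
  have h1 : (un L).dig ((un L).ad t (L.put δ x)) (L.fb c) = L.put δ x (L.fb c) :=
    (wk_un h).dig_ad t (put_real h hδ x) (fb_lt c)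
  have h2 : (un L).q (L.fb c) = 2 := (h.bit c c.2).2.1
  rw [Lay.dig, hp, h2, put_fb] at h1
  have h3 : ∀ b : ZMod 2, (un L).ad t (L.put δ (Function.update x c b)) + (x c).val * 2 ^ p =
      (un L).ad t (L.put δ x) + b.val * 2 ^ p := by
    intro b
    have := ad_one (un L) t (d := L.put δ x) (d' := L.put δ (Function.update x c b))
      (fb_lt c) (put_update δ x c b)
    rwa [hp, put_fb, put_fb, Function.update_self] at this
  have hu : (Finset.univ : Finset (ZMod 2)) = {0, 1} := by decide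
  rw [hu, Finset.sum_pair (by decide), hF, Nat.testBit_eq_decide_div_mod_eq, h1]
  have h30 := h3 0
  have h31 := h3 1
  have v0 : (0 : ZMod 2).val = 0 := rfl
  have v1 : (1 : ZMod 2).val = 1 := rfl
  have hx : x c = 0 ∨ x c = 1 := by
    generalize x c = a
    revert a
    decide
  rcases hx with hx | hx
  · rw [hx, v0] at h30
    rw [hx, v0, v1] at h31
    have e0 : (un L).ad t (L.put δ (Function.update x c 0)) = (un L).ad t (L.put δ x) := by omega
    have e1 : (un L).ad t (L.put δ (Function.update x c 1)) = (un L).ad t (L.put δ x) + 2 ^ p := by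
      omega
    rw [e0, e1, hx, v0]
    simp [sgn, cAdd]
  · rw [hx, v0, v1] at h30
    rw [hx, v1] at h31
    have e0 : (un L).ad t (L.put δ (Function.update x c 0)) = (un L).ad t (L.put δ x) - 2 ^ p := by
      omega
    have e1 : (un L).ad t (L.put δ (Function.update x c 1)) = (un L).ad t (L.put δ x) := by omega
    rw [e0, e1, hx, v1]
    simp [sgn, cSub]
    ring

/-- The address with the selected bits replaced. -/
def rep (L : Lay) (u : ℕ) (y : Fin L.K → ZMod 2) : ℕ :=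
  (un L).ad (u / (un L).N) (L.put (L.dg u) y)

theorem rep_bits {Δ : ℕ} (h : L.Ok Δ) (u : ℕ) : rep L u (bits L u) = u := by
  rw [rep, (un L).ad_congr _ (d' := (un L).dig u) fun f _ => put_bits h u f]
  exact (wk_un h).ad_dig u

theorem pad_rep {Δ : ℕ} (h : L.Ok Δ) (u : ℕ) (y : Fin L.K → ZMod 2) :
    L.pad (rep L u y) = L.ad (u / (un L).N) (L.put (L.dg u) y) := by
  have hr := put_real h (dg_real h u) y
  have e1 : rep L u y / L.2.2.2.prod = u / (un L).N := (wk_un h).ad_div _ hr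
  rw [Lay.pad, e1]
  exact L.ad_congr _ fun f hf => (wk_un h).dig_ad _ hr hf

theorem div_lt {Δ : ℕ} (h : L.Ok Δ) {u T : ℕ} (hu : u < T * L.2.2.2.prod) : u / (un L).N < T :=
  (Nat.div_lt_iff_lt_mul ((wk_un h).B_nf ▸ (wk_un h).B_pos _)).2 hu

theorem rep_lt {Δ : ℕ} (h : L.Ok Δ) {u T : ℕ} (hu : u < T * L.2.2.2.prod)
    (y : Fin L.K → ZMod 2) : rep L u y < T * L.2.2.2.prod :=
  (wk_un h).ad_lt (div_lt h hu) (put_real h (dg_real h u) y)

/-- The butterflies on all selected bits. -/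
theorem fold_rep {Δ : ℕ} (h : L.Ok Δ) {ps : List ℕ} (hK : L.K = ps.length)
    (hp : ∀ k < ps.length, (L.2.2.2.take (L.fb k)).prod = 2 ^ ps.getD k 0) (F : ℕ → Cell)
    (u k : ℕ) : ps.foldr hF F u k = ∑ y : Fin L.K → ZMod 2,
      (if ∑ c, bits L u c * y c = 0 then 1 else -1) * F (rep L u y) k := by
  have e : (List.finRange L.K).map (fun c : Fin L.K => ps.getD c 0) = ps := by
    refine List.ext_getElem (by simp [hK]) fun i h1 h2 => ?_
    simp [List.getElem?_eq_getElem h2]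
  have := fold_ker (rep L u) (fun c : Fin L.K => ps.getD c 0)
    (fun c G x k => step h _ (dg_real h u) c (hp c (hK ▸ c.2)) G x k) F k (List.finRange L.K)
    (List.nodup_finRange _) (bits L u)
  rw [e, rep_bits h] at this
  rw [this]
  exact Finset.sum_congr rfl fun y _ => by rw [ker_all]

end

theorem sev_selLt (k u : ℕ) : sev (selLt k) u = decide (u < k) := by
  simp [sev, selLt, cev, pev]

theorem enum_lt {N k : ℕ} (h : k ≤ N) : Enum N k (selLt k) id :=
  ⟨fun _ _ h1 _ => h1, fun _ h1 => h1.trans_le h, fun u _ => by simp [sev_selLt]⟩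

theorem abs_sum_le {K β : ℕ} (s : (Fin K → ZMod 2) → Prop) [DecidablePred s]
    (g : (Fin K → ZMod 2) → ℤ) (hg : ∀ y, |g y| ≤ 2 ^ β) :
    |∑ y, (if s y then 1 else -1) * g y| ≤ 2 ^ K * 2 ^ β := by
  refine (Finset.abs_sum_le_sum_abs _ _).trans ?_
  refine (Finset.sum_le_card_nsmul _ _ (2 ^ β) fun y _ => ?_).trans ?_
  · split_ifs <;> simpa using hg y
  · simp

end Hg

open Hg in
/-- **One group of butterflies.** -/
theorem hg_of {ν : Nets} (hl : LAY) (hp : PAD) (hm : HMID ν) (h : ν.Ok) : HG ν := by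
  intro P r n G j β ps hP hj hlen hpw hpos h8 hG hgam hsK hgs hβ
  have hne : ps ≠ [] := by
    rintro rfl
    exact (pow_pos h.mpos j).ne hlen
  obtain ⟨hok, hK, hN, hprod, hbit⟩ := hl ν.Δ r n (ν.r * (2 * j)) G ps h.pos hne hpw hpos h8 hG
  set L := mkLay ν.Δ r n (ν.r * (2 * j)) ps with hL
  have hn : 1 ≤ n := by
    obtain ⟨p, hp'⟩ := List.exists_mem_of_ne_nil ps hne
    have := (hpos p hp').2
    omega
  have E1 : Enum (4 * 2 ^ n) (2 ^ n) (selLt (2 ^ n)) id := enum_lt (by omega)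
  have E2 : Enum (4 * 2 ^ n) (2 ^ n) (selRe L (2 ^ (ν.r * (2 * j)) * L.N)) L.pad := by
    have := hp ν.Δ (2 ^ (ν.r * (2 * j))) (4 * 2 ^ n) L hok hN
    rwa [hprod] at this
  have B1 := rel P _ _ _ _ _ _ E1 E2
  have B2 := sub P _ _ 0 (4 * 2 ^ n) _ (by omega)
    (hm P L j hP hok hj (hK.trans hlen) hgam (by rw [hK]; exact hsK))
  have B3 := rel P _ _ _ _ _ _ E2 E1
  have B4 := sub P _ _ 0 (4 * 2 ^ n) _ (by omega)
    (div P (2 ^ n) (gam ν j) hP (dvd_pow_self 2 (by omega)) hgs)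
  refine (B1.seq (B2.seq (B3.seq B4))).mono ?_
  rintro F F4 ⟨F1, ⟨h1, -⟩, F2, ⟨⟨G2, h2, h2'⟩, -⟩, F3, ⟨h3, h3'⟩, ⟨G4, h4, h4'⟩, h4''⟩ hF
  simp only [zero_add, id] at h1 h2 h2' h3 h4 h4'
  have key : ∀ u < 2 ^ n, ∀ k, F3 u k = 2 ^ gam ν j * ∑ y : Fin L.K → ZMod 2,
      (if ∑ c, bits L u c * y c = 0 then 1 else -1) * F (rep L u y) k := by
    intro u hu k
    have hu' : u < 2 ^ (ν.r * (2 * j)) * L.2.2.2.prod := hprod ▸ hu
    have ht := div_lt hok hu'
    have e1 : L.pad u = L.ad (u / (un L).N) (L.put (L.dg u) (bits L u)) := by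
      rw [← pad_rep hok, rep_bits hok]
    have hlt : L.pad u < 2 ^ (ν.r * (2 * j)) * L.N := by
      rw [e1]
      exact hok.ad_lt ht fun f hf =>
        (put_real hok (dg_real hok u) _ f hf).trans_le (hok.pos f).2
    rw [h3 u hu, h2' _ hlt, e1, h2 _ ht _ (dg_real hok u)]
    congr 1
    refine Finset.sum_congr rfl fun y _ => ?_
    rw [← pad_rep hok, h1 _ (hprod ▸ rep_lt hok hu' y)]
  refine ⟨fun u hu => ?_, fun u h1' h2' => ?_⟩
  · funext k
    rw [h4' u hu, h4 ?_ u hu k, key u hu k, fold_rep hok hK hbit,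
      Int.mul_ediv_cancel_left _ (by positivity)]
    intro v hv i hi
    have hv' : v < 2 ^ (ν.r * (2 * j)) * L.2.2.2.prod := hprod ▸ hv
    have hb := abs_sum_le (β := β) (fun y : Fin L.K → ZMod 2 => ∑ c, bits L v c * y c = 0)
      (fun y => F (rep L v y) i) fun y => hF _ (hprod ▸ rep_lt hok hv' y) i hi
    rw [key v hv i, abs_mul, abs_of_pos (by positivity : (0 : ℤ) < 2 ^ gam ν j)]
    calc 2 * (2 ^ gam ν j * |∑ y : Fin L.K → ZMod 2,
          (if ∑ c, bits L v c * y c = 0 then 1 else -1) * F (rep L v y) i|)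
        ≤ 2 * (2 ^ gam ν j * (2 ^ L.K * 2 ^ β)) := by gcongr
      _ = 2 ^ (β + L.K + gam ν j + 1) := by ring
      _ < 2 ^ P.b := pow_lt_pow_right₀ (by norm_num) (by omega)
  · rw [h4'' u h2' (Or.inr (by omega)), h3' u h2' (by simp [sev_selLt]; omega)]

end Vale.Agent.P338Z
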