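import Vale.Agent.P338Z.Gen.Top
import Vale.Agent.P338Z.Gen.LayLem
import Vale.Agent.P338Z.Ps.Dia

/-!
P338 power saving: the Hadamard transform on the selected bits from the square roots of the
exchanges.
-/

namespace Vale.Agent.P338Z

open Vale.Agent.P338.R3.H968 Vale.Agent.P338.R3.H898

namespace Hm

open Complex Finset

/-- The kernel of the first `n` square roots. -/
noncomputable def ker (K n : ℕ) (z : Fin K → ZMod 2) : ℂ :=
  ∏ c : Fin K, if (c : ℕ) < n then (if z c = 0 then (1 + I) / 2 else (1 - I) / 2)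
    else if z c = 0 then 1 else 0

theorem two_cases (a : ZMod 2) : a = 0 ∨ a = 1 := by
  revert a
  decide

theorem ker_zero (K : ℕ) (z : Fin K → ZMod 2) : ker K 0 z = if z = 0 then 1 else 0 := by
  unfold ker
  simp only [Nat.not_lt_zero, if_false]
  rw [Finset.prod_boole]
  simp [funext_iff]

theorem ker_succ {K n : ℕ} (hn : n < K) (z : Fin K → ZMod 2) :
    ker K (n + 1) z = (1 + I) / 2 * ker K n z + (1 - I) / 2 * ker K n (z + uv K n) := by
  unfold ker
  rw [← Finset.mul_prod_erase univ _ (mem_univ (⟨n, hn⟩ : Fin K)),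
    ← Finset.mul_prod_erase univ _ (mem_univ (⟨n, hn⟩ : Fin K)),
    ← Finset.mul_prod_erase univ _ (mem_univ (⟨n, hn⟩ : Fin K))]
  have e1 : ∏ c ∈ univ.erase (⟨n, hn⟩ : Fin K), (if (c : ℕ) < n + 1 then
      (if z c = 0 then (1 + I) / 2 else (1 - I) / 2) else if z c = 0 then (1 : ℂ) else 0) =
      ∏ c ∈ univ.erase (⟨n, hn⟩ : Fin K), (if (c : ℕ) < n then
      (if z c = 0 then (1 + I) / 2 else (1 - I) / 2) else if z c = 0 then (1 : ℂ) else 0) := by
    refine Finset.prod_congr rfl fun c hc => ?_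
    have h1 : (c : ℕ) ≠ n := fun e => (Finset.mem_erase.1 hc).1 (Fin.ext e)
    have h2 : (c : ℕ) < n + 1 ↔ (c : ℕ) < n := by omega
    simp only [h2]
  have e2 : ∏ c ∈ univ.erase (⟨n, hn⟩ : Fin K), (if (c : ℕ) < n then
      (if (z + uv K n) c = 0 then (1 + I) / 2 else (1 - I) / 2)
        else if (z + uv K n) c = 0 then (1 : ℂ) else 0) =
      ∏ c ∈ univ.erase (⟨n, hn⟩ : Fin K), (if (c : ℕ) < n then
      (if z c = 0 then (1 + I) / 2 else (1 - I) / 2) else if z c = 0 then (1 : ℂ) else 0) := by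
    refine Finset.prod_congr rfl fun c hc => ?_
    have h1 : (c : ℕ) ≠ n := fun e => (Finset.mem_erase.1 hc).1 (Fin.ext e)
    have h2 : (z + uv K n) c = z c := by simp [uv, h1]
    rw [h2]
  rw [e1, e2]
  have h3 : (z + uv K n) ⟨n, hn⟩ = z ⟨n, hn⟩ + 1 := by simp [uv]
  have h4 : (1 : ZMod 2) + 1 = 0 := by decide
  rw [h3]
  rcases two_cases (z ⟨n, hn⟩) with h | h <;> simp [h, h4]

theorem uv_add (K n : ℕ) : uv K n + uv K n = 0 := by
  funext c
  have h4 : (1 : ZMod 2) + 1 = 0 := by decide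
  by_cases h : (c : ℕ) = n <;> simp [uv, h, h4]

theorem fold_eq {K : ℕ} (n : ℕ) (hn : n ≤ K) : ∀ (g : (Fin K → ZMod 2) → ℕ → ℂ)
    (x : Fin K → ZMod 2) (j : ℕ),
    (List.range n).foldr (fun c => cop false (uv K (0 + c))) g x j =
      ∑ z, ker K n z * g (x + z) j := by
  induction n with
  | zero => intro g x j; simp [ker_zero]
  | succ n ih =>
    intro g x j
    rw [List.range_succ, List.foldr_append, ih (by omega)]
    have e : ∑ z, ker K n z * ((1 - I) / 2 * g (x + z + uv K n) j) =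
        ∑ z, (1 - I) / 2 * ker K n (z + uv K n) * g (x + z) j := by
      refine Fintype.sum_equiv (Equiv.addRight (uv K n)) _ _ fun z => ?_
      simp only [Equiv.coe_addRight]
      rw [add_assoc z, uv_add, add_zero, add_assoc]
      ring
    simp only [List.foldr_cons, List.foldr_nil, cop, cond_false, one_mul, zero_add, mul_add,
      Finset.sum_add_distrib, ker_succ (show n < K by omega), add_mul]
    rw [e]
    congr 1
    refine Finset.sum_congr rfl fun z _ => ?_
    ring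

/-- The sign of a bit. -/
def sg2 (a : ZMod 2) : ℤ := if a = 0 then 1 else -1

theorem sg2_add (a b : ZMod 2) : sg2 (a + b) = sg2 a * sg2 b := by
  revert a b
  decide

theorem sg2_sum {ι : Type*} (s : Finset ι) (u : ι → ZMod 2) :
    sg2 (∑ c ∈ s, u c) = ∏ c ∈ s, sg2 (u c) := by
  classical
  induction s using Finset.induction_on with
  | empty => simp [sg2]
  | insert a s ha ih => rw [Finset.sum_insert ha, Finset.prod_insert ha, sg2_add, ih]

/-- The number of ones. -/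
def wt {K : ℕ} (x : Fin K → ZMod 2) : ℕ := ∑ c, (x c).val

theorem bit_eq (a z : ZMod 2) : I ^ a.val * (if z = 0 then (1 + I) / 2 else (1 - I) / 2) *
    I ^ (a + z).val = (1 + I) / 2 * (sg2 (a * (a + z)) : ℂ) := by
  have h4 : (1 : ZMod 2) + 1 = 0 := by decide
  have h5 : (1 : ZMod 2).val = 1 := by decide
  rcases two_cases a with h | h <;> rcases two_cases z with h' | h' <;>
    simp [h, h', h4, h5, sg2]
  · linear_combination (-1 / 2 : ℂ) * I_sq
  · linear_combination ((1 + I) / 2 : ℂ) * I_sq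
  · linear_combination (-1 / 2 : ℂ) * I_sq

theorem pow_eight {K : ℕ} (h : 8 ∣ K) : (2 : ℂ) ^ (K / 2) * ((1 + I) / 2) ^ K = 1 := by
  obtain ⟨k, rfl⟩ := h
  have e : 8 * k / 2 = 4 * k := by omega
  have e2 : (2 : ℂ) ^ 4 * ((1 + I) / 2) ^ 8 = 1 := by
    have h2 : ((1 + I) / 2) ^ 2 = I / 2 := by linear_combination (1 / 4 : ℂ) * I_sq
    rw [show 8 = 2 * 4 by norm_num, pow_mul, h2, div_pow, I_pow_four]
    norm_num
  rw [e, pow_mul, pow_mul, ← mul_pow, e2, one_pow]

theorem had {K : ℕ} (h : 8 ∣ K) (g : (Fin K → ZMod 2) → ℕ → ℂ) (x : Fin K → ZMod 2) (j : ℕ) :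
    2 ^ (K / 2) * I ^ wt x * (List.range K).foldr (fun c => cop false (uv K (0 + c)))
      (fun y k => I ^ wt y * g y k) x j = ∑ y, (sg2 (∑ c, x c * y c) : ℂ) * g y j := by
  rw [fold_eq K le_rfl, Finset.mul_sum]
  refine Fintype.sum_equiv (Equiv.addLeft x) _ _ fun z => ?_
  simp only [Equiv.coe_addLeft]
  have e : I ^ wt x * ker K K z * I ^ wt (x + z) =
      ((1 + I) / 2) ^ K * (sg2 (∑ c, x c * (x + z) c) : ℂ) := by
    rw [sg2_sum, wt, wt, ← Finset.prod_pow_eq_pow_sum, ← Finset.prod_pow_eq_pow_sum, ker,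
      ← Finset.prod_mul_distrib, ← Finset.prod_mul_distrib, Int.cast_prod]
    have e1 : ((1 + I) / 2) ^ K = ∏ _c : Fin K, (1 + I) / 2 := by
      rw [Finset.prod_const, card_univ, Fintype.card_fin]
    rw [e1, ← Finset.prod_mul_distrib]
    refine Finset.prod_congr rfl fun c _ => ?_
    rw [if_pos c.2]
    exact bit_eq (x c) (z c)
  have e' := pow_eight h
  calc _ = 2 ^ (K / 2) * (I ^ wt x * ker K K z * I ^ wt (x + z)) * g (x + z) j := by ring
    _ = (2 ^ (K / 2) * ((1 + I) / 2) ^ K) * (sg2 (∑ c, x c * (x + z) c) : ℂ) * g (x + z) j := by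
      rw [e]; ring
    _ = _ := by rw [e', one_mul]

/-! ### The layout -/

variable {L : Lay} {Δ : ℕ}

theorem put_fb (δ : ℕ → ℕ) (x : Fin L.K → ZMod 2) (k : Fin L.K) :
    L.put δ x (L.fb k) = (x k).val := by
  have e : L.fb k - (L.K + 2) = 2 * k := by unfold Lay.fb; omega
  have hk := k.2
  have h : L.K + 2 ≤ L.fb k ∧ (L.fb k - (L.K + 2)) % 2 = 0 ∧ (L.fb k - (L.K + 2)) / 2 < L.K := by
    refine ⟨by unfold Lay.fb; omega, by omega, by omega⟩
  rw [Lay.put, dif_pos h]
  congr 2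
  exact Fin.ext (by simp only [e]; omega)

theorem put_low (δ : ℕ → ℕ) (x : Fin L.K → ZMod 2) : L.put δ x 0 = δ 0 := by
  rw [Lay.put, dif_neg (by omega)]

theorem put_congr {δ δ' : ℕ → ℕ} (x : Fin L.K → ZMod 2) {f : ℕ} (h : δ f = δ' f) :
    L.put δ x f = L.put δ' x f := by
  unfold Lay.put
  rw [h]

theorem put_lt (h : L.Ok Δ) {δ : ℕ → ℕ} (hδ : L.Real δ) (x : Fin L.K → ZMod 2) :
    ∀ f < L.nf, L.put δ x f < L.q f := by
  intro f hf
  unfold Lay.put
  split
  · rename_i h1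
    have e : f = L.fb ((f - (L.K + 2)) / 2) := by unfold Lay.fb; omega
    have h2 := (h.bit _ h1.2.2).1
    rw [← e] at h2
    rw [h2]
    exact ZMod.val_lt _
  · exact (hδ f hf).trans_le (h.pos f).2

theorem pev_pop (h : L.Ok Δ) {δ : ℕ → ℕ} (hδ : L.Real δ) (t : ℕ) (x : Fin L.K → ZMod 2) :
    pev (popE L) (L.ad t (L.put δ x)) = wt x := by
  have e : pev (popE L) (L.ad t (L.put δ x)) =
      ∑ k ∈ range L.K, fev (fl (L.B (L.fb k)) 2) (L.ad t (L.put δ x)) := by
    unfold pev popE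
    rw [List.map_map]
    generalize L.K = n
    induction n with
    | zero => simp
    | succ n ih => rw [List.range_succ, List.map_append, List.sum_append, ih, sum_range_succ]; simp
  rw [e, Finset.sum_range, wt]
  refine Finset.sum_congr rfl fun k _ => ?_
  have hk := k.2
  have h1 := h.fev_ad t (put_lt h hδ x) (f := L.fb k) (by unfold Lay.fb Lay.nf; omega)
  rwa [(h.bit k hk).1, put_fb] at h1

theorem ad_mod (h : L.Ok Δ) {δ : ℕ → ℕ} (hδ : L.Real δ) (t : ℕ) (x : Fin L.K → ZMod 2) :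
    L.ad t (L.put δ x) % 4 = δ 0 := by
  have h1 := h.dig_ad t (put_lt h hδ x) (f := 0) (by unfold Lay.nf; omega)
  rwa [Lay.dig, Lay.B_zero, h.zero.1, Nat.div_one, put_low] at h1

theorem two_dvd (h : L.Ok Δ) : 2 ∣ L.N := by
  rw [h.N_split (a := 1) (by unfold Lay.nf; omega), Lay.B_succ, h.zero.1]
  exact Dvd.intro (L.W 1 (L.nf - 1) * L.B 0 * 2) (by ring)

theorem dcst_pop (c : ℤ) (e : Pl) (u : ℕ) :
    (((dcst [] e (tabI c) u).1 : ℤ) : ℂ) + I * ((dcst [] e (tabI c) u).2 : ℤ) =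
      c * I ^ pev e u := by
  have h1 : pev e u % 4 < 4 := Nat.mod_lt _ (by norm_num)
  have h2 : I ^ pev e u = I ^ (pev e u % 4) := by
    conv_lhs => rw [← Nat.div_add_mod (pev e u) 4, pow_add, pow_mul, I_pow_four, one_pow, one_mul]
  rw [h2]
  unfold dcst
  simp only [sev, List.all_nil, if_true]
  generalize pev e u % 4 = a at h1
  interval_cases a <;> simp [tabI, pow_succ]
  all_goals ring

theorem dia_pop {P : CPar} (hP : P.Ok) (h : L.Ok Δ) (T : ℕ) (c : ℤ)
    (hc : 2 * (|c| * 2 ^ P.s) < 2 ^ P.b) (h1 : 2 * (1 * 2 ^ P.s) < (2 : ℤ) ^ P.b) :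
    Blk P [pDia P.s (T * L.N) [] (popE L) (tabI c)] (T * L.N) fun F F' =>
      ∀ t < T, ∀ δ, L.Real δ → δ 0 % 2 = 0 → ∀ x k,
        vir L F' t δ x k = c * I ^ wt x * vir L F t δ x k := by
  have h0 : 2 * (0 * 2 ^ P.s) < (2 : ℤ) ^ P.b := by simp
  refine (dia P (T * L.N) [] (popE L) (tabI c) hP ((two_dvd h).mul_left T) ?_).mono ?_
  · intro z hz
    simp only [tabI, List.mem_cons, List.not_mem_nil, or_false] at hz
    rcases hz with rfl | rfl | rfl | rfl | rfl | rfl <;>
      simp only [abs_one, abs_zero, abs_neg] <;> exact ⟨by assumption, by assumption⟩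
  · intro F F' hF t ht δ hδ h2 x k
    have h3 := ad_mod h hδ t x
    have h4 := h.ad_lt ht (put_lt h hδ x)
    have h5 := dcst_pop c (popE L) (L.ad t (L.put δ x))
    rw [pev_pop h hδ] at h5
    obtain ⟨v, hv⟩ : ∃ v, L.ad t (L.put δ x) = 2 * v := ⟨L.ad t (L.put δ x) / 2, by omega⟩
    rw [hv] at h4 h5
    obtain ⟨e1, e2⟩ := hF v h4 k
    rw [vir, vir, hv, e1, e2, ← h5]
    push_cast
    linear_combination (-((dcst [] (popE L) (tabI c) (2 * v)).2 : ℂ) * F (2 * v + 1) k) * I_sq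

theorem parts {a b a' b' : ℤ} (h : (a : ℂ) + I * b = a' + I * b') : a = a' ∧ b = b' := by
  have h1 := congrArg Complex.re h
  have h2 := congrArg Complex.im h
  simp at h1 h2
  exact ⟨h1, h2⟩

theorem ad_odd (h : L.Ok Δ) {δ : ℕ → ℕ} (h0 : 0 < δ 0) (t : ℕ) (x : Fin L.K → ZMod 2) :
    L.ad t (L.put δ x) = L.ad t (L.put (Function.update δ 0 (δ 0 - 1)) x) + 1 := by
  have hn : 1 ≤ L.nf := by unfold Lay.nf; omega
  rw [h.ad_split hn, h.ad_split hn, L.seg_congr (a := 1) (k := L.nf - 1) (d := L.put δ x)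
    (d' := L.put (Function.update δ 0 (δ 0 - 1)) x) fun j _ =>
      put_congr x (by rw [Function.update_of_ne (by omega)]),
    Lay.low_succ, Lay.low_succ, Lay.low_zero, Lay.low_zero, put_low, put_low, Lay.B_zero,
    Function.update_self]
  omega

end Hm

open Hm Complex in
/-- **The Hadamard transform in the padded layout.** -/
theorem hmid_of {ν : Nets} (hc : CREC ν) (h : ν.Ok) : HMID ν := by
  intro P L j hP hL hj hK hg hb
  have h8 : 8 ∣ L.K := by
    rw [hK]
    exact h.m8.trans (dvd_pow_self _ (by omega))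
  have h1 : 2 * (1 * 2 ^ P.s) < (2 : ℤ) ^ P.b := by
    rw [one_mul, ← pow_succ']
    exact pow_lt_pow_right₀ (by norm_num) (by omega)
  have h2 : 2 * (|(2 : ℤ) ^ (L.K / 2)| * 2 ^ P.s) < 2 ^ P.b := by
    rw [abs_of_pos (by positivity), ← pow_add, ← pow_succ']
    exact pow_lt_pow_right₀ (by norm_num) (by omega)
  have a1 := dia_pop hP hL (2 ^ (ν.r * (2 * j))) 1 (by simpa using h1) h1
  have a3 := dia_pop hP hL (2 ^ (ν.r * (2 * j))) (2 ^ (L.K / 2)) h2 h1
  have a2 := hc P L j false 0 1 hP hL (by omega) hg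
  rw [mul_one, ← hK] at a2
  refine (a1.seq (a2.seq a3)).mono ?_
  rintro F F3 ⟨F1, b1, F2, b2, b3⟩ t ht
  have key : ∀ δ, L.Real δ → δ 0 % 2 = 0 → ∀ (x : Fin L.K → ZMod 2) (k : ℕ),
      F3 (L.ad t (L.put δ x)) k = 2 ^ gam ν j *
        ∑ y : Fin L.K → ZMod 2, sg2 (∑ c, x c * y c) * F (L.ad t (L.put δ y)) k ∧
      F3 (L.ad t (L.put δ x) + 1) k = 2 ^ gam ν j *
        ∑ y : Fin L.K → ZMod 2, sg2 (∑ c, x c * y c) * F (L.ad t (L.put δ y) + 1) k := by
    intro δ hδ h0 x k
    have e1 : vir L F1 t δ = fun y k => I ^ wt y * vir L F t δ y k := by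
      funext y k
      rw [b1 t ht δ hδ h0 y k]
      simp
    have e3 := b3 t ht δ hδ h0 x k
    rw [b2 t ht δ hδ h0, e1, Pi.smul_apply, Pi.smul_apply, smul_eq_mul, mul_left_comm] at e3
    push_cast at e3
    rw [had h8] at e3
    apply parts
    rw [← vir, e3]
    push_cast
    simp only [vir, Finset.mul_sum, ← Finset.sum_add_distrib]
    exact Finset.sum_congr rfl fun y _ => by ring
  intro δ hδ x k
  by_cases h0 : δ 0 % 2 = 0
  · exact (key δ hδ h0 x k).1
  · have hδ' : L.Real (Function.update δ 0 (δ 0 - 1)) := by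
      intro f hf
      by_cases e : f = 0
      · subst e
        have := hδ 0 hf
        rw [Function.update_self]
        omega
      · rw [Function.update_of_ne e]
        exact hδ f hf
    have e := (key _ hδ' (by rw [Function.update_self]; omega) x k).2
    simp only [← ad_odd hL (show 0 < δ 0 by omega)] at e
    exact e

end Vale.Agent.P338Z
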