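import Vale.Agent.P338Z.Gen.Top

/-!
P338 power saving: the layout of good positions satisfies the conditions.
-/

namespace Vale.Agent.P338Z

namespace LayA

/-- The list of the radices. -/
def mk (K a b : ℕ) (h : ℕ → ℕ) (gs : List ℕ) : List ℕ :=
  [4] ++ (List.replicate K a ++ ([b] ++ ((gs.flatMap fun g => [2, h g]) ++ List.replicate K a)))

theorem fl_len (h : ℕ → ℕ) (gs : List ℕ) :
    (gs.flatMap fun g => [2, h g]).length = 2 * gs.length := by
  induction gs with
  | nil => rfl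
  | cons g gs ih => simp only [List.flatMap_cons, List.length_append, ih, List.length_cons,
      List.length_nil]; omega

theorem fl_get (h : ℕ → ℕ) (gs l : List ℕ) (k : ℕ) (hk : k < gs.length) :
    ((gs.flatMap fun g => [2, h g]) ++ l).getD (2 * k) 1 = 2 ∧
      ((gs.flatMap fun g => [2, h g]) ++ l).getD (2 * k + 1) 1 = h (gs.getD k 0) := by
  induction gs generalizing k with
  | nil => simp at hk
  | cons g gs ih =>
    cases k with
    | zero => simp
    | succ k =>
      have := ih k (by simpa using hk)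
      rw [show 2 * (k + 1) = 2 * k + 1 + 1 by ring]
      simpa using this

theorem fl_prod (h : ℕ → ℕ) (gs : List ℕ) :
    (gs.flatMap fun g => [2, h g]).prod = (gs.map fun g => 2 * h g).prod := by
  induction gs with
  | nil => rfl
  | cons g gs ih => simp [ih, mul_assoc]

theorem fl_take (h : ℕ → ℕ) (gs l : List ℕ) (k : ℕ) (hk : k ≤ gs.length) :
    ((gs.flatMap fun g => [2, h g]) ++ l).take (2 * k) = (gs.take k).flatMap fun g => [2, h g] := by
  induction gs generalizing k with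
  | nil =>
    obtain rfl : k = 0 := by simpa using hk
    simp
  | cons g gs ih =>
    cases k with
    | zero => simp
    | succ k =>
      have := ih k (by simpa using hk)
      rw [show 2 * (k + 1) = 2 * k + 1 + 1 by ring]
      simpa using this

theorem mk_len (K a b : ℕ) (h : ℕ → ℕ) (gs : List ℕ) (hg : gs.length = K) :
    (mk K a b h gs).length = 4 * K + 2 := by
  simp only [mk, List.length_append, fl_len, hg, List.length_replicate, List.length_cons,
    List.length_nil]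
  omega

theorem getD_app (l l' : List ℕ) (n k : ℕ) (hn : l.length = n) :
    (l ++ l').getD (n + k) 1 = l'.getD k 1 := by
  rw [List.getD_append_right _ _ _ _ (by omega), hn, Nat.add_sub_cancel_left]

theorem mk_zero (K a b : ℕ) (h : ℕ → ℕ) (gs : List ℕ) : (mk K a b h gs).getD 0 1 = 4 := rfl

theorem mk_fo (K a b : ℕ) (h : ℕ → ℕ) (gs : List ℕ) (k : ℕ) (hk : k < K) :
    (mk K a b h gs).getD (1 + k) 1 = a := by
  rw [mk, getD_app _ _ 1 k rfl, List.getD_append _ _ _ _ (by simpa using hk)]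
  simp [hk]

theorem mk_mid (K a b : ℕ) (h : ℕ → ℕ) (gs : List ℕ) (j : ℕ) :
    (mk K a b h gs).getD (K + 2 + j) 1 =
      ((gs.flatMap fun g => [2, h g]) ++ List.replicate K a).getD j 1 := by
  rw [mk, show K + 2 + j = 1 + (K + (1 + j)) by ring, getD_app _ _ 1 _ rfl,
    getD_app _ _ K _ (by simp), getD_app _ _ 1 _ rfl]

theorem mk_fp (K a b : ℕ) (h : ℕ → ℕ) (gs : List ℕ) (hg : gs.length = K) (k : ℕ) (hk : k < K) :
    (mk K a b h gs).getD (3 * K + 2 + k) 1 = a := by
  rw [show 3 * K + 2 + k = K + 2 + (2 * K + k) by ring, mk_mid,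
    getD_app _ _ _ _ (by rw [fl_len, hg])]
  simp [hk]

theorem mk_prod (K a b : ℕ) (h : ℕ → ℕ) (gs : List ℕ) :
    (mk K a b h gs).prod = 4 * a ^ K * b * (gs.map fun g => 2 * h g).prod * a ^ K := by
  simp only [mk, List.prod_append, fl_prod, List.prod_replicate, List.prod_cons, List.prod_nil]
  ring

theorem take_app (l l' : List ℕ) (n k : ℕ) (hn : l.length = n) :
    (l ++ l').take (n + k) = l ++ l'.take k := by
  rw [← hn, List.take_length_add_append]

theorem mk_take (K a b : ℕ) (h : ℕ → ℕ) (gs : List ℕ) (k : ℕ) (hk : k ≤ gs.length) :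
    ((mk K a b h gs).take (K + 2 + 2 * k)).prod =
      4 * a ^ K * b * ((gs.take k).map fun g => 2 * h g).prod := by
  rw [mk, show K + 2 + 2 * k = 1 + (K + (1 + 2 * k)) by ring, take_app _ _ 1 _ rfl,
    take_app _ _ K _ (by simp), take_app _ _ 1 _ rfl, fl_take _ _ _ _ hk]
  simp only [List.prod_append, fl_prod, List.prod_replicate, List.prod_cons, List.prod_nil]
  ring

theorem fa_getD {l l' : List ℕ} (H : List.Forall₂ (fun x y => 0 < x ∧ x ≤ y) l l') (f : ℕ) :
    0 < l.getD f 1 ∧ l.getD f 1 ≤ l'.getD f 1 := by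
  induction H generalizing f with
  | nil => simp
  | cons h _ ih =>
    cases f with
    | zero => simpa using h
    | succ f => simpa using ih f

theorem fa_rep {a a' : ℕ} (h : 0 < a ∧ a ≤ a') (K : ℕ) :
    List.Forall₂ (fun x y => 0 < x ∧ x ≤ y) (List.replicate K a) (List.replicate K a') := by
  induction K with
  | zero => exact .nil
  | succ K ih => exact .cons h ih

theorem fa_fl {h h' : ℕ → ℕ} (H : ∀ g, 0 < h g ∧ h g ≤ h' g) (gs : List ℕ) :
    List.Forall₂ (fun x y => 0 < x ∧ x ≤ y) (gs.flatMap fun g => [2, h g])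
      (gs.flatMap fun g => [2, h' g]) := by
  induction gs with
  | nil => exact .nil
  | cons g gs ih => exact .cons ⟨by norm_num, le_rfl⟩ (.cons (H g) ih)

theorem mk_pos (K : ℕ) {a a' b : ℕ} {h h' : ℕ → ℕ} (ha : 0 < a ∧ a ≤ a') (hb : 0 < b)
    (H : ∀ g, 0 < h g ∧ h g ≤ h' g) (gs : List ℕ) (f : ℕ) :
    0 < (mk K a b h gs).getD f 1 ∧ (mk K a b h gs).getD f 1 ≤ (mk K a' b h' gs).getD f 1 :=
  fa_getD (.cons ⟨by norm_num, le_rfl⟩ (List.rel_append (fa_rep ha K)
    (.cons ⟨hb, le_rfl⟩ (List.rel_append (fa_fl H gs) (fa_rep ha K))))) f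

theorem rad_gt {Δ : ℕ} (hΔ : 0 < Δ) (r : ℕ) : 2 ^ r < radR Δ r := by
  have := Nat.lt_div_mul_add (a := 2 ^ r) hΔ
  unfold radR
  rw [add_mul, one_mul]
  omega

theorem rad_le (Δ r : ℕ) : radR Δ r ≤ 2 ^ r + (Δ + 1) := by
  have := Nat.div_mul_le_self (2 ^ r) Δ
  unfold radR
  rw [add_mul, one_mul]
  omega

theorem pow_le (K : ℕ) (hK : 0 < K) : (4 * K + 1) ^ (3 * K) ≤ 4 * (4 * K) ^ (3 * K) := by
  have hK' : (0 : ℝ) < 4 * K := by positivity
  have h1 : (4 * K + 1 : ℝ) ≤ Real.exp (1 / (4 * K)) * (4 * K) := by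
    have := Real.add_one_le_exp (1 / (4 * K) : ℝ)
    calc (4 * K + 1 : ℝ) = (1 / (4 * K) + 1) * (4 * K) := by field_simp; ring
      _ ≤ _ := by gcongr
  have h2 : Real.exp (1 / (4 * K)) ^ (3 * K) ≤ 4 := by
    rw [← Real.exp_nat_mul]
    have h3 : ((3 * K : ℕ) : ℝ) * (1 / (4 * K)) ≤ 1 := by
      push_cast
      rw [mul_one_div, div_le_one hK']
      linarith
    refine (Real.exp_le_exp.mpr h3).trans ?_
    have := Real.exp_one_lt_d9
    linarith
  have h4 : (4 * K + 1 : ℝ) ^ (3 * K) ≤ 4 * (4 * K) ^ (3 * K) := by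
    calc (4 * K + 1 : ℝ) ^ (3 * K) ≤ (Real.exp (1 / (4 * K)) * (4 * K)) ^ (3 * K) := by gcongr
      _ ≤ _ := by rw [mul_pow]; gcongr
  exact_mod_cast h4

theorem prod_le (c d : ℕ) (u v : ℕ → ℕ) (gs : List ℕ) (H : ∀ g ∈ gs, c * u g ≤ d * v g) :
    c ^ gs.length * (gs.map u).prod ≤ d ^ gs.length * (gs.map v).prod := by
  induction gs with
  | nil => simp
  | cons g gs ih =>
    have h1 := H g (by simp)
    have h2 := ih fun x hx => H x (by simp [hx])
    simp only [List.length_cons, List.map_cons, List.prod_cons]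
    calc c ^ (gs.length + 1) * (u g * (gs.map u).prod)
        = (c * u g) * (c ^ gs.length * (gs.map u).prod) := by ring
      _ ≤ (d * v g) * (d ^ gs.length * (gs.map v).prod) := Nat.mul_le_mul h1 h2
      _ = _ := by ring

theorem size_le {K a a' : ℕ} (b : ℕ) {h h' : ℕ → ℕ} {gs : List ℕ} (hK : 0 < K)
    (hg : gs.length = K) (ha : 4 * K * a' ≤ (4 * K + 1) * a)
    (H : ∀ g ∈ gs, 4 * K * h' g ≤ (4 * K + 1) * h g) :
    (mk K a' b h' gs).prod ≤ 4 * (mk K a b h gs).prod := by
  have h1 := prod_le (4 * K) (4 * K + 1) (fun g => 2 * h' g) (fun g => 2 * h g) gs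
    fun g hg => by have := H g hg; nlinarith
  rw [hg] at h1
  have h2 : (4 * K) ^ K * a' ^ K ≤ (4 * K + 1) ^ K * a ^ K := by
    rw [← mul_pow, ← mul_pow]; exact Nat.pow_le_pow_left ha K
  refine Nat.le_of_mul_le_mul_left (c := (4 * K) ^ (3 * K)) ?_ (by positivity)
  rw [mk_prod, mk_prod]
  calc (4 * K) ^ (3 * K) * (4 * a' ^ K * b * (gs.map fun g => 2 * h' g).prod * a' ^ K)
      = 4 * b * (((4 * K) ^ K * a' ^ K) * ((4 * K) ^ K * a' ^ K) *
        ((4 * K) ^ K * (gs.map fun g => 2 * h' g).prod)) := by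
        rw [show 3 * K = K + K + K by ring, pow_add, pow_add]; ring
    _ ≤ 4 * b * (((4 * K + 1) ^ K * a ^ K) * ((4 * K + 1) ^ K * a ^ K) *
        ((4 * K + 1) ^ K * (gs.map fun g => 2 * h g).prod)) := by gcongr
    _ = (4 * K + 1) ^ (3 * K) * (4 * a ^ K * b * (gs.map fun g => 2 * h g).prod * a ^ K) := by
        rw [show 3 * K = K + K + K by ring, pow_add, pow_add]; ring
    _ ≤ 4 * (4 * K) ^ (3 * K) * (4 * a ^ K * b * (gs.map fun g => 2 * h g).prod * a ^ K) :=
        Nat.mul_le_mul_right _ (pow_le K hK)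
    _ = _ := by ring

theorem step {G top : ℕ} {ps : List ℕ} (hp : ps.Pairwise (fun p p' => p + G < p'))
    (ht : ∀ p ∈ ps, p + G < top) {k : ℕ} (hk : k < ps.length) :
    ps.getD k 0 + G < ps.getD (k + 1) top := by
  rw [List.getD_eq_getElem _ _ hk]
  by_cases h : k + 1 < ps.length
  · rw [List.getD_eq_getElem _ _ h]
    exact List.pairwise_iff_getElem.mp hp k (k + 1) hk h (by omega)
  · rw [List.getD_eq_default _ _ (by omega)]
    exact ht _ (List.getElem_mem hk)

theorem tele {G top : ℕ} {ps : List ℕ} (hp : ps.Pairwise (fun p p' => p + G < p'))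
    (ht : ∀ p ∈ ps, p + G < top) (k : ℕ) (hk : k ≤ ps.length) :
    2 ^ ps.getD 0 top * (((gaps ps top).take k).map fun g => 2 * 2 ^ g).prod =
      2 ^ ps.getD k top := by
  rw [gaps, ← List.map_take, List.take_range, min_eq_left hk]
  induction k with
  | zero => simp
  | succ k ih =>
    have h1 := step hp ht (k := k) (by omega)
    have h2 : ps.getD k top = ps.getD k 0 := by
      rw [List.getD_eq_getElem _ _ (by omega : k < ps.length),
        List.getD_eq_getElem _ _ (by omega : k < ps.length)]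
    rw [List.range_succ, List.map_append, List.map_append, List.prod_append, ← mul_assoc,
      ih (by omega), h2]
    simp only [List.map_cons, List.map_nil, List.prod_cons, List.prod_nil, mul_one]
    rw [← pow_succ', ← pow_add]
    congr 1
    omega

end LayA

open LayA in
theorem lay : LAY := by
  intro Δ r n ρ G ps hΔ hne hp hb h8 hG
  have hK : 0 < ps.length := List.length_pos_iff.mpr hne
  obtain ⟨top, htop⟩ : ∃ top, top = n - ρ - ps.length * r := ⟨_, rfl⟩
  have ht : ∀ p ∈ ps, p + G < top := fun p h => by have := (hb p h).2; omega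
  have hgl : (gaps ps top).length = ps.length := by simp [gaps]
  have hq : (mkLay Δ r n ρ ps).2.2.1 = mk ps.length (radR Δ r)
      (2 ^ (ps.headD 0 - (2 + ps.length * r))) (fun g => 2 ^ g + radR Δ r) (gaps ps top) := by
    rw [htop]; rfl
  have he : (mkLay Δ r n ρ ps).2.2.2 = mk ps.length (2 ^ r)
      (2 ^ (ps.headD 0 - (2 + ps.length * r))) (fun g => 2 ^ g) (gaps ps top) := by
    rw [htop]; rfl
  have hKK : (mkLay Δ r n ρ ps).K = ps.length := rfl
  have hR : (mkLay Δ r n ρ ps).R = radR Δ r := rfl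
  have hgt := rad_gt hΔ r
  have hle := rad_le Δ r
  have h0 : ps.headD 0 = ps.getD 0 top := by
    obtain ⟨p, l, rfl⟩ := List.exists_cons_of_ne_nil hne
    rfl
  have h0m : ps.getD 0 top ∈ ps := by
    rw [List.getD_eq_getElem _ _ hK]; exact List.getElem_mem hK
  have hbase : 4 * (2 ^ r) ^ ps.length * 2 ^ (ps.headD 0 - (2 + ps.length * r)) =
      2 ^ ps.getD 0 top := by
    have := (hb _ h0m).1
    rw [h0, show (4 : ℕ) = 2 ^ 2 by norm_num, ← pow_mul, ← pow_add, ← pow_add, mul_comm r]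
    congr 1
    omega
  have hprod : 2 ^ ρ * (mkLay Δ r n ρ ps).2.2.2.prod = 2 ^ n := by
    have h1 := tele hp ht ps.length le_rfl
    rw [← hgl, List.take_length, hgl, List.getD_eq_default _ _ le_rfl] at h1
    have h2 := (hb _ h0m).2
    rw [he, mk_prod, hbase, h1, ← pow_mul, ← pow_add, ← pow_add, mul_comm r]
    congr 1
    omega
  refine ⟨⟨?_, ?_, fun f => ?_, ⟨?_, ?_⟩, fun k hk => ⟨?_, ?_, ?_⟩, fun k hk => ?_, ?_, ?_⟩, hKK,
    ?_, hprod, fun k hk => ?_⟩
  · rw [hq, mk_len _ _ _ _ _ hgl]; rfl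
  · rw [he, mk_len _ _ _ _ _ hgl]; rfl
  · rw [Lay.e, Lay.q, hq, he]
    exact mk_pos _ ⟨by positivity, hgt.le⟩ (by positivity)
      (fun g => ⟨by positivity, Nat.le_add_right _ _⟩) _ f
  · rfl
  · rfl
  · rw [Lay.q, hq, Lay.fo, mk_fo ps.length _ _ _ _ k hk, hR]
  · rw [Lay.q, hq, Lay.fp, hKK, mk_fp _ _ _ _ _ hgl k hk, hR]
  · rw [Lay.e, he, Lay.fp, hKK, mk_fp _ _ _ _ _ hgl k hk, hR]
    exact hgt
  · have hk' : k < (gaps ps top).length := by rw [hgl]; exact hk
    rw [Lay.q, Lay.q, Lay.e, Lay.e, hq, he, Lay.fb, hKK, add_assoc (ps.length + 2), mk_mid, mk_mid,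
      mk_mid, mk_mid, (fl_get _ _ _ k hk').1, (fl_get _ _ _ k hk').1, (fl_get _ _ _ k hk').2,
      (fl_get _ _ _ k hk').2, hR]
    exact ⟨rfl, rfl, le_rfl⟩
  · rw [hR, radR]
    exact Nat.ModEq.add_right 1 (Nat.modEq_zero_iff_dvd.mpr (Dvd.intro_left _ rfl))
  · rw [hR]
    exact lt_of_le_of_lt Nat.one_le_two_pow hgt
  · rw [← hprod, Lay.N, hq, he, mul_left_comm]
    refine Nat.mul_le_mul_left _ (size_le _ hK hgl ?_ fun g hg => ?_)
    · nlinarith
    · obtain ⟨k, hk, rfl⟩ := List.mem_map.mp hg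
      have h1 := step hp ht (List.mem_range.mp hk)
      have h2 : 2 ^ G ≤ 2 ^ (ps.getD (k + 1) top - ps.getD k 0 - 1) :=
        Nat.pow_le_pow_right (by norm_num) (by omega)
      have h3 : Δ + 1 ≤ 2 ^ r := le_trans (Nat.le_mul_of_pos_left _ (by omega)) h8
      have h4 : 4 * ps.length * radR Δ r ≤ 4 * ps.length * (2 * 2 ^ r) :=
        Nat.mul_le_mul_left _ (by omega)
      rw [pow_add] at hG
      nlinarith
  · rw [he, Lay.fb, hKK, mk_take _ _ _ _ _ k (by omega), hbase, tele hp ht k hk.le,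
      List.getD_eq_getElem _ _ hk, List.getD_eq_getElem _ _ hk]

end Vale.Agent.P338Z
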