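import Vale.Agent.P338Z.Gen.Top
import Vale.Agent.P338Z.Gen.LayLem

/-!
P338 power saving: the padding enumerates the real addresses in increasing order.
-/

namespace Vale.Agent.P338Z

namespace Lay

variable (L : Lay)

/-- The layout without padding. -/
def un : Lay := (L.1, L.2.1, L.2.2.2, L.2.2.2)

/-- The address without padding of a role `t` and of the digits `δ`. -/
theorem un_ad (t : ℕ) (δ : ℕ → ℕ) : L.un.ad t δ =
    t * L.2.2.2.prod + ∑ f ∈ Finset.range L.nf, δ f * (L.2.2.2.take f).prod := rfl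

theorem un_dig (u : ℕ) : L.un.dig u = L.dg u := rfl

theorem div_low {a : ℕ} {d : ℕ → ℕ} (hd : ∀ f < a, d f < L.q f) (y : ℕ) :
    (y * L.B a + L.low a d) / L.B a = y := by
  have h1 := L.low_lt hd
  rw [add_comm, Nat.add_mul_div_right _ _ (by omega), Nat.div_eq_of_lt h1, zero_add]

theorem dig_low {a : ℕ} {d : ℕ → ℕ} (hd : ∀ f < a, d f < L.q f) (y : ℕ) {f : ℕ} (hf : f < a) :
    L.dig (y * L.B a + L.low a d) f = d f := by
  induction a generalizing y with
  | zero => omega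
  | succ a ih =>
    have h1 : ∀ f < a, d f < L.q f := fun f hf => hd f (by omega)
    rw [show y * L.B (a + 1) + L.low (a + 1) d = (d a + y * L.q a) * L.B a + L.low a d by
      rw [B_succ, low_succ]; ring]
    rcases (Nat.lt_succ_iff.1 hf).eq_or_lt with rfl | h2
    · rw [dig, L.div_low h1, Nat.add_mul_mod_self_right, Nat.mod_eq_of_lt (hd f hf)]
    · exact ih h1 _ h2

theorem lt_hi {B x y x' y' : ℕ} (hx : x < B) (hy : y < y') : x + y * B < x' + y' * B := by
  have := Nat.mul_le_mul_right B (Nat.succ_le_of_lt hy)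
  rw [Nat.succ_mul] at this
  omega

/-- The order of the values is the lexicographic order of the digits. -/
theorem low_mono (U : Lay) {a : ℕ} {d d' : ℕ → ℕ} (hd : ∀ f < a, d f < L.q f)
    (hd' : ∀ f < a, d' f < U.q f) (h : U.low a d < U.low a d') : L.low a d < L.low a d' := by
  induction a with
  | zero => simp [low_zero] at h
  | succ a ih =>
    have h1 : ∀ f < a, d f < L.q f := fun f hf => hd f (by omega)
    have h2 : ∀ f < a, d' f < U.q f := fun f hf => hd' f (by omega)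
    rw [low_succ, low_succ] at h ⊢
    rcases lt_trichotomy (d a) (d' a) with h3 | h3 | h3
    · exact lt_hi (L.low_lt h1) h3
    · rw [h3] at h ⊢
      exact Nat.add_lt_add_right (ih h1 h2 (Nat.lt_of_add_lt_add_right h)) _
    · exact absurd h (lt_hi (U.low_lt h2) h3).not_gt

variable {L} {Δ : ℕ}

theorem Ok.un_B (h : L.Ok Δ) : L.un.B L.nf = L.2.2.2.prod := by
  show (L.2.2.2.take L.nf).prod = _
  rw [List.take_of_length_le h.le.le]

theorem Ok.real_dg (h : L.Ok Δ) (u : ℕ) : L.Real (L.dg u) := fun f _ => Nat.mod_lt _ (h.pos f).1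

theorem Ok.real_lt (h : L.Ok Δ) {δ : ℕ → ℕ} (hδ : L.Real δ) : ∀ f < L.nf, δ f < L.q f :=
  fun f hf => (hδ f hf).trans_le (h.pos f).2

theorem Ok.low_dg (h : L.Ok Δ) (u : ℕ) : L.un.low L.nf (L.dg u) = u % L.2.2.2.prod := by
  rw [← un_dig, low_dig, h.un_B]

/-- Every number is the value of its digits. -/
theorem Ok.dg_sum (h : L.Ok Δ) (u : ℕ) : u = u / L.2.2.2.prod * L.2.2.2.prod +
    ∑ f ∈ Finset.range L.nf, L.dg u f * (L.2.2.2.take f).prod :=
  (Nat.div_add_mod' u _).symm.trans (congrArg _ (h.low_dg u).symm)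

theorem Ok.un_lt (h : L.Ok Δ) {δ : ℕ → ℕ} (hδ : L.Real δ) : L.un.low L.nf δ < L.2.2.2.prod :=
  h.un_B ▸ L.un.low_lt hδ

theorem Ok.E_pos (h : L.Ok Δ) : 0 < L.2.2.2.prod := Nat.zero_lt_of_lt (h.un_lt (h.real_dg 0))

theorem Ok.un_div (h : L.Ok Δ) (t : ℕ) {δ : ℕ → ℕ} (hδ : L.Real δ) :
    L.un.ad t δ / L.2.2.2.prod = t := by
  have := L.un.div_low (a := L.nf) hδ t
  rwa [h.un_B] at this

theorem Ok.dg_un (h : L.Ok Δ) (t : ℕ) {δ : ℕ → ℕ} (hδ : L.Real δ) {f : ℕ} (hf : f < L.nf) :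
    L.dg (L.un.ad t δ) f = δ f := by
  have := L.un.dig_low (a := L.nf) hδ t hf
  rwa [h.un_B] at this

/-- The padding of an address. -/
theorem Ok.pad_un (h : L.Ok Δ) (t : ℕ) {δ : ℕ → ℕ} (hδ : L.Real δ) :
    L.pad (L.un.ad t δ) = L.ad t δ := by
  rw [pad, h.un_div t hδ]
  exact L.ad_congr t fun f hf => h.dg_un t hδ hf

theorem Ok.un_ad_lt (h : L.Ok Δ) {t T : ℕ} (ht : t < T) {δ : ℕ → ℕ} (hδ : L.Real δ) :
    L.un.ad t δ < T * L.2.2.2.prod := by
  rw [← Nat.div_lt_iff_lt_mul h.E_pos, h.un_div t hδ]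
  exact ht

theorem Ok.pad_lt (h : L.Ok Δ) {T u : ℕ} (hu : u < T * L.2.2.2.prod) : L.pad u < T * L.N :=
  h.ad_lt ((Nat.div_lt_iff_lt_mul h.E_pos).2 hu) (h.real_lt (h.real_dg u))

theorem Ok.pad_mono (h : L.Ok Δ) {u v : ℕ} (huv : u < v) : L.pad u < L.pad v := by
  rw [pad, pad, ad_eq, ad_eq]
  rcases (Nat.div_le_div_right (c := L.2.2.2.prod) huv.le).eq_or_lt with h1 | h1
  · rw [h1]
    refine Nat.add_lt_add_left (L.low_mono L.un (h.real_lt (h.real_dg u)) (h.real_dg v) ?_) _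
    rw [h.low_dg, h.low_dg]
    have h2 := Nat.div_add_mod u L.2.2.2.prod
    have h3 := Nat.div_add_mod v L.2.2.2.prod
    rw [h1] at h2
    omega
  · rw [add_comm, add_comm (_ * _)]
    exact lt_hi (h.B_nf ▸ L.low_lt (h.real_lt (h.real_dg u))) h1

theorem sev_selRe (L : Lay) (N u : ℕ) :
    sev (selRe L N) u = true ↔ u < N ∧ L.Real (L.dig u) := by
  simp [sev, selRe, selLt, cev, pev, Real, dig]

end Lay

theorem pad : PAD := by
  intro Δ T M L h hM
  refine ⟨fun k k' hk _ => h.pad_mono hk, fun k hk => (h.pad_lt hk).trans_le hM, fun u _ => ?_⟩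
  rw [Lay.sev_selRe]
  constructor
  · rintro ⟨h1, h2⟩
    exact ⟨_, h.un_ad_lt ((Nat.div_lt_iff_lt_mul h.N_pos).2 h1) h2,
      (h.pad_un _ h2).trans (h.ad_dig u)⟩
  · rintro ⟨k, hk, rfl⟩
    refine ⟨h.pad_lt hk, fun f hf => ?_⟩
    rw [Lay.pad, h.dig_ad _ (h.real_lt (h.real_dg k)) hf]
    exact h.real_dg k f hf

end Vale.Agent.P338Z
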