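import Vale.Agent.P338Z.Gen.Top
import Vale.Agent.P338Z.Gen.Tree
import Vale.Agent.P338Z.Ps.Ctl

/-!
P338 power saving: the shear and the addition of selected bits in polynomial time.
-/

namespace Vale.Agent.P338Z

open Vale.Agent.Lib.PolyTime

namespace Pt1

variable {α β γ : Type} [Enc α] [Enc β] [Enc γ]

/-- Small numbers. -/
structure Sm (f : α → ℕ) : Prop where
  pt : PT ∅ f
  bd : PBd f

section sm

variable {f g : α → ℕ}

theorem Sm.const (k : ℕ) : Sm fun _ : α => k := ⟨PT.const k, PBd.const k⟩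

theorem Sm.un {u : α → Un} (h : PT ∅ u) : Sm fun a => (u a).v := ⟨h.unVal, PBd.unVal h⟩

theorem Sm.idx : Sm fun q : α × Un => q.2.v := Sm.un PT.snd'

theorem Sm.len {l : α → List β} (h : PT ∅ l) : Sm fun a => (l a).length := ⟨h.length, PBd.length h⟩

theorem Sm.up (h : Sm f) : Sm fun q : α × β => f q.1 :=
  ⟨h.pt.comp PT.fst', h.bd.comp (PT.fst' (A := ∅))⟩

theorem Sm.add (hf : Sm f) (hg : Sm g) : Sm fun a => f a + g a := ⟨hf.pt.add hg.pt, hf.bd.add hg.bd⟩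

theorem Sm.mul (hf : Sm f) (hg : Sm g) : Sm fun a => f a * g a := ⟨hf.pt.mul hg.pt, hf.bd.mul hg.bd⟩

theorem Sm.div (hf : Sm f) (hg : PT ∅ g) : Sm fun a => f a / g a :=
  ⟨hf.pt.div hg, hf.bd.mono fun _ => Nat.div_le_self _ _⟩

theorem Sm.mod (hf : Sm f) (hg : PT ∅ g) : Sm fun a => f a % g a :=
  ⟨hf.pt.mod hg, hf.bd.mono fun _ => Nat.mod_le _ _⟩

theorem Sm.pow (hg : Sm g) (hf : PT ∅ f) : PT ∅ fun a => f a ^ g a := hf.pow hg.pt hg.bd

theorem up {x : α → γ} (h : PT ∅ x) : PT ∅ fun q : α × β => x q.1 := h.comp PT.fst'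

theorem Sm.range (h : Sm f) : PT ∅ fun a => (List.range (f a)).map Un.mk :=
  (PT.map (f := fun a t => Un.mk (min t (f a))) (PT.range h.pt h.bd)
    (PT.mkUn (PT.snd'.min h.up.pt) (h.up.bd.mono fun _ => min_le_right _ _))).congr fun a =>
      List.map_congr_left fun t ht => by rw [min_eq_left (List.mem_range.1 ht).le]

theorem Sm.flatMap (h : Sm f) {F : α → ℕ → List β} (hF : PT ∅ fun q : α × Un => F q.1 q.2.v) :
    PT ∅ fun a => (List.range (f a)).flatMap (F a) :=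
  (PT.flatMap (f := fun a (u : Un) => F a u.v) h.range hF).congr fun _ => List.flatMap_map ..

theorem Sm.map (h : Sm f) {F : α → ℕ → β} (hF : PT ∅ fun q : α × Un => F q.1 q.2.v) :
    PT ∅ fun a => (List.range (f a)).map (F a) :=
  (PT.map (f := fun a (u : Un) => F a u.v) h.range hF).congr fun _ => List.map_map ..

theorem Sm.filter (h : Sm f) {p : α → ℕ → Bool} {F : α → ℕ → List β}
    (hp : PT ∅ fun q : α × Un => p q.1 q.2.v) (hF : PT ∅ fun q : α × Un => F q.1 q.2.v) :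
    PT ∅ fun a => ((List.range (f a)).filter (p a)).flatMap (F a) :=
  (PT.flatMap (f := fun a (u : Un) => F a u.v)
    (PT.filter (f := fun a (u : Un) => p a u.v) h.range hp) hF).congr fun _ => by
      rw [List.filter_map, List.flatMap_map]
      rfl

end sm

theorem pt_map_const {ι : Type} (l : List ι) {f : α → ι → β} (h : ∀ i, PT ∅ fun a => f a i) :
    PT ∅ fun a => l.map (f a) :=
  (pt_flatMap_const l fun i _ => pt_one (h i)).congr fun _ => List.map_eq_flatMap.symm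

section passes

variable {N B Q n κ : α → ℕ}

theorem pt_rotL {e : α → Pl} {k : α → Fl} (hN : PT ∅ N) (hB : PT ∅ B) (hQ : PT ∅ Q) (he : PT ∅ e)
    (hk : PT ∅ k) : PT ∅ fun a => rotL (N a) (B a) (Q a) (e a) (k a) := by
  have h1 : PT ∅ fun q : α × ℕ => selEq (k q.1) (q.2 / 2) := pt_selEq (up hk) PT.snd'.half
  have h2 : PT ∅ fun q : α × ℕ => decide (q.2 % 2 = 0) :=
    (PT.snd'.mod (PT.const 2)).eqNat (PT.const 0)
  have h3 : PT ∅ fun q : α × ℕ => ((1, [fl (B q.1) (Q q.1)]) : ℕ × List Fl) :=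
    (PT.const 1).pair (pt_one (pt_fl (up hB) (up hQ)))
  exact pt_permL hN (PT.const 4) (PBd.const 4)
    (h1.append (pt_one (h2.pair ((h3.cons (up he)).pair ((up hQ).pair ((up he).pair (up hQ)))))))
    (h1.append (pt_one (h2.pair ((pt_one h3).pair ((PT.const 0).pair ((up he).pair (up hQ)))))))

theorem pt_scl (hB : PT ∅ B) (hQ : PT ∅ Q) (p : ℕ) :
    (PT ∅ fun q : α × ℕ => sclS (B q.1) (Q q.1) p q.2) ∧
      PT ∅ fun q : α × ℕ => sclT (B q.1) (Q q.1) p q.2 := by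
  have h1 (c : ℕ) : PT ∅ fun q : α × ℕ => ((c, [fl (B q.1) (Q q.1)]) : ℕ × List Fl) :=
    (PT.const c).pair (pt_one (pt_fl (up hB) (up hQ)))
  have h2 : PT ∅ fun q : α × ℕ => ([(q.2 * Q q.1, [])] : Pl) :=
    pt_one ((PT.snd'.mul (up hQ)).pair (PT.const []))
  have h3 : PT ∅ fun q : α × ℕ => ([((q.2 + 1) * Q q.1, [])] : Pl) :=
    pt_one (((PT.snd'.add (PT.const 1)).mul (up hQ)).pair (PT.const []))
  exact ⟨PT.cons ((PT.const true).pair ((pt_one (h1 p)).pair ((PT.const 0).pair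
      (h2.pair (PT.const 0))))) (pt_one ((PT.const false).pair ((pt_one (h1 p)).pair
        ((PT.const 0).pair (h3.pair (PT.const 0)))))),
    pt_one ((PT.const false).pair (((h1 1).cons h2).pair (PT.const _)))⟩

theorem pt_sclL (hN : PT ∅ N) (hB : PT ∅ B) (hQ : PT ∅ Q) (p : ℕ) :
    PT ∅ fun a => sclL (N a) (B a) (Q a) p :=
  pt_permL hN (PT.const p) (PBd.const p) (pt_scl hB hQ p).1 (pt_scl hB hQ p).2

theorem pt_uscL (hN : PT ∅ N) (hB : PT ∅ B) (hQ : PT ∅ Q) (p : ℕ) :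
    PT ∅ fun a => uscL (N a) (B a) (Q a) p :=
  pt_permL hN (PT.const p) (PBd.const p) (pt_scl hB hQ p).2 (pt_scl hB hQ p).1

theorem pt_zc (hQ : PT ∅ Q) (z : ℤ) : PT ∅ fun a => zc (Q a) z :=
  ((PT.const z).intMod hQ.natCast).toNat

theorem pt_wt (hB : PT ∅ B) (hQ : PT ∅ Q) (hn : Sm n) (hκ : Sm κ) (k : ℕ) :
    PT ∅ fun a => B a * Q a ^ (k * n a + κ a) :=
  hB.mul ((((Sm.const k).mul hn).add hκ).pow hQ)

theorem pt_eD (l : List ℤ) (hB : PT ∅ B) (hQ : PT ∅ Q) (hn : Sm n) (hκ : Sm κ) :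
    PT ∅ fun a => eD l (B a) (Q a) (n a) (κ a) :=
  pt_map_const _ fun k => (pt_zc hQ _).pair (pt_one (pt_fl (pt_wt hB hQ hn hκ k) hQ))

theorem pt_dPre (l l' : List ℤ) (hN : PT ∅ N) (hB : PT ∅ B) (hQ : PT ∅ Q) (hn : Sm n) :
    PT ∅ fun a => dPre l l' (N a) (B a) (Q a) (n a) :=
  have h := pt_wt (up hB) (up hQ) hn.up Sm.idx (pLo l')
  hn.flatMap ((pt_sclL (up hN) h (up hQ) _).append
    ((pt_rotL (up hN) h (up hQ) (pt_eD l' (up hB) (up hQ) hn.up Sm.idx) (PT.const fz)).append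
      ((pt_sclL (up hN) h (up hQ) _).append (pt_uscL (up hN) h (up hQ) _))))

theorem pt_dPost (l l' : List ℤ) (hN : PT ∅ N) (hB : PT ∅ B) (hQ : PT ∅ Q) (hn : Sm n) :
    PT ∅ fun a => dPost l l' (N a) (B a) (Q a) (n a) :=
  have h := pt_wt (up hB) (up hQ) hn.up Sm.idx (pLo l')
  hn.flatMap ((pt_sclL (up hN) h (up hQ) _).append ((pt_uscL (up hN) h (up hQ) _).append
    ((pt_rotL (up hN) h (up hQ) (pt_psm ((up hQ).sub (PT.const 1))
      (pt_eD l' (up hB) (up hQ) hn.up Sm.idx)) (PT.const fz)).append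
        (pt_uscL (up hN) h (up hQ) _))))

theorem pt_hShr (σ : ℤ) (l : List ℤ) (hN : PT ∅ N) (hB : PT ∅ B) (hQ : PT ∅ Q) (hn : Sm n) :
    PT ∅ fun a => hShr σ l (N a) (B a) (Q a) (n a) :=
  hn.flatMap (pt_flatMap_const _ fun k _ => pt_rotL (up hN) (pt_wt (up hB) (up hQ) hn.up Sm.idx k)
    (up hQ) (pt_one (((pt_zc (up hQ) _).mul ((((up hQ).mul (PT.const _)).add (PT.const 1)).div
      (PT.const _))).pair (pt_one (pt_fl (pt_wt (up hB) (up hQ) hn.up Sm.idx _) (up hQ)))))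
    (PT.const fz))

theorem pt_selW (hN : PT ∅ N) (hn : PT ∅ n) : PT ∅ fun a => selW (N a) (n a) :=
  pt_selEq (pt_fl hN (PT.const 0)) hn

end passes

theorem pt_baseU : PT ∅ baseU := by
  have hQ : PT ∅ fun c : UC => c.2.2.2.2.1 := PT.snd'.snd.snd.snd.fst
  have h1 : PT ∅ fun q : UC × Un => 2 ^ q.2.v := Sm.idx.pow (PT.const 2)
  have h2 : PT ∅ fun q : UC × Un => ((q.1.2.2.2.1, q.1.2.2.2.2.1, 2 ^ q.2.v, 2) : Fl) :=
    PT.fst'.snd.snd.snd.fst.pair ((up hQ).pair (h1.pair (PT.const 2)))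
  exact Sm.flatMap ⟨hQ.natSize, hQ.pbd.mono fun c => (esize_nat _).ge⟩
    (pt_rotL PT.fst'.snd.fst PT.fst'.snd.snd.fst (up hQ) (pt_one (((PT.fst'.fst.cond
      ((up hQ).sub (PT.const 1)) (PT.const 1)).mul h1).pair (pt_one h2))) h2)

theorem pt_insU (ν : Nets) (x : QI) : PT ∅ fun c => insU ν c x := by
  have hN : PT ∅ fun c : UC => c.2.1 / 2 ^ ν.r := PT.snd'.fst.div (PT.const _)
  have hH : PT ∅ fun c : UC => c.2.2.1 := PT.snd'.snd.fst
  have hD : PT ∅ fun c : UC => c.2.2.2.1 := PT.snd'.snd.snd.fst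
  have hQ : PT ∅ fun c : UC => c.2.2.2.2.1 := PT.snd'.snd.snd.snd.fst
  have hn : Sm fun c : UC => c.2.2.2.2.2.v / ν.m := (Sm.un PT.snd'.snd.snd.snd.snd).div (PT.const _)
  have hv (d : Bool) := pt_one (pt_pMv (PT.const d) ((PT.const x.2.1).mul hN))
  have hc : PT ∅ fun c => callU ν c x.2.2.2.1 x.2.2.2.2 :=
    (PT.fst'.xor (PT.const _)).pair (hN.pair ((hH.mul (((Sm.const _).mul hn).pow hQ)).pair
      ((hD.mul (((Sm.const _).mul hn).pow hQ)).pair (hQ.pair (PT.mkUn hn.pt hn.bd)))))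
  unfold insU
  split_ifs
  · exact pt_one ((PT.const none).pair (pt_accL (PT.const 2) PT.snd'.fst hN
      (pt_selW hN (PT.const _)) (pt_selW hN (PT.const _))))
  · exact PT.cons ((PT.const none).pair ((hv true).append ((pt_dPre _ _ hN hD hQ hn).append
      (pt_hShr _ _ hN hH hQ hn)))) (PT.cons (hc.some.pair (PT.const [])) (pt_one
        ((PT.const none).pair ((pt_hShr _ _ hN hH hQ hn).append
          ((pt_dPost _ _ hN hD hQ hn).append (hv false))))))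

theorem cnt_le (ν : Nets) (c : UC) (l : List QI) :
    ((l.flatMap (insU ν c)).filter fun y => y.1.isSome).length ≤ l.length := by
  induction l with
  | nil => simp
  | cons x l ih =>
    rw [List.flatMap_cons, List.filter_append, List.length_append, List.length_cons, add_comm]
    refine Nat.add_le_add ih ?_
    unfold insU
    split_ifs <;> simp

theorem pHi_lt {l : List ℤ} (h : 0 < l.length) : pHi l < l.length := by
  rcases List.mem_cons.1 (List.getLastD_mem_cons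
    (l := (List.range l.length).filter fun k => l.getD k 0 != 0) (a := 0)) with k | k
  · exact k.trans_lt h
  · exact List.mem_range.1 (List.mem_filter.1 k).1

theorem pLo_lt {l : List ℤ} (h : 0 < l.length) : pLo l < l.length := by
  unfold pLo
  rcases k : (List.range l.length).filter fun k => l.getD k 0 != 0 with _ | ⟨x, t⟩
  · exact h
  · exact List.mem_range.1 (List.mem_filter.1 (k ▸ List.mem_cons_self)).1

theorem grow {B Q n m p : ℕ} (h : p < m) :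
    B * Q ^ (p * (n / m)) * (Q + 1) ^ (n / m) ≤ B * (Q + 1) ^ n := by
  rw [mul_assoc]
  refine Nat.mul_le_mul_left _ ((Nat.mul_le_mul_right _
    (Nat.pow_le_pow_left (Nat.le_succ Q) _)).trans ?_)
  rw [← pow_add, ← Nat.succ_mul]
  exact Nat.pow_le_pow_right (Nat.succ_pos _)
    ((Nat.mul_le_mul_right _ h).trans (Nat.mul_div_le _ _))

/-- The bound of the contexts. -/
def top (c : UC) : UC := (c.1, c.2.1, c.2.2.1 * (c.2.2.2.2.1 + 1) ^ c.2.2.2.2.2.v,
  c.2.2.2.1 * (c.2.2.2.2.1 + 1) ^ c.2.2.2.2.2.v, c.2.2.2.2.1, c.2.2.2.2.2)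

theorem pt_top : PT ∅ top :=
  have h := (Sm.un PT.snd'.snd.snd.snd.snd).pow (PT.snd'.snd.snd.snd.fst.add (PT.const 1))
  PT.fst'.pair (PT.snd'.fst.pair ((PT.snd'.snd.fst.mul h).pair ((PT.snd'.snd.snd.fst.mul h).pair
    PT.snd'.snd.snd.snd)))

/-- The invariant. -/
def Inv (c x : UC) : Prop := x.2.1 ≤ c.2.1 ∧ (top x).2.2.1 ≤ (top c).2.2.1 ∧
  (top x).2.2.2.1 ≤ (top c).2.2.2.1 ∧ x.2.2.2.2.1 = c.2.2.2.2.1 ∧ x.2.2.2.2.2.v ≤ c.2.2.2.2.2.v

theorem Inv.size {c x : UC} (h : Inv c x) : esize x ≤ esize (top c) := by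
  obtain ⟨e, N, H, D, Q, n⟩ := x
  obtain ⟨h1, h2, h3, h4, h5⟩ := h
  have k1 := esize_nat_mono h1
  have k2 := esize_nat_mono ((Nat.le_mul_of_pos_right H (by positivity)).trans h2)
  have k3 := esize_nat_mono ((Nat.le_mul_of_pos_right D (by positivity)).trans h3)
  have k4 := esize_nat_mono h4.le
  simp only [top, esize_pair, esize_bool, esize_un] at *
  omega

theorem Inv.call {ν : Nets} (hν : ν.Ok) {c x x' : UC} (h : Inv c x) {y : Option UC × List Ps}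
    (hy : y ∈ ν.qp.flatMap (insU ν x)) (hx : y.1 = some x') : Inv c x' := by
  obtain ⟨i, h1, h2⟩ := List.mem_flatMap.1 hy
  unfold insU at h2
  split_ifs at h2 with k
  · rw [List.mem_singleton.1 h2] at hx
    cases hx
  obtain ⟨l1, l2, -⟩ := hν.q.lab i h1 (by simpa using k)
  obtain rfl : callU ν x i.2.2.2.1 i.2.2.2.2 = x' := by
    simp only [List.mem_cons, List.not_mem_nil, or_false] at h2
    rcases h2 with rfl | rfl | rfl <;> simp_all
  exact ⟨(Nat.div_le_self _ _).trans h.1,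
    (grow (l1 ▸ pHi_lt (l1 ▸ hν.mpos))).trans h.2.1,
    (grow (l2 ▸ pLo_lt (l2 ▸ hν.mpos))).trans h.2.2.1, h.2.2.2.1,
    (Nat.div_le_self _ _).trans h.2.2.2.2⟩

theorem two_le {ν : Nets} (h : ν.Ok) : 2 ≤ ν.m :=
  le_trans (by norm_num) (Nat.le_of_dvd h.mpos h.m8)

section lay

variable {L : α → Lay} {f : α → ℕ} {tg : α → List (ℕ × Option ℕ)}

theorem pt_B (hL : PT ∅ L) (hf : PT ∅ f) : PT ∅ fun a => (L a).B (f a) :=
  (hL.snd.snd.fst.take hf).prod

theorem pt_fb (hL : PT ∅ L) (hf : PT ∅ f) : PT ∅ fun a => (L a).fb (f a) :=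
  (hL.fst.unVal.add (PT.const 2)).add hf.double

theorem pt_fp (hL : PT ∅ L) (hf : PT ∅ f) : PT ∅ fun a => (L a).fp (f a) :=
  (((PT.const 3).mul hL.fst.unVal).add (PT.const 2)).add hf

theorem pt_cf {x : α → Option ℕ} (hL : PT ∅ L) (hx : PT ∅ x) : PT ∅ fun a => (L a).cf (x a) :=
  (PT.optCase hx PT.nil (g := fun a c => [fl ((L a).B ((L a).fb c)) 2])
    (pt_one (pt_fl (pt_B (up hL) (pt_fb (up hL) PT.snd')) (PT.const 2)))).congr fun a => by
      rcases x a <;> rfl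

theorem pt_tgt (ht : PT ∅ tg) : PT ∅ fun q : α × Un => tgt (tg q.1) q.2.v :=
  (up ht).getD Sm.idx.pt (PT.const _)

theorem pt_tB (hL : PT ∅ L) (ht : PT ∅ tg) :
    PT ∅ fun q : α × Un => (L q.1).B ((L q.1).fb (tgt (tg q.1) q.2.v).1) :=
  pt_B (up hL) (pt_fb (up hL) (pt_tgt ht).fst)

theorem pt_xe1 (hL : PT ∅ L) (ht : PT ∅ tg) : PT ∅ fun a => xe1 (L a) (tg a) :=
  (Sm.len ht).map ((pt_tB hL ht).double.pair ((pt_cf (up hL) (pt_tgt ht).snd).append
    (pt_one (pt_fl (pt_B (up hL) (pt_fp (up hL) Sm.idx.pt)) (up hL).snd.fst))))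

theorem pt_xe3 (hL : PT ∅ L) (hf : PT ∅ f) (ht : PT ∅ tg) :
    PT ∅ fun a => xe3 (L a) (f a) (tg a) :=
  ((Sm.len ht).map ((pt_tB hL ht).pair (pt_cf (up hL) (pt_tgt ht).snd))).append
    (pt_psm (hf.sub (PT.const 1)) (pt_xe1 hL ht))

theorem pt_xg2 {c : α → ℕ} (hL : PT ∅ L) (hf : PT ∅ f) (ht : PT ∅ tg) (hc : PT ∅ c) :
    PT ∅ fun a => xg2 (L a) (f a) (tg a) (c a) :=
  ((Sm.len ht).filter (p := fun a y => decide (y / f a = c a))
    (F := fun a y => [((L a).R ^ (y % f a), [fl ((L a).B ((L a).fb (tgt (tg a) y).1)) 2])])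
    ((Sm.idx.pt.div (up hf)).eqNat (up hc)) (pt_one (((Sm.idx.mod (up hf)).pow
      (up hL).snd.fst).pair (pt_one (pt_fl (pt_tB hL ht) (PT.const 2)))))).congr fun _ =>
    List.map_eq_flatMap.symm

theorem pt_xg4 {c : α → ℕ} (hL : PT ∅ L) (hf : Sm f) (ht : PT ∅ tg) (hc : PT ∅ c) :
    PT ∅ fun a => xg4 (L a) (f a) (tg a) (c a) :=
  have h1 := (Sm.idx.mod (up hf.pt)).pow (up hL).snd.fst
  have h2 := ((hf.up.pow (up hL).snd.fst).sub (PT.const 1)).mul h1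
  have h3 := pt_fl (pt_tB hL ht) (PT.const 2)
  have h4 := pt_cf (up hL) (pt_tgt ht).snd
  (Sm.len ht).filter ((Sm.idx.pt.div (up hf.pt)).eqNat (up hc))
    ((h2.pair (pt_one h3)).cons ((h2.pair h4).cons (pt_one (h1.double.pair (h3.cons h4)))))

theorem pt_wadd {ν : Nets} (hu : UPT ν) {i Q N : α → ℕ} {g : α → ℕ → Pl} (hL : PT ∅ L)
    (hi : PT ∅ i) (hn : Sm fun a => ν.m ^ i a) (hQ : PT ∅ Q) (hN : PT ∅ N)
    (hg : PT ∅ fun q : α × Un => g q.1 q.2.v) :
    PT ∅ fun a => wadd ν (L a) (i a) (ν.m ^ i a) (Q a) (N a) (g a) :=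
  have h1 := pt_B hL (PT.const (Lay.fo 0))
  have h2 := (up h1).mul (Sm.idx.pow (up hQ))
  have h3 (e : Bool) := hu hi ((PT.const e).pair (hN.pair ((pt_B hL (pt_fp hL (PT.const 0))).pair
    (h1.pair (hQ.pair (PT.mkUn hn.pt hn.bd)))))) hn.bd
  (hn.flatMap (pt_rotL (up hN) h2 (up hQ) hg (PT.const fz))).append ((h3 false).append
    ((hn.flatMap (pt_rotL (up hN) h2 (up hQ) (pt_psm ((up hQ).sub (PT.const 1)) hg)
      (PT.const fz))).append (h3 true)))

end lay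

end Pt1

open Pt1

theorem upt_of (hT : TREE) {ν : Nets} (h : ν.Ok) : UPT ν := by
  intro α _ k c hk hc hb
  refine hT (bd := fun a => esize (top (c a))) ν.S (fun a => Inv (c a)) pt_baseU
    (pt_flatMap_const _ fun x _ => pt_insU ν x) hk hc
    (hb.mono fun a => (Nat.lt_pow_self (two_le h)).le) ((hb.pow 80).mono fun a => ?_)
    (pt_top.comp hc).pbd (fun x => (cnt_le ν x _).trans h.lq.le)
    (fun a => ⟨le_rfl, le_rfl, le_rfl, rfl, le_rfl⟩)
    fun a x hx => ⟨hx.size, fun y hy x' k => hx.call h hy k⟩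
  rw [h.S, ← pow_mul, ← pow_mul, mul_comm]
  exact Nat.pow_le_pow_left (two_le h) _

theorem xpt_of {ν : Nets} (hu : UPT ν) (h : ν.Ok) : XPT ν := by
  intro α _ L n N km tg hL hn bn hN hk ht
  have hl : Sm fun a => lg ν.m (n a) := ⟨pt_lg _ hn bn, pbd_lg _ bn⟩
  have hp {i : α → ℕ} (hi : Sm i) (k : ∀ a, i a ≤ lg ν.m (n a)) : Sm fun a => ν.m ^ i a :=
    ⟨hi.pow (PT.const _), (bn.add (PBd.const 1)).mono fun a =>
      (Nat.pow_le_pow_right h.mpos (k a)).trans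
        (lg_eq_log (two_le h) _ ▸ Nat.pow_log_le_add_one _ _)⟩
  have h1 := (hl.add (Sm.const 1)).div (PT.const 2)
  have h2 := hp h1 fun a => by omega
  have h3 := hp (hl.div (PT.const 2)) fun a => Nat.div_le_self _ _
  have h4 := pt_B hL ((pt_fb hL hk).add (PT.const 2))
  have h5 := h3.pow hL.snd.fst
  exact (pt_rotL hN (PT.const 1) h4 (pt_xe1 hL ht) (PT.const fz)).append
    ((pt_wadd hu hL h1.pt h2 h5 hN (pt_xg2 (up hL) h3.up.pt (up ht) Sm.idx.pt)).append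
      ((pt_rotL hN (PT.const 1) h4 (pt_xe3 hL h4 ht) (PT.const fz)).append
        (pt_wadd hu hL h1.pt h2 h5 hN (pt_xg4 (up hL) h3.up (up ht) Sm.idx.pt))))

end Vale.Agent.P338Z
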