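import Vale.Agent.P338Z.Gen.Top
import Vale.Agent.P338Z.Gen.Tree
import Vale.Agent.P338Z.Ps.Ctl
import Vale.Agent.P338.R3.H313.MicroPT

/-!
P338 power saving: the complex network and the fast step in polynomial time.
-/

namespace Vale.Agent.P338Z

open Vale.Agent.Lib.PolyTime
open Vale.Agent.P338.R3.H313 (PV KP pt_d pbd_d pt_s pt_y pt_a pt_KP pbd_KP)

set_option linter.all false

namespace Pt2

variable {α : Type} [Enc α]

theorem pbd_pow {m : ℕ} (hm : 2 ≤ m) (G : ℕ) {k : α → ℕ} (hb : PBd fun a => m ^ k a) :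
    PBd fun a => G ^ k a :=
  (hb.pow G).mono fun a => by
    rw [← pow_mul, mul_comm, pow_mul]
    exact Nat.pow_le_pow_left (Nat.lt_two_pow_self.le.trans (Nat.pow_le_pow_left hm G)) _

theorem pbd_exp {m : ℕ} (hm : 2 ≤ m) {k : α → ℕ} (hb : PBd fun a => m ^ k a) : PBd k :=
  hb.mono fun _ => (Nat.lt_pow_self hm).le

theorem pbd_pow_lg {m : ℕ} (hm : 2 ≤ m) {n : α → ℕ} (hb : PBd n) :
    PBd fun a => m ^ lg m (n a) :=
  (hb.add (PBd.const 1)).mono fun a => by
    rw [lg_eq_log hm]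
    exact Nat.pow_log_le_add_one _ _

theorem gam_le (ν : Nets) (i : ℕ) : gam ν i ≤ (ν.c1 + ν.c0 + 1) ^ i := by
  induction i with
  | zero => exact le_rfl
  | succ i ih =>
    have h1 : 1 ≤ (ν.c1 + ν.c0 + 1) ^ i := Nat.one_le_pow _ _ (Nat.succ_pos _)
    rw [gam, pow_succ]
    nlinarith [Nat.mul_le_mul_left ν.c1 ih, Nat.mul_le_mul_left ν.c0 h1]

theorem pbd_gam (ν : Nets) {m : ℕ} (hm : 2 ≤ m) {k : α → ℕ} (hb : PBd fun a => m ^ k a) :
    PBd fun a => gam ν (k a) := (pbd_pow hm _ hb).mono fun _ => gam_le ν _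

theorem pt_gam (ν : Nets) {m : ℕ} (hm : 2 ≤ m) {k : α → ℕ} (hk : PT ∅ k)
    (hb : PBd fun a => m ^ k a) : PT ∅ fun a => gam ν (k a) := by
  have key : ∀ j : ℕ, Nat.rec (motive := fun _ => ℕ) 1 (fun _ s => ν.c1 * s + ν.c0) j =
      gam ν j := fun j => by
    induction j with
    | zero => rfl
    | succ j ih => rw [gam, ← ih]
  refine (PT.natRec (init := fun _ => 1) (step := fun _ _ s => ν.c1 * s + ν.c0) hk (pbd_exp hm hb)
    (PT.const 1) (((PT.const _).mul PT.snd'.snd).add (PT.const _))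
    (pbd_pow hm (ν.c1 + ν.c0 + 1) hb) fun a j hj => ?_).congr fun a => key _
  rw [key]
  exact (esize_nat_le_self _).trans ((gam_le ν j).trans
    (Nat.pow_le_pow_right (Nat.succ_pos _) hj))

theorem pt_two {k : α → ℕ} (hk : PT ∅ k) (hb : PBd k) : PT ∅ fun a => 2 ^ k a :=
  (PT.const 2).pow hk hb

section lay

variable {L : α → Lay} {f N B v sh : α → ℕ}

theorem pt_K (hL : PT ∅ L) : PT ∅ fun a => (L a).K := hL.fst.unVal

theorem pbd_K (hL : PT ∅ L) : PBd fun a => (L a).K := PBd.unVal hL.fst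

theorem pt_B (hL : PT ∅ L) (hf : PT ∅ f) : PT ∅ fun a => (L a).B (f a) :=
  (hL.snd.snd.fst.take hf).prod

theorem pt_fb (hL : PT ∅ L) (hf : PT ∅ f) : PT ∅ fun a => (L a).fb (f a) :=
  ((pt_K hL).add (PT.const 2)).add ((PT.const 2).mul hf)

theorem pt_selB (hB : PT ∅ B) (hv : PT ∅ v) : PT ∅ fun a => selB (B a) (v a) :=
  pt_selEq (pt_fl hB (PT.const 2)) hv

theorem pt_selW (hN : PT ∅ N) (hv : PT ∅ v) : PT ∅ fun a => selW (N a) (v a) :=
  pt_selEq (pt_fl hN (PT.const 0)) hv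

theorem pt_sqL {n : α → Bool} (hn : PT ∅ n) (hs : PT ∅ sh) (hN : PT ∅ N) (hB : PT ∅ B) :
    PT ∅ fun a => sqL (n a) (sh a) (N a) (B a) := by
  have h0 := pt_selB hB (PT.const 0)
  have h1 := pt_selB hB (PT.const 1)
  have e : ∀ x y : List (ℤ × ℤ), PT ∅ fun a => bif n a then x else y := fun x y =>
    hn.cond (PT.const x) (PT.const y)
  refine PT.append (pt_one (pt_pDia hs hN h1 PT.nil
    ((e [(1, 0), (0, 1)] [(1, 0), (0, -1)]).congr fun a => by cases n a <;> rfl))) ?_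
  refine PT.append (pt_accL (PT.const 0) hN hN.half h1 h0) ?_
  refine PT.append (pt_one (pt_pDia hs hN h1 PT.nil (PT.const _))) ?_
  refine PT.append (pt_accL (PT.const 0) hN hN.half h0 h1) ?_
  exact pt_one (pt_pDia hs hN h1 PT.nil
    ((e [(1, -1), (1, 1)] [(1, 1), (1, -1)]).congr fun a => by cases n a <;> rfl))

theorem pt_gateL {N' : α → ℕ} (i j : ℕ) (n h : Bool) (hs : PT ∅ sh) (hN : PT ∅ N)
    (hN' : PT ∅ N') : PT ∅ fun a => gateL (sh a) (N a) (N' a) i j n h := by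
  have hi := pt_selW hN' (PT.const i)
  have hj := pt_selW hN' (PT.const j)
  have ha := pt_accL (PT.const (bif n then 1 else 0)) hN hN' hj hi
  cases h
  · exact ha
  · exact (pt_one (pt_pDia hs hN hj PT.nil (PT.const _))).append
      (ha.append (pt_one (pt_pDia hs hN hj PT.nil (PT.const _))))

theorem pt_tgC (u : List Bool) {k n : α → ℕ} (hk : PT ∅ k) (hn : PT ∅ n) (hb : PBd n) :
    PT ∅ fun a => tgC u (k a) (n a) := by
  have e : ∀ b : ℕ, PT ∅ fun q : α × ℕ => k q.1 + b * n q.1 + q.2 := fun b =>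
    ((hk.comp PT.fst').add ((PT.const b).mul (hn.comp PT.fst'))).add PT.snd'
  exact pt_flatMap_const _ fun b _ => PT.map (f := fun a c =>
    (k a + b * n a + c, some (k a + uHi u * n a + c))) (PT.range hn hb) ((e b).pair (e _).some)

theorem pt_tgF (u : List Bool) {k n : α → ℕ} (hk : PT ∅ k) (hn : PT ∅ n) (hb : PBd n) :
    PT ∅ fun a => tgF u (k a) (n a) :=
  pt_flatMap_const _ fun b _ => PT.map (f := fun a c =>
    (k a + b * n a + c, (none : Option ℕ))) (PT.range hn hb)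
    ((((hk.comp PT.fst').add ((PT.const b).mul (hn.comp PT.fst'))).add PT.snd').pair (PT.const _))

end lay

theorem m_two {ν : Nets} (h : ν.Ok) : 2 ≤ ν.m :=
  le_trans (by norm_num) (Nat.le_of_dvd h.mpos h.m8)

theorem pt_insC {ν : Nets} (hx : XPT ν) (h : ν.Ok) (x : CI) : PT ∅ fun c : CC => insC ν c x := by
  have hc : PT ∅ fun c : CC => c := PT.id
  have hN := hc.snd.fst
  have hN' := hN.div (PT.const (2 ^ ν.r))
  have hk := hc.snd.snd.fst
  have hn := hc.snd.snd.snd.fst.unVal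
  have bn := PBd.unVal hc.snd.snd.snd.fst
  have hn' := hn.div (PT.const ν.m)
  have bn' : PBd fun c : CC => c.2.2.2.1.v / ν.m := bn.mono fun _ => Nat.div_le_self _ _
  have hs := hc.snd.snd.snd.snd.fst
  have hL := hc.snd.snd.snd.snd.snd
  have hw := (PT.const x.2.1).mul hN'
  have hk' := hk.add ((PT.const (uHi x.2.2.2.2.2)).mul hn')
  have h0 : PT ∅ fun _ : CC => (none : Option CC) := PT.const _
  unfold insC
  by_cases h1 : x.1 = 0
  · simp only [if_pos h1]
    exact pt_one (h0.pair (pt_gateL _ _ _ _ hs hN hN'))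
  by_cases h2 : x.1 = 1
  · simp only [if_neg h1, if_pos h2]
    have hX := hx hL hn bn hN' (hk'.sub (PT.const 1)) (pt_tgC x.2.2.2.2.2 hk hn' bn')
    have bl := pbd_pow_lg (m_two h) bn'
    have hg : PT ∅ fun c : CC => (2 : ℤ) ^ gam ν (lg ν.m (c.2.2.2.1.v / ν.m)) :=
      PT.intPow (PT.const 2) (pt_gam ν (m_two h) (pt_lg _ hn' bn') bl) (pbd_gam ν (m_two h) bl)
    refine PT.cons (h0.pair ((pt_one (pt_pMv (PT.const true) hw)).append hX)) (PT.cons ?_ ?_)
    · exact ((hc.fst.xor (PT.const _)).pair (hN'.pair (hk'.pair ((hn'.mkUn bn').pair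
        (hs.pair hL))))).some.pair PT.nil
    · exact pt_one (h0.pair (hX.append ((pt_one (pt_pMv (PT.const false) hw)).append
        (pt_one (pt_pDia hs hN (pt_selW hN' (PT.const _)) PT.nil
          (PT.cons (hg.pair (PT.const 0)) (PT.const _)))))))
  · simp only [if_neg h1, if_neg h2]
    exact pt_one (h0.pair (pt_subL hw (hx hL hn bn hN' ((hk.add hn).sub (PT.const 1))
      (pt_tgF x.2.2.2.2.2 hk hn' bn'))))

theorem cnt_insC (ν : Nets) (c : CC) (l : List CI) :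
    ((l.flatMap (insC ν c)).filter fun y => y.1.isSome).length ≤ l.length := by
  induction l with
  | nil => exact le_rfl
  | cons x l ih =>
    have : ((insC ν c x).filter fun y => y.1.isSome).length ≤ 1 := by
      unfold insC
      split_ifs <;> simp
    rw [List.flatMap_cons, List.filter_append, List.length_append, List.length_cons]
    omega

theorem uHi_lt {u : List Bool} (h : 0 < u.length) : uHi u < u.length := by
  unfold uHi
  rcases List.mem_cons.1 (List.getLastD_mem_cons (l := (List.range u.length).filter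
    fun k => u.getD k false) (a := 0)) with e | e
  · rw [e]; exact h
  · exact List.mem_range.1 (List.mem_filter.1 e).1

/-- the invariant of the recursion -/
def Inv (c x : CC) : Prop := x.2.1 ≤ c.2.1 ∧ x.2.2.2.1.v ≤ c.2.2.2.1.v ∧
  x.2.2.1 + x.2.2.2.1.v ≤ c.2.2.1 + c.2.2.2.1.v ∧ x.2.2.2.2 = c.2.2.2.2

theorem inv_size {c x : CC} (h : Inv c x) : esize x ≤ 3 * esize c := by
  obtain ⟨b, N, k, n, r⟩ := c
  obtain ⟨b', N', k', n', r'⟩ := x
  obtain ⟨h1, h2, h3, rfl⟩ := h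
  have e1 := esize_nat_mono h1
  have e2 := (esize_nat_mono ((Nat.le_add_right _ _).trans h3)).trans (esize_nat_add_le _ _)
  have e3 := esize_nat_le_self n.v
  simp only [esize_pair, esize_bool, esize_un] at *
  omega

theorem inv_step {ν : Nets} (h : ν.Ok) {c x : CC} (hi : Inv c x) :
    ∀ y ∈ ν.cp.flatMap (insC ν x), ∀ x', y.1 = some x' → Inv c x' := by
  intro y hy x' e
  obtain ⟨z, hz, hy⟩ := List.mem_flatMap.1 hy
  unfold insC at hy
  split_ifs at hy with h1 h2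
  · rw [List.mem_singleton.1 hy] at e
    cases e
  · simp only [List.mem_cons, List.not_mem_nil, or_false] at hy
    rcases hy with rfl | rfl | rfl
    · cases e
    · obtain rfl := Option.some.inj e
      have hl := (h.c.lab z hz h1).1
      have hu := uHi_lt (u := z.2.2.2.2.2) (hl ▸ h.mpos)
      rw [hl] at hu
      have h3 := Nat.mul_le_mul_right (x.2.2.2.1.v / ν.m) (Nat.succ_le_of_lt hu)
      have h4 := Nat.mul_div_le x.2.2.2.1.v ν.m
      refine ⟨(Nat.div_le_self _ _).trans hi.1, (Nat.div_le_self _ _).trans hi.2.1,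
        le_trans ?_ hi.2.2.1, hi.2.2.2⟩
      rw [Nat.succ_mul] at h3
      show _ + _ * (x.2.2.2.1.v / ν.m) + x.2.2.2.1.v / ν.m ≤ _
      omega
    · cases e
  · rw [List.mem_singleton.1 hy] at e
    cases e

end Pt2

open Pt2

theorem cpt_of (ht : TREE) {ν : Nets} (hx : XPT ν) (h : ν.Ok) : CPT ν := by
  intro α _ k c hk hc hb
  have hi : PT ∅ fun c : CC => c := PT.id
  have hL := hi.snd.snd.snd.snd.snd
  refine ht (bd := fun a => 3 * esize (c a)) ν.cp.length (fun a x => Inv (c a) x)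
    (pt_sqL hi.fst hi.snd.snd.snd.snd.fst hi.snd.fst (pt_B hL (pt_fb hL hi.snd.snd.fst)))
    (pt_flatMap_const _ fun x _ => pt_insC hx h x) hk hc (pbd_exp (m_two h) hb)
    (pbd_pow (m_two h) _ hb) ((PBd.const 3).mul hc.pbd) (fun x => cnt_insC ν x _)
    (fun a => ⟨le_rfl, le_rfl, le_rfl, rfl⟩) fun a x hi => ⟨inv_size hi, inv_step h hi⟩

namespace Pt2

variable {α : Type} [Enc α] {L : α → Lay} {sh n ρ j N r b : α → ℕ}

theorem pt_selLt (hN : PT ∅ N) : PT ∅ fun a => selLt (N a) :=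
  pt_one ((PT.const false).pair ((PT.const _).pair ((PT.const 0).pair
    ((pt_one (hN.pair PT.nil)).pair (PT.const 0)))))

theorem pt_selRe (hL : PT ∅ L) (hN : PT ∅ N) : PT ∅ fun a => selRe (L a) (N a) := by
  have h1 := hL.comp (PT.fst' (β := ℕ))
  refine (pt_selLt hN).append (PT.map (f := fun a f => ((false, [(1, [fl ((L a).B f) ((L a).q f)])],
    0, [((L a).e f, [])], 0) : Cm)) (PT.range (((PT.const 4).mul (pt_K hL)).add (PT.const 2))
      (((PBd.const 4).mul (pbd_K hL)).add (PBd.const 2))) ?_)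
  exact (PT.const false).pair ((pt_one ((PT.const 1).pair (pt_one (pt_fl (pt_B h1 PT.snd')
    (h1.snd.snd.fst.getD PT.snd' (PT.const 1)))))).pair ((PT.const 0).pair
    ((pt_one ((h1.snd.snd.snd.getD PT.snd' (PT.const 1)).pair PT.nil)).pair (PT.const 0))))

theorem pt_popE (hL : PT ∅ L) : PT ∅ fun a => popE (L a) := by
  have h1 := hL.comp (PT.fst' (β := ℕ))
  exact PT.map (f := fun a k => ((1 : ℕ), [fl ((L a).B ((L a).fb k)) 2]))
    (PT.range (pt_K hL) (pbd_K hL))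
    ((PT.const 1).pair (pt_one (pt_fl (pt_B h1 (pt_fb h1 PT.snd')) (PT.const 2))))

theorem pt_tabI {c : α → ℤ} (hc : PT ∅ c) : PT ∅ fun a => tabI (c a) :=
  PT.cons (PT.const _) (PT.cons (hc.pair (PT.const 0)) (PT.cons ((PT.const 0).pair hc)
    (PT.cons (hc.intNeg.pair (PT.const 0)) (pt_one ((PT.const 0).pair hc.intNeg)))))

theorem pt_hgrp {ν : Nets} (hc : CPT ν) (h : ν.Ok) (hs : PT ∅ sh) (hn : PT ∅ n) (bn : PBd n)
    (hρ : PT ∅ ρ) (bρ : PBd ρ) (hj : PT ∅ j) (bj : PBd fun a => ν.m ^ j a) (hL : PT ∅ L) :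
    PT ∅ fun a => hgrp ν (sh a) (n a) (ρ a) (j a) (L a) := by
  have h2 := pt_two hn bn
  have h4 := (PT.const 4).mul h2
  have hN : PT ∅ fun a => 2 ^ ρ a * (L a).N := (pt_two hρ bρ).mul hL.snd.snd.fst.prod
  have hm : PT ∅ fun a => hmid ν (sh a) (ρ a) (j a) (L a) :=
    (pt_one (pt_pDia hs hN PT.nil (pt_popE hL) (PT.const _))).append
      ((hc hj ((PT.const false).pair (hN.pair ((PT.const 0).pair
        (hL.fst.pair (hs.pair hL))))) bj).append
      (pt_one (pt_pDia hs hN PT.nil (pt_popE hL) (pt_tabI (PT.intPow (PT.const 2) (pt_K hL).half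
        ((pbd_K hL).mono fun _ => Nat.div_le_self _ _))))))
  exact (pt_relL h4 h2 (pt_selLt h2) (pt_selRe hL hN)).append ((pt_subL (PT.const 0) hm).append
    ((pt_relL h4 h2 (pt_selRe hL hN) (pt_selLt h2)).append (pt_subL (PT.const 0)
      (pt_one (pt_pDia (hs.sub (pt_gam ν (m_two h) hj bj)) h2 PT.nil PT.nil PT.nil)))))

theorem getD_le {l : List ℕ} {B d : ℕ} (h : ∀ x ∈ l, x ≤ B) (k : ℕ) : l.getD k d ≤ B + d := by
  rw [List.getD_eq_getElem?_getD]
  rcases e : l[k]? with _ | x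
  · exact Nat.le_add_left _ _
  · exact (h x (List.mem_of_getElem? e)).trans (Nat.le_add_right _ _)

theorem pt_mkLay (Δ : ℕ) {ps : α → List ℕ} (hr : PT ∅ r) (br : PBd r) (hn : PT ∅ n) (bn : PBd n)
    (hρ : PT ∅ ρ) (hp : PT ∅ ps) (bb : PBd b) (hb : PT ∅ b) (h : ∀ a, ∀ x ∈ ps a, x ≤ b a) :
    PT ∅ fun a => mkLay Δ (r a) (n a) (ρ a) (ps a) := by
  have hl := hp.length
  have bl := PBd.length hp
  have h2 := pt_two hr br
  have hR : PT ∅ fun a => radR Δ (r a) :=
    (((h2.div (PT.const Δ)).add (PT.const 1)).mul (PT.const Δ)).add (PT.const 1)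
  have ht := (hn.sub hρ).sub (hl.mul hr)
  have hg : PT ∅ fun a => gaps (ps a) (n a - ρ a - (ps a).length * r a) :=
    PT.map (f := fun a k => (ps a).getD (k + 1) (n a - ρ a - (ps a).length * r a) -
      (ps a).getD k 0 - 1) (PT.range hl bl)
      ((((hp.comp PT.fst').getD (PT.snd'.add (PT.const 1)) (ht.comp PT.fst')).sub
        ((hp.comp PT.fst').getD PT.snd' (PT.const 0))).sub (PT.const 1))
  have bg : ∀ a, ∀ g ∈ gaps (ps a) (n a - ρ a - (ps a).length * r a), g ≤ b a + n a := by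
    intro a g hg
    obtain ⟨k, -, rfl⟩ := List.mem_map.1 hg
    have := getD_le (d := n a - ρ a - (ps a).length * r a) (h a) (k + 1)
    omega
  have hq : PT ∅ fun q : α × ℕ => 2 ^ min q.2 (b q.1 + n q.1) :=
    pt_two (PT.snd'.min ((hb.add hn).comp PT.fst'))
      (((bb.add bn).comp (PT.fst' (A := ∅))).mono fun _ => min_le_right _ _)
  have hf : ∀ {c : α → ℕ}, PT ∅ c → PT ∅ fun a =>
      (gaps (ps a) (n a - ρ a - (ps a).length * r a)).flatMap fun g => [2, 2 ^ g + c a] :=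
    fun {c} hc => (PT.flatMap (f := fun a g => [2, 2 ^ min g (b a + n a) + c a]) hg
      (PT.cons (PT.const 2) (pt_one (hq.add (hc.comp PT.fst'))))).congr fun a =>
        List.flatMap_congr fun g k => by rw [min_eq_left (bg a g k)]
  have hh : PT ∅ fun a => [2 ^ ((ps a).headD 0 - (2 + (ps a).length * r a))] :=
    pt_one (pt_two ((hp.headD (PT.const 0)).sub ((PT.const 2).add (hl.mul hr)))
      (bb.mono fun a => (Nat.sub_le _ _).trans (by
        rcases e : ps a with _ | ⟨x, l⟩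
        · exact Nat.zero_le _
        · exact h a x (e ▸ List.mem_cons_self))))
  have r1 := PT.replicate hl bl hR
  have r2 := PT.replicate hl bl h2
  exact (hl.mkUn bl).pair (hR.pair (((PT.const [4]).append (r1.append (hh.append
    ((hf hR).append r1)))).pair ((PT.const [4]).append (r2.append (hh.append
    ((hf (PT.const 0)).append r2))))))

theorem pt_naiL {p : α → ℕ} (hs : PT ∅ sh) (hN : PT ∅ N) (hp : PT ∅ p) (bp : PBd p) :
    PT ∅ fun a => naiL (sh a) (N a) (p a) := by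
  have h0 := pt_selB (pt_two hp bp) (PT.const 0)
  have h1 := pt_selB (pt_two hp bp) (PT.const 1)
  exact (pt_accL (PT.const 0) hN hN.half h1 h0).append
    ((pt_one (pt_pDia hs hN h1 PT.nil (PT.const _))).append (pt_accL (PT.const 0) hN hN.half h0 h1))

section par

variable {ν : Nets} {p : α → PV} {t i : α → ℕ} {J : α → List ℕ}

theorem pbd_n (hp : PT ∅ p) : PBd fun a => KP (p a) + 2 := (pbd_KP hp).add (PBd.const 2)

theorem pt_n (hp : PT ∅ p) : PT ∅ fun a => KP (p a) + 2 := (pt_KP hp).add (PT.const 2)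

theorem pt_bpos (hp : PT ∅ p) (ht : PT ∅ t) (hi : PT ∅ i) :
    PT ∅ fun a => bpos (p a) (t a) (i a) :=
  ((((pt_a hp).mul hi).add ht).add (PT.const 2)).min (pt_n hp)

theorem pt_dep (hp : PT ∅ p) : PT ∅ fun a => dep ν (p a).d :=
  (pt_lg _ (pt_d hp) (pbd_d hp)).half

theorem pbd_dep (hp : PT ∅ p) : PBd fun a => dep ν (p a).d :=
  (pbd_lg ν.S (pbd_d hp)).mono fun _ => Nat.div_le_self _ _

theorem pbd_mdep (h : ν.Ok) (hp : PT ∅ p) : PBd fun a => ν.m ^ dep ν (p a).d :=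
  (pbd_pow (by rw [h.S]; norm_num) ν.m (pbd_pow_lg (m := ν.S) (by rw [h.S]; norm_num)
    (pbd_d hp))).mono fun _ => Nat.pow_le_pow_right h.mpos (Nat.div_le_self _ _)

theorem pt_mdep (hp : PT ∅ p) : PT ∅ fun a => ν.m ^ dep ν (p a).d :=
  (PT.const _).pow (pt_dep hp) (pbd_dep hp)

theorem pt_wid0 (hp : PT ∅ p) : PT ∅ fun a => 8 * ν.m ^ dep ν (p a).d * (ν.Δ + 1) :=
  ((PT.const 8).mul (pt_mdep hp)).mul (PT.const _)

theorem pt_wid (hp : PT ∅ p) : PT ∅ fun a => wid ν (p a).d := (pt_wid0 hp).natSize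

theorem pbd_wid (hp : PT ∅ p) : PBd fun a => wid ν (p a).d :=
  (pt_wid0 (ν := ν) hp).pbd.mono fun _ => (esize_nat _).ge

theorem pt_rho (hp : PT ∅ p) : PT ∅ fun a => ν.r * (2 * dep ν (p a).d) :=
  (PT.const _).mul ((PT.const 2).mul (pt_dep hp))

theorem pt_in (hp : PT ∅ p) (hi : PT ∅ i) :
    PT ∅ fun a => decide (1 ≤ i a) && decide (i a + 1 < (p a).d) :=
  ((PT.const 1).le hi).and ((hi.add (PT.const 1)).lt (pt_d hp))

theorem pt_inner (hp : PT ∅ p) (hJ : PT ∅ J) : PT ∅ fun a => inner (p a) (J a) :=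
  PT.filter (f := fun a i => decide (1 ≤ i) && decide (i + 1 < (p a).d)) hJ
    (pt_in (hp.comp PT.fst') PT.snd')

theorem pt_outer (hp : PT ∅ p) (hJ : PT ∅ J) : PT ∅ fun a => outer (p a) (J a) :=
  PT.filter (f := fun a i => !(decide (1 ≤ i) && decide (i + 1 < (p a).d))) hJ
    (pt_in (hp.comp PT.fst') PT.snd').not

theorem pt_ngr (hp : PT ∅ p) (hJ : PT ∅ J) : PT ∅ fun a => ngr ν (p a) (J a) :=
  PT.cond (((PT.const 1).le (pt_dep hp)).and
    (((((pt_mdep hp).mul (pt_wid hp)).add (pt_rho hp)).le (pt_d hp)).and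
      ((((pt_wid hp).add (PT.const 3)).add (pt_mdep hp).natSize).le (pt_d hp))))
    ((pt_inner hp hJ).length.div (pt_mdep hp)) (PT.const 0)

theorem pbd_ngr (hp : PT ∅ p) (hJ : PT ∅ J) : PBd fun a => ngr ν (p a) (J a) :=
  (PBd.length (pt_inner hp hJ)).mono fun a => by
    unfold ngr
    cases good ν (p a).d
    · exact Nat.zero_le _
    · exact Nat.div_le_self _ _

theorem pt_sc (hp : PT ∅ p) :
    PT ∅ fun a => Vale.Agent.P338.R3.H121.sc (p a).d (p a).s (p a).y :=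
  Vale.Agent.P338.R3.H121.pt_sc (pt_d hp) (pt_s hp) (pt_y hp)

end par

end Pt2

theorem fpt_of {ν : Nets} (hc : CPT ν) (h : ν.Ok) : FPT ν := by
  intro α _ p t J hp ht hJ
  have hp' := hp.comp (PT.fst' (β := ℕ))
  have ht' := ht.comp (PT.fst' (β := ℕ))
  have hJ' := hJ.comp (PT.fst' (β := ℕ))
  refine PT.append (PT.flatMap (PT.range (pt_ngr hp hJ) (pbd_ngr hp hJ)) ?_)
    (PT.flatMap (((pt_inner hp hJ).drop ((pt_ngr hp hJ).mul (pt_mdep hp))).append
      (pt_outer hp hJ)) ?_)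
  · refine pt_hgrp hc h (pt_sc hp') (pt_n hp') (pbd_n hp') (pt_rho hp')
      ((PBd.const _).mul ((PBd.const 2).mul (pbd_dep hp'))) (pt_dep hp') (pbd_mdep h hp')
      (pt_mkLay ν.Δ (pt_wid hp') (pbd_wid hp') (pt_n hp') (pbd_n hp') (pt_rho hp') ?_
        (pbd_n hp') (pt_n hp') fun a x hx => ?_)
    · exact PT.map (f := fun (a : α × ℕ) i => bpos (p a.1) (t a.1) i)
        (((pt_inner hp' hJ').drop (PT.snd'.mul (pt_mdep hp'))).take (pt_mdep hp'))
        (pt_bpos (hp'.comp PT.fst') (ht'.comp PT.fst') PT.snd')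
    · obtain ⟨i, -, rfl⟩ := List.mem_map.1 hx
      exact min_le_right _ _
  · exact pt_subL (PT.const 0) (pt_naiL (pt_sc hp') (pt_two (pt_n hp') (pbd_n hp'))
      (pt_bpos hp' ht' PT.snd') ((pbd_n hp').mono fun _ => min_le_right _ _))

end Vale.Agent.P338Z
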