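import Vale.Agent.P338Z.Gen.Defs

/-!
P338 power saving: rotations and scalings of one field are coloured permutations.
-/

namespace Vale.Agent.P338Z

open Vale.Agent.P338.R3.H968 Vale.Agent.P338.R3.H898

namespace RotH

theorem ad_lt {O Q B o x i : ℕ} (ho : o < O) (hx : x < Q) (hi : i < B) :
    (o * Q + x) * B + i < O * (Q * B) := by
  have h1 : o * Q + x + 1 ≤ O * Q := by
    have := Nat.mul_le_mul_right Q (Nat.succ_le_of_lt ho)
    rw [Nat.succ_mul] at this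
    omega
  have h2 := Nat.mul_le_mul_right B h1
  rw [Nat.add_mul _ 1, one_mul, mul_assoc O] at h2
  omega

theorem lt_of_hi {B a a' i i' : ℕ} (ha : a < a') (hi : i < B) : a * B + i < a' * B + i' := by
  have := Nat.mul_le_mul_right B (Nat.succ_le_of_lt ha)
  rw [Nat.succ_mul] at this
  omega

theorem div_ad {B a i : ℕ} (hi : i < B) : (a * B + i) / B = a := by
  rw [add_comm, Nat.add_mul_div_right _ _ (by omega), Nat.div_eq_of_lt hi, zero_add]

theorem mod_ad {B a i : ℕ} (hi : i < B) : (a * B + i) % B = i := by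
  rw [add_comm, Nat.add_mul_mod_self_right, Nat.mod_eq_of_lt hi]

theorem fld {Q B o x i : ℕ} (hx : x < Q) (hi : i < B) : ((o * Q + x) * B + i) / B % Q = x := by
  rw [div_ad hi, mod_ad hx]

theorem split {O Q B u : ℕ} (hQ : 0 < Q) (hB : 0 < B) (hu : u < O * (Q * B)) :
    ∃ o < O, ∃ x < Q, ∃ i < B, u = (o * Q + x) * B + i := by
  refine ⟨u / B / Q, ?_, u / B % Q, Nat.mod_lt _ hQ, u % B, Nat.mod_lt _ hB, ?_⟩
  · rw [Nat.div_lt_iff_lt_mul hQ, Nat.div_lt_iff_lt_mul hB, mul_assoc]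
    exact hu
  · rw [Nat.div_add_mod', Nat.div_add_mod']

/-- Coloured permutations of the middle field. -/
theorem perm3 (h : PERM) (P : CPar) (O Q B c : ℕ) (s s' : ℕ → Sel) (φ col : ℕ → ℕ → ℕ → ℕ)
    (hQ : 0 < Q) (hB : 0 < B) (h1 : ∀ o < O, ∀ x < Q, ∀ i < B, φ o x i < Q ∧ col o x i < c ∧
      ∀ k < c, sev (s k) ((o * Q + x) * B + i) = decide (col o x i = k) ∧
        sev (s' k) ((o * Q + φ o x i) * B + i) = decide (col o x i = k))
    (h2 : ∀ o < O, ∀ y < Q, ∀ i < B, ∃ x < Q, φ o x i = y)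
    (h3 : ∀ o < O, ∀ x < Q, ∀ i < B, ∀ x' < Q, ∀ i' < B, col o x i = col o x' i' →
      (x < x' → φ o x i < φ o x' i') ∧ (x = x' → φ o x i = φ o x' i')) :
    Blk P (permL (O * (Q * B)) c s s') (O * (Q * B)) fun F F' => ∀ o < O, ∀ x < Q, ∀ i < B,
      F' ((o * Q + φ o x i) * B + i) = F ((o * Q + x) * B + i) := by
  obtain ⟨π, hπ⟩ : ∃ π : ℕ → ℕ, ∀ o, ∀ x < Q, ∀ i < B,
      π ((o * Q + x) * B + i) = (o * Q + φ o x i) * B + i :=
    ⟨fun u => (u / B / Q * Q + φ (u / B / Q) (u / B % Q) (u % B)) * B + u % B,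
      fun o x hx i hi => by simp only [div_ad hi, mod_ad hi, div_ad hx, mod_ad hx]⟩
  obtain ⟨cl, hc⟩ : ∃ cl : ℕ → ℕ, ∀ o, ∀ x < Q, ∀ i < B, cl ((o * Q + x) * B + i) = col o x i :=
    ⟨fun u => col (u / B / Q) (u / B % Q) (u % B),
      fun o x hx i hi => by simp only [div_ad hi, mod_ad hi, div_ad hx, mod_ad hx]⟩
  refine (h P _ c s s' π cl (fun u hu => ?_) (fun v hv => ?_) (fun u hu => ?_) (fun u hu => ?_)
    (fun u hu => ?_) fun u v huv hv => ?_).mono fun F F' hF o ho x hx i hi => ?_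
  · obtain ⟨o, ho, x, hx, i, hi, rfl⟩ := split hQ hB hu
    rw [hπ o x hx i hi]
    exact ad_lt ho (h1 o ho x hx i hi).1 hi
  · obtain ⟨o, ho, y, hy, i, hi, rfl⟩ := split hQ hB hv
    obtain ⟨x, hx, rfl⟩ := h2 o ho y hy i hi
    exact ⟨_, ad_lt ho hx hi, hπ o x hx i hi⟩
  · obtain ⟨o, ho, x, hx, i, hi, rfl⟩ := split hQ hB hu
    rw [hc o x hx i hi]
    exact (h1 o ho x hx i hi).2.1
  · obtain ⟨o, ho, x, hx, i, hi, rfl⟩ := split hQ hB hu
    rw [hc o x hx i hi]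
    exact fun k hk => ((h1 o ho x hx i hi).2.2 k hk).1
  · obtain ⟨o, ho, x, hx, i, hi, rfl⟩ := split hQ hB hu
    rw [hc o x hx i hi, hπ o x hx i hi]
    exact fun k hk => ((h1 o ho x hx i hi).2.2 k hk).2
  · obtain ⟨o, ho, x, hx, i, hi, rfl⟩ := split hQ hB (huv.trans hv)
    obtain ⟨o', ho', x', hx', i', hi', rfl⟩ := split hQ hB hv
    rw [hc o x hx i hi, hc o' x' hx' i' hi', hπ o x hx i hi, hπ o' x' hx' i' hi']
    intro hcol
    rcases lt_trichotomy o o' with h4 | rfl | h4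
    · exact lt_of_hi (lt_of_hi h4 (h1 o ho x hx i hi).1) hi
    · obtain ⟨h5, h6⟩ := h3 o ho x hx i hi x' hx' i' hi' hcol
      rcases lt_trichotomy x x' with h4 | rfl | h4
      · exact lt_of_hi (Nat.add_lt_add_left (h5 h4) _) hi
      · rw [h6 rfl]
        omega
      · exact absurd huv (lt_of_hi (Nat.add_lt_add_left h4 _) hi').not_gt
    · exact absurd huv (lt_of_hi (lt_of_hi h4 hx') hi').not_gt
  · rw [← hπ o x hx i hi]
    exact hF _ (ad_lt ho hx hi)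

theorem sev_append (s s' : Sel) (u : ℕ) : sev (s ++ s') u = (sev s u && sev s' u) := by
  simp [sev]

theorem add_mod {Q x r : ℕ} (hx : x < Q) (hr : r < Q) :
    (x + r) % Q = if x + r < Q then x + r else x + r - Q := by
  split_ifs with h
  · exact Nat.mod_eq_of_lt h
  · rw [Nat.mod_eq_sub_mod (not_lt.1 h), Nat.mod_eq_of_lt (by omega)]

theorem col_eq {a k : ℕ} (w : Prop) [Decidable w] :
    (decide (a = k / 2) && xor (decide (k % 2 = 0)) (decide w)) =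
      decide (2 * a + (if w then 1 else 0) = k) := by
  by_cases h1 : w <;> by_cases h2 : k % 2 = 0 <;> by_cases h3 : a = k / 2 <;>
    simp [h1, h2, h3] <;> omega

theorem sev_sclS {B Q p k u : ℕ} (hQ : 0 < Q) :
    sev (sclS B Q p k) u = decide (p * (u / B % Q) / Q = k) := by
  have : p * (u / B % Q) / Q = k ↔ ¬ p * (u / B % Q) < k * Q ∧ p * (u / B % Q) < (k + 1) * Q := by
    rw [← Nat.div_lt_iff_lt_mul hQ, ← Nat.div_lt_iff_lt_mul hQ]
    omega
  rw [Bool.eq_iff_iff]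
  simp [sev, sclS, cev, pev, this]

theorem sev_sclT {B Q p k u : ℕ} :
    sev (sclT B Q p k) u = decide ((u / B % Q + k * Q) % p < 1) := by
  simp [sev, sclT, cev, pev]

theorem key {Q p x y k k₀ : ℕ} (hQ : Q ≡ 1 [MOD p]) (hk : k < p) (hk₀ : k₀ < p)
    (h : p * x = y + k₀ * Q) : (y + k * Q) % p < 1 ↔ k₀ = k := by
  have h1 : ∀ j, y + j * Q ≡ y + j [MOD p] := fun j => by
    simpa using (hQ.mul_left j).add_left y
  have h2 : (y + k₀ * Q) % p = 0 := by rw [← h, Nat.mul_mod_right]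
  refine ⟨fun h3 => ?_, fun h3 => by rw [← h3, h2]; exact one_pos⟩
  have h4 : y + k₀ * Q ≡ y + k * Q [MOD p] := h2.trans (Nat.lt_one_iff.1 h3).symm
  exact (Nat.ModEq.add_left_cancel' y ((h1 k₀).symm.trans (h4.trans (h1 k)))).eq_of_lt_of_lt hk₀ hk

theorem ex_inv {Q p : ℕ} (hp : 0 < p) (hQ : Q ≡ 1 [MOD p]) (y : ℕ) :
    ∃ x k, k < p ∧ p * x = y + k * Q := by
  have h1 : p ∣ y + (p - 1) * y % p * Q := by
    rw [← Nat.modEq_zero_iff_dvd]
    refine ((((Nat.mod_modEq _ p).mul hQ).add_left y)).trans ?_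
    rw [mul_one, Nat.modEq_zero_iff_dvd]
    obtain ⟨q, rfl⟩ := Nat.exists_eq_succ_of_ne_zero hp.ne'
    exact ⟨y, by rw [Nat.succ_sub_one, Nat.succ_mul, add_comm]⟩
  obtain ⟨x, hx⟩ := h1
  exact ⟨x, _, Nat.mod_lt _ hp, hx.symm⟩

theorem inv_lt {Q p x y k : ℕ} (hy : y < Q) (hk : k < p) (h : p * x = y + k * Q) : x < Q := by
  have := Nat.mul_le_mul_right Q (Nat.succ_le_of_lt hk)
  rw [Nat.succ_mul] at this
  exact Nat.lt_of_mul_lt_mul_left (a := p) (by omega)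

end RotH

open RotH

theorem rot_of (h : PERM) : ROT := by
  intro P O Q B e κ g kf hQ hB h1 h2
  refine perm3 h P O Q B 4 _ _ (fun o x i => (x + g o i) % Q)
    (fun o x i => 2 * kf o i + if (x + g o i) % Q < g o i % Q then 1 else 0) hQ hB
    (fun o ho x hx i hi => ⟨Nat.mod_lt _ hQ, ?_, fun k _ => ⟨?_, ?_⟩⟩) (fun o _ y hy i _ => ?_)
    fun o ho x hx i hi x' hx' i' hi' hc => ?_
  · have := (h1 o ho x hx i hi).2.2
    split_ifs <;> omega
  · obtain ⟨h3, h4, -⟩ := h1 o ho x hx i hi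
    rw [rotS, sev_append, sev_selEq, h4, ← col_eq]
    have h5 : pev ((1, [fl B Q]) :: e) ((o * Q + x) * B + i) % Q = (x + g o i) % Q := by
      rw [← Nat.add_mod_mod x, ← h3, Nat.add_mod_mod]
      simp [pev, fld hx hi]
    simp only [sev, List.all_cons, List.all_nil, Bool.and_true, cev, h5, h3]
  · obtain ⟨h3, h4, -⟩ := h1 o ho _ (Nat.mod_lt (x + g o i) hQ) i hi
    rw [rotT, sev_append, sev_selEq, h4, ← col_eq]
    have h5 : pev [(1, [fl B Q])] ((o * Q + (x + g o i) % Q) * B + i) % 0 = (x + g o i) % Q := by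
      simp [pev, fld (Nat.mod_lt (x + g o i) hQ) hi]
    simp only [sev, List.all_cons, List.all_nil, Bool.and_true, cev, h5, h3]
  · refine ⟨(y + (Q - g o i % Q)) % Q, Nat.mod_lt _ hQ, ?_⟩
    have := Nat.mod_lt (g o i) hQ
    show (_ + g o i) % Q = y
    rw [Nat.mod_add_mod, ← Nat.add_mod_mod, show y + (Q - g o i % Q) + g o i % Q = y + Q by omega,
      Nat.add_mod_right, Nat.mod_eq_of_lt hy]
  · have h3 : g o i % Q = g o i' % Q := h2 o ho i hi i' hi' (by split_ifs at hc <;> omega)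
    have h4 := Nat.mod_lt (g o i') hQ
    simp only [← Nat.add_mod_mod _ (g o i), ← Nat.add_mod_mod _ (g o i'), h3] at hc ⊢
    rw [add_mod hx h4, add_mod hx' h4] at hc ⊢
    split_ifs at hc ⊢ <;> omega

/-- Rotations by an offset which depends on the outer part of the address only. -/
theorem rot0_of (h : ROT) (P : CPar) (O Q B : ℕ) (e : Pl) (g : ℕ → ℕ) (hQ : 0 < Q) (hB : 0 < B)
    (he : ∀ o < O, ∀ x < Q, ∀ i < B, pev e ((o * Q + x) * B + i) % Q = g o % Q) :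
    Blk P (rotL (O * (Q * B)) B Q e fz) (O * (Q * B)) fun F F' => ∀ o < O, ∀ x < Q, ∀ i < B,
      F' ((o * Q + (x + g o) % Q) * B + i) = F ((o * Q + x) * B + i) :=
  h P O Q B e fz (fun o _ => g o) (fun _ _ => 0) hQ hB
    (fun o ho x hx i hi => ⟨he o ho x hx i hi, by simp [fev, fz, Nat.mod_one], two_pos⟩)
    fun _ _ _ _ _ _ _ => rfl

theorem scl_of (h : PERM) : SCL := by
  intro P O Q B p hQ hB hp hm
  choose ψ kk hk hψ using ex_inv hp hm
  have e1 : ∀ x, p * x = p * x % Q + p * x / Q * Q := fun x => (Nat.mod_add_div' _ _).symm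
  have e2 : ∀ x < Q, p * x / Q < p := fun x hx => by
    rw [Nat.div_lt_iff_lt_mul hQ]
    exact Nat.mul_lt_mul_of_pos_left hx hp
  have e3 : ∀ x < Q, ψ (p * x % Q) = x := fun x hx => by
    refine Nat.eq_of_mul_eq_mul_left hp ?_
    rw [hψ, ← (key hm (hk _) (e2 x hx) (e1 x)).1 (by rw [← hψ, Nat.mul_mod_right]; exact one_pos),
      ← e1]
  refine ⟨perm3 h P O Q B p _ _ (fun _ x _ => p * x % Q) (fun _ x _ => p * x / Q) hQ hB
    (fun o _ x hx i hi => ⟨Nat.mod_lt _ hQ, e2 x hx, fun k hk' => ⟨?_, ?_⟩⟩)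
    (fun o _ y hy i _ => ⟨ψ y, inv_lt hy (hk y) (hψ y), ?_⟩)
    fun o _ x _ i _ x' _ i' _ hc => ⟨fun h1 => ?_, fun h1 => by rw [h1]⟩,
    (perm3 h P O Q B p _ _ (fun _ y _ => ψ y) (fun _ y _ => kk y) hQ hB
    (fun o _ y hy i hi => ⟨inv_lt hy (hk y) (hψ y), hk y, fun k hk' => ⟨?_, ?_⟩⟩)
    (fun o _ x hx i _ => ⟨_, Nat.mod_lt _ hQ, e3 x hx⟩)
    fun o _ y _ i _ y' _ i' _ hc => ⟨fun h1 => ?_, fun h1 => by rw [h1]⟩).mono
      fun F F' hF o ho x hx i hi => ?_⟩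
  · rw [sev_sclS hQ, fld hx hi]
  · rw [sev_sclT, fld (Nat.mod_lt _ hQ) hi, decide_eq_decide]
    exact key hm hk' (e2 x hx) (e1 x)
  · show p * ψ y % Q = y
    rw [hψ, Nat.add_mul_mod_self_right, Nat.mod_eq_of_lt hy]
  · have h2 := Nat.mul_lt_mul_of_pos_left h1 hp
    rw [e1 x, e1 x', show p * x / Q = p * x' / Q from hc] at h2
    exact Nat.lt_of_add_lt_add_right h2
  · rw [sev_sclT, fld hy hi, decide_eq_decide]
    exact key hm hk' (hk y) (hψ y)
  · rw [sev_sclS hQ, fld (inv_lt hy (hk y) (hψ y)) hi, hψ, add_comm, div_ad hy]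
  · refine Nat.lt_of_mul_lt_mul_left (a := p) ?_
    rw [hψ, hψ, show kk y = kk y' from hc]
    exact Nat.add_lt_add_right h1 _
  · have := hF o ho _ (Nat.mod_lt (p * x) hQ) i hi
    simpa only [e3 x hx] using this

end Vale.Agent.P338Z
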