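import Vale.Agent.P338Z.Gen.Top
import Vale.Agent.P338Z.Ps.Acc
import Vale.Agent.P338Z.Ps.Dia

/-!
P338 power saving: the steps on one bit and the gates.
-/

namespace Vale.Agent.P338Z

open Vale.Agent.P338.R3.H968 Vale.Agent.P338.R3.H898
open Vale.Agent.P338.R3.H282 (upF dnF)

namespace SqH

variable {P : CPar} {B O W N q i v w : ℕ}

theorem dv (h : i < B) (q : ℕ) : (q * B + i) / B = q := by
  rw [add_comm, Nat.add_mul_div_right _ _ (by omega), Nat.div_eq_of_lt h, zero_add]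

theorem md (h : i < B) (q : ℕ) : (q * B + i) % B = i := by
  rw [add_comm, Nat.add_mul_mod_self_right, Nat.mod_eq_of_lt h]

theorem lt_of (h : i < B) (hq : q < W) : q * B + i < W * B :=
  calc q * B + i < (q + 1) * B := by rw [add_mul, one_mul]; omega
    _ ≤ W * B := Nat.mul_le_mul_right _ hq

theorem lt_of2 {o x : ℕ} (ho : o < O) (hx : x < 2) (h : i < B) :
    (o * 2 + x) * B + i < O * (2 * B) :=
  mul_assoc O 2 B ▸ lt_of h (lt_of hx ho)

theorem dec (hB : 0 < B) {u : ℕ} (hu : u < O * (2 * B)) :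
    ∃ o < O, ∃ x < 2, ∃ i < B, u = (o * 2 + x) * B + i := by
  refine ⟨u / B / 2, ?_, u / B % 2, Nat.mod_lt _ two_pos, u % B, Nat.mod_lt _ hB, ?_⟩
  · rw [Nat.div_div_eq_div_mul, Nat.div_lt_iff_lt_mul (by omega), mul_comm B]
    exact hu
  · rw [Nat.div_add_mod', Nat.div_add_mod']

theorem sev_selB (B v u : ℕ) : sev (selB B v) u = decide (u / B % 2 = v) := by
  rw [selB, sev_selEq, fev_fl]

theorem sev_selW (N w u : ℕ) : sev (selW N w) u = decide (u / N = w) := by
  rw [selW, sev_selEq, fev_fl, Nat.mod_zero]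

theorem enumB (hB : 0 < B) (hv : v < 2) (O : ℕ) :
    Enum (O * (2 * B)) (O * (2 * B) / 2) (selB B v) fun k => (k / B * 2 + v) * B + k % B := by
  rw [show O * (2 * B) / 2 = O * B by rw [mul_left_comm, Nat.mul_div_cancel_left _ two_pos]]
  refine ⟨fun k k' h _ => ?_, fun k hk => lt_of2 (Nat.div_lt_of_lt_mul (mul_comm O B ▸ hk)) hv
    (Nat.mod_lt _ hB), fun u hu => ⟨fun h => ?_, ?_⟩⟩
  · have h1 := Nat.div_add_mod' k B
    have h2 := Nat.div_add_mod' k' B
    have h3 := Nat.mul_le_mul_right B (Nat.div_le_div_right (c := B) h.le)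
    simp only [add_mul, mul_right_comm _ 2 B]
    omega
  · obtain ⟨o, ho, x, hx, i, hi, rfl⟩ := dec hB hu
    rw [sev_selB, dv hi, md hx, decide_eq_true_eq] at h
    exact ⟨o * B + i, lt_of hi ho, by rw [dv hi, md hi, h]⟩
  · rintro ⟨k, -, rfl⟩
    rw [sev_selB, dv (Nat.mod_lt _ hB), md hv, decide_eq_true_eq]

theorem enumW (hw : w < W) : Enum (W * N) N (selW N w) fun k => w * N + k :=
  ⟨fun _ _ h _ => Nat.add_lt_add_left h _, fun _ hk => lt_of hk hw, fun u hu => by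
    have hN : 0 < N := Nat.pos_of_ne_zero fun e => by simp [e] at hu
    rw [sev_selW, decide_eq_true_eq]
    refine ⟨fun h => ⟨u % N, Nat.mod_lt _ hN, h ▸ Nat.div_add_mod' u N⟩, ?_⟩
    rintro ⟨k, hk, rfl⟩
    exact dv hk w⟩

theorem accB (P : CPar) (hB : 0 < B) (h : v + w = 1) (O : ℕ) :
    Blk P (accL 0 (O * (2 * B)) (O * (2 * B) / 2) (selB B v) (selB B w)) (O * (2 * B))
      fun F F' => ∀ o < O, ∀ i < B, ∀ j,
        F' ((o * 2 + v) * B + i) j = F ((o * 2 + v) * B + i) j ∧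
        F' ((o * 2 + w) * B + i) j = F ((o * 2 + w) * B + i) j + F ((o * 2 + v) * B + i) j :=
  (acc P 0 _ _ _ _ _ _ (enumB hB (by omega) O) (enumB hB (by omega) O)).mono
    fun F F' k o ho i hi j => by
      have hv : v < 2 := by omega
      have k1 := k.1 (o * B + i) (by
        rw [mul_left_comm, Nat.mul_div_cancel_left _ two_pos]
        exact lt_of hi ho)
      simp only [dv hi, md hi] at k1
      rw [k1, k.2 _ (lt_of2 ho hv hi) (by
        rw [sev_selB, dv hi, md hv, decide_eq_false_iff_not]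
        omega)]
      exact ⟨rfl, rfl⟩

theorem accW (P : CPar) (n : Bool) {j : ℕ} (hi : i < W) (hj : j < W) :
    Blk P (accL (bif n then 1 else 0) (W * N) N (selW N j) (selW N i)) (W * N) fun F F' =>
      ∀ w < W, ∀ v < N, ∀ k, F' (w * N + v) k = F (w * N + v) k +
        if w = i then (bif n then -1 else 1) * F (j * N + v) k else 0 :=
  (acc P _ _ _ _ _ _ _ (enumW hj) (enumW hi)).mono fun F F' h w hw v hv k => by
    split_ifs with e
    · rw [e, h.1 v hv]
      cases n <;> simp [opC, cAdd, cSub, sub_eq_add_neg]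
    · rw [h.2 _ (lt_of hv hw) (by rw [sev_selW, dv hv, decide_eq_false e]), add_zero]

theorem bnd (h : P.s + 3 ≤ P.b) {c : ℤ} (hc : |c| ≤ 2) : 2 * (|c| * 2 ^ P.s) < 2 ^ P.b := by
  have h1 : (2 : ℤ) ^ (P.s + 3) ≤ 2 ^ P.b := pow_le_pow_right₀ one_le_two h
  have h2 : (0 : ℤ) < 2 ^ P.s := by positivity
  have h3 := mul_le_mul_of_nonneg_right hc h2.le
  rw [pow_add] at h1
  linarith

theorem dia2 (hP : P.Ok) (h : P.s + 3 ≤ P.b) (hN : 2 ∣ N) (s : Sel) {a b c d : ℤ} (ha : |a| ≤ 2)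
    (hb : |b| ≤ 2) (hc : |c| ≤ 2) (hd : |d| ≤ 2) :
    Blk P [pDia P.s N s [] [(a, b), (c, d)]] N fun F F' => ∀ v, 2 * v < N → ∀ j,
      F' (2 * v) j = (if sev s (2 * v) then c else a) * F (2 * v) j -
        (if sev s (2 * v) then d else b) * F (2 * v + 1) j ∧
      F' (2 * v + 1) j = (if sev s (2 * v) then d else b) * F (2 * v) j +
        (if sev s (2 * v) then c else a) * F (2 * v + 1) j :=
  (dia P N s [] _ hP hN (by
    simp only [List.mem_cons, List.not_mem_nil, or_false, forall_eq_or_imp, forall_eq]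
    exact ⟨⟨bnd h (by simp), bnd h (by simp)⟩, ⟨bnd h ha, bnd h hb⟩, bnd h hc, bnd h hd⟩)).mono
    fun F F' k v hv j => by
      have := k v hv j
      cases e : sev s (2 * v) <;> simpa [dcst, pev, e] using this

/-- real constants -/
theorem diaR (hP : P.Ok) (h : P.s + 3 ≤ P.b) (hN : 2 ∣ N) (hB : 2 ∣ B) (Q w : ℕ) {a c : ℤ}
    (ha : |a| ≤ 2) (hc : |c| ≤ 2) :
    Blk P [pDia P.s N (selEq (fl B Q) w) [] [(a, 0), (c, 0)]] N fun F F' => ∀ u < N, ∀ j,
      F' u j = (if u / B % Q = w then c else a) * F u j :=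
  (dia2 hP h hN _ ha (by simp) hc (by simp)).mono fun F F' k u hu j => by
    obtain ⟨B, rfl⟩ := hB
    have k1 := k (u / 2) (by omega) j
    have e : 2 * (u / 2) / (2 * B) = u / (2 * B) := by
      rw [Nat.mul_div_mul_left _ _ two_pos, Nat.div_div_eq_div_mul]
    simp only [sev_selEq, fev_fl, e, decide_eq_true_eq, ite_self, zero_mul, sub_zero,
      zero_add] at k1
    rcases Nat.mod_two_eq_zero_or_one u with c | c
    · simpa only [show 2 * (u / 2) = u by omega] using k1.1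
    · simpa only [show 2 * (u / 2) + 1 = u by omega] using k1.2

theorem diaC (hP : P.Ok) (h : P.s + 3 ≤ P.b) (O B : ℕ) {a b c d : ℤ} (ha : |a| ≤ 2)
    (hb : |b| ≤ 2) (hc : |c| ≤ 2) (hd : |d| ≤ 2) :
    Blk P [pDia P.s (O * (2 * (2 * B))) (selB (2 * B) 1) [] [(a, b), (c, d)]] (O * (2 * (2 * B)))
      fun F F' => ∀ o < O, ∀ x < 2, ∀ i < B, ∀ j,
      F' ((o * 2 + x) * (2 * B) + 2 * i) j =
        (if x = 1 then c else a) * F ((o * 2 + x) * (2 * B) + 2 * i) j -
        (if x = 1 then d else b) * F ((o * 2 + x) * (2 * B) + (2 * i + 1)) j ∧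
      F' ((o * 2 + x) * (2 * B) + (2 * i + 1)) j =
        (if x = 1 then d else b) * F ((o * 2 + x) * (2 * B) + 2 * i) j +
        (if x = 1 then c else a) * F ((o * 2 + x) * (2 * B) + (2 * i + 1)) j :=
  (dia2 hP h ⟨O * (2 * B), by ring⟩ _ ha hb hc hd).mono fun F F' k o ho x hx i hi j => by
    have e : 2 * ((o * 2 + x) * B + i) = (o * 2 + x) * (2 * B) + 2 * i := by ring
    have hi' : 2 * i < 2 * B := by omega
    have k1 := k ((o * 2 + x) * B + i) (e ▸ lt_of2 ho hx hi') j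
    simpa only [e, sev_selB, dv hi', md hx, decide_eq_true_eq, add_assoc] using k1

end SqH

open SqH

theorem sq : SQ := fun P n O B hP h hB => by
  have h1 : |(1 : ℤ)| ≤ 2 := by simp
  have h0 : |(0 : ℤ)| ≤ 2 := by simp
  have h2 : |(bif n then 1 else -1 : ℤ)| ≤ 2 := by cases n <;> simp
  have h3 : |(bif n then -1 else 1 : ℤ)| ≤ 2 := by cases n <;> simp
  have hB' : 0 < 2 * B := by omega
  refine ((diaC hP h O B h1 h0 h0 h2).seq ((accB P hB' (v := 1) (w := 0) rfl O).seq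
    ((diaC hP h O B h1 h0 (c := -2) (by simp) h0).seq ((accB P hB' (v := 0) (w := 1) rfl O).seq
      (diaC hP h O B h1 h3 h1 h2))))).mono ?_
  rintro F F5 ⟨F1, k1, F2, k2, F3, k3, F4, k4, k5⟩ o ho x hx i hi j
  have a0 := k1 o ho 0 two_pos i hi j
  have a1 := k1 o ho 1 one_lt_two i hi j
  have b0 := k2 o ho (2 * i) (by omega) j
  have b1 := k2 o ho (2 * i + 1) (by omega) j
  have c0 := k3 o ho 0 two_pos i hi j
  have c1 := k3 o ho 1 one_lt_two i hi j
  have d0 := k4 o ho (2 * i) (by omega) j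
  have d1 := k4 o ho (2 * i + 1) (by omega) j
  have e := k5 o ho x hx i hi j
  simp only [add_assoc _ (2 * i) 1]
  rw [e.1, e.2]
  interval_cases x
  · rw [d0.1, d1.1, c0.1, c0.2, b0.2, b1.2, a0.1, a0.2, a1.1, a1.2]
    cases n <;> simp [Complex.ext_iff] <;> constructor <;> ring
  · rw [d0.2, d1.2, c0.1, c0.2, c1.1, c1.2, b0.2, b1.2, b0.1, b1.1, a0.1, a0.2, a1.1, a1.2]
    cases n <;> simp [Complex.ext_iff] <;> constructor <;> ring

theorem gate : GATE := fun P W N i j n h hP hs hN _ hi hj hne => by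
  cases h
  · exact (accW P n hi hj).mono fun F F' k w hw v hv l => by simpa using k w hw v hv l
  have h1 : |(1 : ℤ)| ≤ 2 := by simp
  have h2 : |(2 : ℤ)| ≤ 2 := by simp
  have hW : 2 ∣ W * N := hN.mul_left W
  refine ((diaR hP hs hW hN 0 j h2 h1).seq ((accW P n hi hj).seq
    (diaR hP hs hW hN 0 j h1 h2))).mono ?_
  rintro F F3 ⟨F1, k1, F2, k2, k3⟩ w hw v hv l
  rw [k3 _ (lt_of hv hw), k2 w hw v hv, k1 _ (lt_of hv hw), k1 _ (lt_of hv hj), dv hv, dv hv]
  by_cases e : w = j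
  · simp [e, hne]
  · simp [e]

theorem nai : NAI := fun P n p hp => by
  have hB : 0 < 2 ^ p := by positivity
  have e : 2 ^ n = 2 ^ (n - p - 1) * (2 * 2 ^ p) := by
    rw [← pow_succ', ← pow_add]
    congr 1
    omega
  rw [e]
  generalize 2 ^ (n - p - 1) = O
  have t : ∀ o, ∀ x < 2, ∀ i < 2 ^ p, ((o * 2 + x) * 2 ^ p + i).testBit p = decide (x = 1) :=
    fun o x hx i hi => by rw [Nat.testBit_eq_decide_div_mod_eq, dv hi, md hx]
  have s0 : ∀ o i, (o * 2 + 0) * 2 ^ p + i + 2 ^ p = (o * 2 + 1) * 2 ^ p + i := fun o i => by ring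
  have s1 : ∀ o i, (o * 2 + 1) * 2 ^ p + i - 2 ^ p = (o * 2 + 0) * 2 ^ p + i := fun o i =>
    s0 o i ▸ Nat.add_sub_cancel _ _
  have up := accB P hB (v := 0) (w := 1) rfl O
  have dn := accB P hB (v := 1) (w := 0) rfl O
  refine ⟨up.mono fun F F' k u hu => ?_, dn.mono fun F F' k u hu => ?_, fun hP hs h1 => ?_⟩
  · obtain ⟨o, ho, x, hx, i, hi, rfl⟩ := dec hB hu
    rw [upF, t o x hx i hi]
    interval_cases x
    · exact funext fun j => (k o ho i hi j).1
    · rw [s1]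
      exact funext fun j => (k o ho i hi j).2
  · obtain ⟨o, ho, x, hx, i, hi, rfl⟩ := dec hB hu
    rw [dnF, t o x hx i hi]
    interval_cases x
    · rw [s0]
      exact funext fun j => (k o ho i hi j).2
    · exact funext fun j => (k o ho i hi j).1
  · refine (dn.seq ((diaR hP hs ⟨O * 2 ^ p, by ring⟩ (dvd_pow_self 2 (by omega)) 2 1 (a := 1)
      (c := -2) (by simp) (by simp)).seq up)).mono ?_
    rintro F F3 ⟨F1, k1, F2, k2, k3⟩ u hu
    obtain ⟨o, ho, x, hx, i, hi, rfl⟩ := dec hB hu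
    have a0 := k2 _ (lt_of2 ho two_pos hi)
    have a1 := k2 _ (lt_of2 ho one_lt_two hi)
    rw [dv hi] at a0 a1
    rw [md two_pos] at a0
    rw [md one_lt_two] at a1
    rw [hF, t o x hx i hi]
    funext j
    interval_cases x
    · rw [s0, (k3 o ho i hi j).1, a0, (k1 o ho i hi j).2]
      simp [cAdd]
    · rw [s1, (k3 o ho i hi j).2, a0, a1, (k1 o ho i hi j).2, (k1 o ho i hi j).1]
      simp [cSub]
      ring

end Vale.Agent.P338Z
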