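import Vale.Agent.P338Z.Gen.UCall1

/-!
P338 power saving: one call of the routing network.
-/

namespace Vale.Agent.P338Z

open Vale.Agent.P338.R3.H968 Vale.Agent.P338.R3.H898
open Function (update)

namespace U1

open UD

variable {P : CPar} {m n' Q O W N : ℕ} {α β : List ℤ}

theorem pos_lt {k κ : ℕ} (hk : k < m) (hκ : κ < n') : k * n' + κ < m * n' := mix_lt hk hκ

/-- The value of `eD`. -/
def E (β : List ℤ) (n' κ : ℕ) (d : ℕ → ZMod Q) : ZMod Q :=
  (((List.range β.length).filter fun k => decide (pLo β < k)).map fun k =>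
    (((β.getD (pLo β) 0).sign * β.getD k 0 : ℤ) : ZMod Q) * d (k * n' + κ)).sum

theorem E_congr (κ : ℕ) {d d' : ℕ → ZMod Q} (h : ∀ c, pLo β * n' + n' ≤ c → d' c = d c) :
    E β n' κ d' = E β n' κ d := by
  refine congrArg List.sum (List.map_congr_left fun k hk => ?_)
  have k1 : pLo β + 1 ≤ k := by simpa using (List.mem_filter.1 hk).2
  rw [h _ (by nlinarith [Nat.mul_le_mul_right n' k1])]

theorem E_upd (κ : ℕ) {κ' : ℕ} (h : κ' < n') (d : ℕ → ZMod Q) (z : ZMod Q) :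
    E β n' κ (update d (pLo β * n' + κ') z) = E β n' κ d :=
  E_congr κ fun c hc => Function.update_of_ne (by omega) _ _

theorem abs_cast (z : ℤ) : ((z.natAbs : ℕ) : ZMod Q) = (z.sign : ZMod Q) * z := by
  rw [← Int.cast_natCast, ← Int.sign_mul_self_eq_natAbs, Int.cast_mul]

theorem E_eq (hl : β.length = m) (hβ : ∃ x ∈ β, x ≠ 0) (κ : ℕ) (d : ℕ → ZMod Q) :
    ((β.getD (pLo β) 0).natAbs : ZMod Q) * d (pLo β * n' + κ) + E β n' κ d =
      ((β.getD (pLo β) 0).sign : ZMod Q) *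
        ∑ j : Fin m, (β.getD j 0 : ZMod Q) * d (j * n' + κ) := by
  obtain ⟨h1, -, h3⟩ := pLo_spec hβ
  have e : E β n' κ d = ∑ k ∈ (Finset.range m).filter (pLo β < ·),
      (((β.getD (pLo β) 0).sign * β.getD k 0 : ℤ) : ZMod Q) * d (k * n' + κ) := by
    subst hl
    rfl
  rw [e, Fin.sum_univ_eq_sum_range (fun j => (β.getD j 0 : ZMod Q) * d (j * n' + κ)) m,
    Finset.mul_sum, ← Finset.sum_filter_add_sum_filter_not (Finset.range m) (pLo β < ·), add_comm,
    Finset.sum_eq_single_of_mem (s := (Finset.range m).filter (¬ pLo β < ·)) (pLo β)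
      (by simpa [← hl] using h1) fun k hk hne => by
        rw [h3 k (lt_of_le_of_ne (not_lt.1 (Finset.mem_filter.1 hk).2) hne)]
        simp, abs_cast, mul_assoc]
  exact congrArg (· + _) (Finset.sum_congr rfl fun k _ => by push_cast; ring)

theorem eD_hi {κ : ℕ} (hκ : κ < n') : ∀ t ∈ eD β W Q n' κ, ∀ f ∈ t.2,
    ∃ j, pLo β * n' + κ < j ∧ f = fl (W * Q ^ j) Q := fun t ht f hf => by
  obtain ⟨k, hk, rfl⟩ := List.mem_map.1 ht
  have k1 : pLo β + 1 ≤ k := by simpa using (List.mem_filter.1 hk).2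
  exact ⟨k * n' + κ, by nlinarith [Nat.mul_le_mul_right n' k1], List.mem_singleton.1 hf⟩

theorem psm_hi {e : Pl} {p : Fl → Prop} (a : ℕ) (h : ∀ t ∈ e, ∀ f ∈ t.2, p f) :
    ∀ t ∈ psm a e, ∀ f ∈ t.2, p f := fun t ht f hf => by
  obtain ⟨s, hs, rfl⟩ := List.mem_map.1 ht
  exact h s hs f hf

variable [NeZero Q]

theorem pev_eD (hl : β.length = m) {κ : ℕ} (hκ : κ < n') (o : ℕ) {w : ℕ} (hw : w < W)
    (d : ℕ → ZMod Q) :
    ((pev (eD β W Q n' κ) (Az (m * n') Q W o d w) : ℕ) : ZMod Q) = E β n' κ d := by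
  rw [pev, eD, List.map_map, Nat.cast_list_sum, List.map_map]
  refine congrArg List.sum (List.map_congr_left fun k hk => ?_)
  have k1 : k < m := hl ▸ List.mem_range.1 (List.mem_filter.1 hk).1
  simp only [Function.comp_apply, List.map_cons, List.map_nil, List.prod_cons, List.prod_nil,
    mul_one, Nat.cast_mul, zc_cast, az_dig (pos_lt k1 hκ) hw]

theorem dPre_par (hR : ROT) (hS : SCL) (hN : N = O * (Q ^ (m * n') * W)) (hW : 0 < W)
    (hl : β.length = m) (hb : pLo β < m) (pa : 0 < (α.getD (pHi α) 0).natAbs)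
    (pb : 0 < (β.getD (pLo β) 0).natAbs) (qa : Q ≡ 1 [MOD (α.getD (pHi α) 0).natAbs])
    (qb : Q ≡ 1 [MOD (β.getD (pLo β) 0).natAbs]) (q6 : Q ≡ 1 [MOD 216]) {i6 : ZMod Q}
    (h6 : (216 : ℕ) * i6 = 1) :
    Blk P (dPre α β N W Q n') N (Par (m * n') Q O W (List.range n') (pLo β * n' + ·) fun κ d =>
      i6 * ((α.getD (pHi α) 0).natAbs *
        ((β.getD (pLo β) 0).natAbs * d (pLo β * n' + κ) + E β n' κ d))) := by
  refine par _ _ _ _ (fun κ hκ => ?_) (List.pairwise_lt_range.imp_of_mem fun {i j} hi _ hij =>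
    ⟨by omega, fun d z => by
      rw [Function.update_of_ne (by omega), E_upd j (List.mem_range.1 hi)]⟩)
  have hκ := List.mem_range.1 hκ
  have hc := pos_lt hb hκ
  refine seq (sclU hS hN hW hc pb qb) (seq (rotU hR hN hW hc (eD_hi hκ)
    fun o w hw d => pev_eD hl hκ o hw d) (seq (sclU hS hN hW hc pa qa)
      (usclU hS hN hW hc (by norm_num) q6 h6) fun _ => rfl) fun _ => rfl) fun d => ?_
  simp only [Function.update_self, E_upd κ hκ]

theorem dPost_par (hR : ROT) (hS : SCL) (hN : N = O * (Q ^ (m * n') * W)) (hW : 0 < W)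
    (hl : β.length = m) (hb : pLo β < m) (pa : 0 < (α.getD (pHi α) 0).natAbs)
    (pb : 0 < (β.getD (pLo β) 0).natAbs) (qa : Q ≡ 1 [MOD (α.getD (pHi α) 0).natAbs])
    (qb : Q ≡ 1 [MOD (β.getD (pLo β) 0).natAbs]) (q6 : Q ≡ 1 [MOD 216]) {ia ib : ZMod Q}
    (ha : (α.getD (pHi α) 0).natAbs * ia = 1) (hb' : (β.getD (pLo β) 0).natAbs * ib = 1) :
    Blk P (dPost α β N W Q n') N (Par (m * n') Q O W (List.range n') (pLo β * n' + ·) fun κ d =>
      ib * (ia * ((216 : ℕ) * d (pLo β * n' + κ)) + -E β n' κ d)) := by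
  refine par _ _ _ _ (fun κ hκ => ?_) (List.pairwise_lt_range.imp_of_mem fun {i j} hi _ hij =>
    ⟨by omega, fun d z => by
      rw [Function.update_of_ne (by omega), E_upd j (List.mem_range.1 hi)]⟩)
  have hκ := List.mem_range.1 hκ
  have hc := pos_lt hb hκ
  refine seq (sclU hS hN hW hc (by norm_num) q6) (seq (usclU hS hN hW hc pa qa ha)
    (seq (rotU hR hN hW hc (psm_hi _ (eD_hi hκ)) (v := fun d => -E β n' κ d) fun o w hw d => by
      rw [pev_psm, Nat.cast_mul, pev_eD hl hκ o hw d, pred_cast, neg_one_mul])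
      (usclU hS hN hW hc pb qb hb') fun _ => rfl) fun _ => rfl) fun d => ?_
  simp only [Function.update_self, E_upd κ hκ]

/-- The coefficient of the shear of `H`. -/
def shc (Q : ℕ) (σ : ℤ) (α : List ℤ) (k : ℕ) : ZMod Q :=
  ((σ * ((α.getD (pHi α) 0).sign * α.getD k 0) : ℤ) : ZMod Q) *
    (minv Q (α.getD (pHi α) 0).natAbs : ℕ)

theorem hShr_par (hR : ROT) (hN : N = O * (Q ^ (m * n') * W)) (hW : 0 < W) (ha : pHi α < m)
    (σ : ℤ) : Blk P (hShr σ α N W Q n') N (Par (m * n') Q O W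
      (List.range n' ×ˢ List.range (pHi α)) (fun p => p.2 * n' + p.1) fun p d =>
        d (p.2 * n' + p.1) + shc Q σ α p.2 * d (pHi α * n' + p.1)) := by
  have e : hShr σ α N W Q n' = (List.range n' ×ˢ List.range (pHi α)).flatMap fun p =>
      rotL N (W * Q ^ (p.2 * n' + p.1)) Q [(zc Q (σ * ((α.getD (pHi α) 0).sign * α.getD p.2 0)) *
        minv Q (α.getD (pHi α) 0).natAbs, [fl (W * Q ^ (pHi α * n' + p.1)) Q])] fz := by
    simp only [hShr, SProd.sprod, List.product, List.flatMap_assoc, List.flatMap_map]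
  have hm : ∀ p ∈ List.range n' ×ˢ List.range (pHi α), p.1 < n' ∧ p.2 < pHi α := fun p hp => by
    simpa using List.mem_product.1 (show (p.1, p.2) ∈ _ from hp)
  rw [e]
  refine par _ _ _ _ (fun p hp => ?_) ((List.nodup_range.product List.nodup_range).imp_of_mem
    fun {p q} hp hq hne => ?_)
  · obtain ⟨h1, h2⟩ := hm p hp
    refine rotU hR hN hW (pos_lt (h2.trans ha) h1) (fun t ht f hf => ?_) fun o w hw d => ?_
    · rw [List.mem_singleton.1 ht] at hf
      exact ⟨_, by have := pos_lt h2 h1; omega, List.mem_singleton.1 hf⟩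
    · simp only [pev, List.map_cons, List.map_nil, List.prod_cons, List.prod_nil, List.sum_cons,
        List.sum_nil, mul_one, add_zero, Nat.cast_mul, zc_cast, az_dig (pos_lt ha h1) hw, shc]
  · obtain ⟨h1, h2⟩ := hm p hp
    obtain ⟨h3, -⟩ := hm q hq
    have k : p.2 * n' + p.1 ≠ q.2 * n' + q.1 := fun e => by
      have e1 := congrArg (· % n') e
      simp only [Nat.mul_add_mod_of_lt h1, Nat.mul_add_mod_of_lt h3] at e1
      rw [e1, Nat.add_right_cancel_iff] at e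
      exact hne (Prod.ext e1 (Nat.eq_of_mul_eq_mul_right (by omega) e))
    refine ⟨k, fun d z => ?_⟩
    rw [Function.update_of_ne k.symm, Function.update_of_ne (by have := pos_lt h2 h1; omega)]

omit [NeZero Q] in
theorem vl3 {a : ℕ} (ha : a < m) (H : ℕ → ℕ) : vl Q (m * n') H = vl Q (a * n') H + Q ^ (a * n') *
    (vl Q n' (fun j => H (a * n' + j)) +
      Q ^ n' * vl Q (m * n' - (a + 1) * n') fun j => H (a * n' + (n' + j))) := by
  have k : (a + 1) * n' ≤ m * n' := Nat.mul_le_mul_right _ ha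
  have e : m * n' = a * n' + (n' + (m * n' - (a + 1) * n')) := by
    rw [← add_assoc, ← add_one_mul, Nat.add_sub_cancel' k]
  conv_lhs => rw [e, vl_add, vl_add]

omit [NeZero Q] in
theorem ad_split {a b : ℕ} (ha : a < m) (hb : b < m) (Md BD o md lo : ℕ) (H D : ℕ → ℕ) :
    adU (m * n') Q Md BD o H md D lo =
      adU n' Q (Q ^ (a * n') * Md * Q ^ (m * n' - (b + 1) * n')) (BD * Q ^ (b * n'))
        (o * Q ^ (m * n' - (a + 1) * n') +
          vl Q (m * n' - (a + 1) * n') fun j => H (a * n' + (n' + j))) (fun j => H (a * n' + j))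
        ((vl Q (a * n') H * Md + md) * Q ^ (m * n' - (b + 1) * n') +
          vl Q (m * n' - (b + 1) * n') fun j => D (b * n' + (n' + j))) (fun j => D (b * n' + j))
        (vl Q (b * n') D * BD + lo) := by
  rw [adU, adU, vl3 ha H, vl3 hb D, congrArg (o * ·) (pow_split Q n' ha), pow_split Q n' hb]
  ring

/-- The address. -/
def ad (n Q Md BD o : ℕ) (h : ℕ → ZMod Q) (md : ℕ) (d : ℕ → ZMod Q) (lo : ℕ) : ℕ :=
  adU n Q Md BD o (fun c => (h c).val) md (fun c => (d c).val) lo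

theorem mid {a b Md BD o md lo : ℕ} (ha : a < m) (hb : b < m) {ε : ZMod Q} {F F' : ℕ → Cell}
    (hF : Shr n' Q (O * Q ^ (m * n' - (a + 1) * n'))
      (Q ^ (a * n') * Md * Q ^ (m * n' - (b + 1) * n')) (BD * Q ^ (b * n'))
      (fun D c => ε * (D c : ZMod Q)) F F') (ho : o < O) (hm : md < Md) (hl : lo < BD)
    {h h' d : ℕ → ZMod Q} (h1 : ∀ κ < n', h' (a * n' + κ) = h (a * n' + κ) + ε * d (b * n' + κ))
    (h2 : ∀ c < m * n', c < a * n' ∨ a * n' + n' ≤ c → h' c = h c) :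
    F' (ad (m * n') Q Md BD o h' md d lo) = F (ad (m * n') Q Md BD o h md d lo) := by
  have k : (a + 1) * n' ≤ m * n' := Nat.mul_le_mul_right _ ha
  rw [add_one_mul] at k
  rw [ad, ad, ad_split ha hb, ad_split ha hb,
    vl_congr (H := fun c => (h' c).val) (H' := fun c => (h c).val) (n := a * n')
      fun c hc => by rw [h2 c (by omega) (.inl hc)],
    vl_congr (H := fun j => (h' (a * n' + (n' + j))).val) (H' := fun j => (h (a * n' + (n' + j))).val)
      fun c hc => by rw [h2 _ (by rw [add_one_mul] at hc; omega) (.inr (by omega))]]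
  refine hF _ (mix_lt ho (vl_lt fun _ _ => ZMod.val_lt _)) _
    (mix_lt (mix_lt (vl_lt fun _ _ => ZMod.val_lt _) hm) (vl_lt fun _ _ => ZMod.val_lt _)) _
    ((mix_lt (vl_lt fun _ _ => ZMod.val_lt _) hl).trans_eq (mul_comm _ _)) _ _ _ fun c hc =>
    ⟨ZMod.val_lt _, ZMod.val_lt _, ZMod.val_lt _, ?_⟩
  simp only [ZMod.natCast_zmod_val, h1 c hc]

theorem parH {n Md BD o md lo : ℕ} {ι : Type} {l : List ι} {pos : ι → ℕ}
    {val : ι → (ℕ → ZMod Q) → ZMod Q} {F F' : ℕ → Cell}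
    (hF : Par n Q O (Md * (Q ^ n * BD)) l pos val F F') (ho : o < O) (hm : md < Md) (hl : lo < BD)
    {h h' : ℕ → ZMod Q} (d : ℕ → ZMod Q) (h1 : ∀ i ∈ l, h' (pos i) = val i h)
    (h2 : ∀ c < n, (∀ i ∈ l, c ≠ pos i) → h' c = h c) :
    F' (ad n Q Md BD o h' md d lo) = F (ad n Q Md BD o h md d lo) :=
  hF o ho _ ((mix_lt (mix_lt hm (vl_lt fun _ _ => ZMod.val_lt _)) hl).trans_eq (mul_assoc _ _ _))
    h h' h1 h2

theorem parD {n Md BD o md lo : ℕ} {ι : Type} {l : List ι} {pos : ι → ℕ}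
    {val : ι → (ℕ → ZMod Q) → ZMod Q} {F F' : ℕ → Cell}
    (hF : Par n Q (O * Q ^ n * Md) BD l pos val F F') (ho : o < O) (hm : md < Md) (hl : lo < BD)
    (h : ℕ → ZMod Q) {d d' : ℕ → ZMod Q} (h1 : ∀ i ∈ l, d' (pos i) = val i d)
    (h2 : ∀ c < n, (∀ i ∈ l, c ≠ pos i) → d' c = d c) :
    F' (ad n Q Md BD o h md d' lo) = F (ad n Q Md BD o h md d lo) := by
  have e : ∀ d, ad n Q Md BD o h md d lo =
      Az n Q BD ((o * Q ^ n + vl Q n fun c => (h c).val) * Md + md) d lo := fun d => by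
    rw [ad, adU, Az]
    ring
  rw [e, e]
  exact hF _ (mix_lt (mix_lt ho (vl_lt fun _ _ => ZMod.val_lt _)) hm) _ hl d d' h1 h2

omit [NeZero Q] in
theorem sg_xor (x y : Bool) : (bif xor x y then -1 else 1 : ZMod Q) =
    (bif x then -1 else 1) * (bif y then -1 else 1) := by
  cases x <;> cases y <;> simp

omit [NeZero Q] in
theorem sg_dec {z : ℤ} (h : z ≠ 0) :
    (bif decide (z < 0) then -1 else 1 : ZMod Q) = (z.sign : ZMod Q) := by
  rcases lt_or_gt_of_ne h with k | k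
  · simp [k, Int.sign_eq_neg_one_of_neg k]
  · simp [k.not_gt, Int.sign_eq_one_of_pos k]

omit [NeZero Q] in
theorem sg_sq {z : ℤ} (h : z ≠ 0) : (z.sign : ZMod Q) * z.sign = 1 := by
  rw [← sg_dec h]
  cases decide (z < 0) <;> simp

end U1

open UD U1 in
theorem ucall_of (hR : ROT) (hS : SCL) {ν : Nets} (hν : ν.Ok) : UCALL ν := by
  intro P n' O Md BD Q N O' Md' BD' e e' α β Lr hQ h1 hMd hBD la lb hα hβ hd hN hO' hMd' hBD' he hL
  have : NeZero Q := ⟨by omega⟩
  subst hO' hMd' hBD'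
  generalize ν.m = m at *
  obtain ⟨a1, a2, a3⟩ := pHi_spec hα
  obtain ⟨b1, b2, -⟩ := pLo_spec hβ
  have qa : Q ≡ 1 [MOD (α.getD (pHi α) 0).natAbs] := hQ.of_dvd (hd _ (List.mem_append_left _ (by
    rw [List.getD_eq_getElem _ _ a1]; exact List.getElem_mem _)) a2)
  have qb : Q ≡ 1 [MOD (β.getD (pLo β) 0).natAbs] := hQ.of_dvd (hd _ (List.mem_append_right _ (by
    rw [List.getD_eq_getElem _ _ b1]; exact List.getElem_mem _)) b2)
  have q6 : Q ≡ 1 [MOD 216] := hQ.of_dvd hν.dvd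
  have pa := Int.natAbs_pos.2 a2
  have pb := Int.natAbs_pos.2 b2
  have ia := minv_mul pa qa
  have ib := minv_mul pb qb
  have i6 : ((216 : ℕ) : ZMod Q) * (216 : ZMod Q)⁻¹ = 1 := by
    have k := minv_mul (by norm_num) q6
    rwa [← ZMod.inv_eq_of_mul_eq_one Q _ _ k] at k
  rw [la] at a1
  rw [lb] at b1
  have hBH : 0 < Md * (Q ^ (m * n') * BD) := by positivity
  have hN' : N = O * Q ^ (m * n') * Md * (Q ^ (m * n') * BD) := by rw [hN]; ring
  refine (((dPre_par hR hS hN' hBD lb b1 pa pb qa qb q6 i6).seq (hShr_par hR hN hBH a1 (-1))).seq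
    (hL.seq ((hShr_par hR hN hBH a1 1).seq (dPost_par hR hS hN' hBD lb b1 pa pb qa qb q6 ia
      ib)))).mono ?_
  rintro F F5 ⟨F2, ⟨F1, r1, r2⟩, F3, r3, F4, r4, r5⟩ o ho md hm lo hl H D H' hH
  let h : ℕ → ZMod Q := fun c => H c
  let h' : ℕ → ZMod Q := fun c => H' c
  let d : ℕ → ZMod Q := fun c => D c
  let S : ℕ → ZMod Q := fun κ => ∑ j : Fin m, (β.getD j 0 : ZMod Q) * d (j * n' + κ)
  let ε : ZMod Q := bif e then -1 else 1
  have key : ∀ c < m * n',
      h' c = h c + ε * ((216 : ZMod Q)⁻¹ * (α.getD (c / n') 0 : ℤ) * S (c % n')) := fun c hc => by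
    refine (hH c hc).2.2.2.trans (congrArg (h c + ε * ·) ?_)
    rw [Finset.mul_sum]
    exact Finset.sum_congr rfl fun j _ => by simp only [d]; push_cast; ring
  have dv : ∀ k κ, κ < n' → (k * n' + κ) / n' = k ∧ (k * n' + κ) % n' = κ := fun k κ hκ =>
    ⟨by rw [mul_comm, Nat.mul_add_div (by omega), Nat.div_eq_of_lt hκ, add_zero],
      Nat.mul_add_mod_of_lt hκ⟩
  let d1 : ℕ → ZMod Q := fun c => if pLo β * n' ≤ c ∧ c < pLo β * n' + n' then
    (216 : ZMod Q)⁻¹ * ((α.getD (pHi α) 0).natAbs *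
      (((β.getD (pLo β) 0).sign : ZMod Q) * S (c - pLo β * n'))) else d c
  have d1a : ∀ κ < n', d1 (pLo β * n' + κ) = (216 : ZMod Q)⁻¹ * ((α.getD (pHi α) 0).natAbs *
      (((β.getD (pLo β) 0).sign : ZMod Q) * S κ)) := fun κ hκ => by
    simp only [d1]
    rw [if_pos ⟨by omega, by omega⟩, Nat.add_sub_cancel_left]
  have d1b : ∀ c, (∀ i ∈ List.range n', c ≠ pLo β * n' + i) → d1 c = d c := fun c hc =>
    if_neg fun k => hc (c - pLo β * n') (List.mem_range.2 (by omega)) (by omega)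
  let h1 : ℕ → ZMod Q := fun c => if c < pHi α * n' then
    h c + shc Q (-1) α (c / n') * h (pHi α * n' + c % n') else h c
  let h2 : ℕ → ZMod Q := fun c => if c < pHi α * n' then h1 c else h' c
  have hm' : ∀ p ∈ List.range n' ×ˢ List.range (pHi α), p.1 < n' ∧ p.2 < pHi α := fun p hp => by
    simpa using List.mem_product.1 (show (p.1, p.2) ∈ _ from hp)
  have off : ∀ c, (∀ p ∈ List.range n' ×ˢ List.range (pHi α), c ≠ p.2 * n' + p.1) →
      ¬ c < pHi α * n' := fun c hc k => by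
    have n0 : 0 < n' := Nat.pos_of_ne_zero fun e => by simp [e] at k
    exact hc (c % n', c / n') (List.mem_product.2 ⟨List.mem_range.2 (Nat.mod_lt _ n0),
      List.mem_range.2 ((Nat.div_lt_iff_lt_mul n0).2 k)⟩) (Nat.div_add_mod' c n').symm
  have h1a : ∀ κ < n', ∀ k < pHi α, h1 (k * n' + κ) =
      h (k * n' + κ) + shc Q (-1) α k * h (pHi α * n' + κ) := fun κ hκ k hk => by
    simp only [h1]
    rw [if_pos (pos_lt hk hκ), (dv k κ hκ).1, (dv k κ hκ).2]
  have e0 : ∀ {G G' K : ℕ → ℕ}, (∀ c < m * n', G c < Q ∧ K c < Q) →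
      adU (m * n') Q Md BD o G md K lo =
        ad (m * n') Q Md BD o (fun c => G c) md (fun c => K c) lo := fun {G G' K} hG =>
    adU_congr (fun c hc => (ZMod.val_cast_of_lt (hG c hc).1).symm)
      fun c hc => (ZMod.val_cast_of_lt (hG c hc).2).symm
  rw [e0 (G' := H) fun c hc => ⟨(hH c hc).2.2.1, (hH c hc).2.1⟩,
    e0 (G' := H) fun c hc => ⟨(hH c hc).1, (hH c hc).2.1⟩]
  have sa := sg_sq (Q := Q) a2
  have sb := sg_sq (Q := Q) b2
  refine (parD r5 ho hm hl h' (d := d1) (d' := d) (fun κ hκ => ?_) fun c _ hc =>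
    (d1b c hc).symm).trans ((parH r4 ho hm hl (h := h2) (h' := h') d1 (fun p hp => ?_)
    fun c _ hc => (if_neg (off c hc)).symm).trans ((mid a1 b1 r3 ho hm hl (h := h1) (h' := h2)
    (fun κ hκ => ?_) fun c hc k => ?_).trans ((parH r2 ho hm hl (h := h) (h' := h1) d1
    (fun p hp => h1a _ (hm' p hp).1 _ (hm' p hp).2) fun c _ hc => if_neg (off c hc)).trans
    (parD r1 ho hm hl h (d := d) (d' := d1) (fun κ hκ => ?_) fun c _ hc => d1b c hc))))
  · have hκ := List.mem_range.1 hκ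
    have k := E_eq (n' := n') lb hβ κ d
    rw [d1a κ hκ, E_congr (d := d) (d' := d1) κ fun c hc => if_neg (by omega)]
    generalize ((minv Q (α.getD (pHi α) 0).natAbs : ℕ) : ZMod Q) = x at *
    generalize ((minv Q (β.getD (pLo β) 0).natAbs : ℕ) : ZMod Q) = y at *
    change _ = _ * S κ at k
    linear_combination y * k - d (pLo β * n' + κ) * ib -
      y * ((β.getD (pLo β) 0).sign * S κ) * ia -
      y * x * (α.getD (pHi α) 0).natAbs * ((β.getD (pLo β) 0).sign * S κ) * i6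
  · obtain ⟨p1, p2⟩ := hm' p hp
    have k1 := key _ (pos_lt (p2.trans a1) p1)
    have k2 := key _ (pos_lt a1 p1)
    rw [(dv _ _ p1).1, (dv _ _ p1).2] at k1 k2
    simp only [h2]
    rw [if_pos (pos_lt p2 p1), if_neg (by omega), h1a _ p1 _ p2, k1, k2, shc, shc]
    rw [abs_cast] at ia
    push_cast
    linear_combination (-(ε * (216 : ZMod Q)⁻¹ * (α.getD p.2 0 : ℤ) * S p.1)) * ia
  · have k2 := key _ (pos_lt a1 hκ)
    rw [(dv _ _ hκ).1, (dv _ _ hκ).2] at k2
    simp only [h2, h1]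
    rw [if_neg (by omega), if_neg (by omega), k2, d1a κ hκ, he, sg_xor, sg_xor, sg_dec a2, sg_dec b2,
      abs_cast]
    linear_combination (-(ε * (216 : ZMod Q)⁻¹ * (α.getD (pHi α) 0 : ℤ) * S κ)) * sa -
      ε * (216 : ZMod Q)⁻¹ * (α.getD (pHi α) 0 : ℤ) * S κ *
        ((α.getD (pHi α) 0).sign * (α.getD (pHi α) 0).sign) * sb
  · rcases k with k | k
    · exact if_pos k
    · have n0 : 0 < n' := Nat.pos_of_ne_zero fun e => by simp [e] at hc
      simp only [h2, h1]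
      rw [if_neg (by omega), if_neg (by omega), key c hc, a3 _ (Nat.lt_of_succ_le
        ((Nat.le_div_iff_mul_le n0).2 (by rw [Nat.succ_mul]; exact k)))]
      simp
  · rw [d1a κ (List.mem_range.1 hκ), E_eq lb hβ κ d]

end Vale.Agent.P338Z
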