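import Vale.Agent.P338Z.Gen.UDig

/-!
P338 power saving: rotations and scalings of one digit of an array of digits.
-/

namespace Vale.Agent.P338Z

open Vale.Agent.P338.R3.H968 Vale.Agent.P338.R3.H898
open Function (update)

namespace U1

open UD

variable {P : CPar} {n Q O W N c o w : ℕ} {L L' : List Ps}

/-- The address with the digits `d`. -/
def Az (n Q W o : ℕ) (d : ℕ → ZMod Q) (w : ℕ) : ℕ := (o * Q ^ n + vl Q n fun c => (d c).val) * W + w

/-- The part above the digit `c`. -/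
def up (n Q o c : ℕ) (d : ℕ → ZMod Q) : ℕ :=
  o * Q ^ (n - (c + 1)) + vl Q (n - (c + 1)) fun j => (d (c + 1 + j)).val

/-- The part below the digit `c`. -/
def lw (Q W c w : ℕ) (d : ℕ → ZMod Q) : ℕ := (vl Q c fun j => (d j).val) * W + w

theorem az_congr {d d' : ℕ → ZMod Q} (h : ∀ c < n, d c = d' c) :
    Az n Q W o d w = Az n Q W o d' w := by
  rw [Az, Az, vl_congr fun c hc => congrArg ZMod.val (h c hc)]

theorem pw (Q : ℕ) (h : c < n) : Q ^ n = Q ^ (n - (c + 1)) * (Q * Q ^ c) := by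
  rw [← pow_succ', ← pow_add, Nat.sub_add_cancel h]

theorem az_mid (h : c < n) (d : ℕ → ZMod Q) :
    Az n Q W o d w = (up n Q o c d * Q + (d c).val) * (W * Q ^ c) + lw Q W c w d := by
  rw [Az, vl_mid Q h, up, lw]
  conv_lhs => rw [pw Q h]
  ring

theorem n_mid (O Q W : ℕ) (h : c < n) :
    O * (Q ^ n * W) = O * Q ^ (n - (c + 1)) * (Q * (W * Q ^ c)) := by
  conv_lhs => rw [pw Q h]
  ring

theorem up_upd (d : ℕ → ZMod Q) (z : ZMod Q) : up n Q o c (update d c z) = up n Q o c d := by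
  exact congrArg (_ + ·) (vl_congr fun j _ => by rw [Function.update_of_ne (by omega)])

theorem lw_upd (d : ℕ → ZMod Q) (z : ZMod Q) : lw Q W c w (update d c z) = lw Q W c w d := by
  exact congrArg (· * W + w) (vl_congr fun j hj => by rw [Function.update_of_ne hj.ne])

variable [NeZero Q]

theorem up_lt (h : o < O) (d : ℕ → ZMod Q) : up n Q o c d < O * Q ^ (n - (c + 1)) :=
  mix_lt h (vl_lt fun _ _ => ZMod.val_lt _)

theorem lw_lt (h : w < W) (d : ℕ → ZMod Q) : lw Q W c w d < W * Q ^ c :=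
  (mix_lt (vl_lt fun _ _ => ZMod.val_lt _) h).trans_eq (mul_comm _ _)

theorem az_dig (h : c < n) (hw : w < W) (d : ℕ → ZMod Q) :
    ((fev (fl (W * Q ^ c) Q) (Az n Q W o d w) : ℕ) : ZMod Q) = d c := by
  have k := lw_lt (c := c) hw d
  rw [fev_fl, az_mid h, mul_comm _ (W * Q ^ c), Nat.mul_add_div (by omega), Nat.div_eq_of_lt k,
    add_zero, ZMod.natCast_mod]
  simp

/-- The digit `c` is replaced by `v`. -/
def Up (n Q O W c : ℕ) (v : (ℕ → ZMod Q) → ZMod Q) (F F' : ℕ → Cell) : Prop :=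
  ∀ o < O, ∀ w < W, ∀ d, F' (Az n Q W o (update d c (v d)) w) = F (Az n Q W o d w)

omit [NeZero Q] in
theorem seq {v v' v'' : (ℕ → ZMod Q) → ZMod Q} (h : Blk P L N (Up n Q O W c v))
    (h' : Blk P L' N (Up n Q O W c v')) (e : ∀ d, v' (update d c (v d)) = v'' d) :
    Blk P (L ++ L') N (Up n Q O W c v'') :=
  (h.seq h').mono fun F F'' ⟨F', h1, h2⟩ o ho w hw d => by
    rw [← h1 o ho w hw d, ← h2 o ho w hw, Function.update_idem, e]

omit [NeZero Q] in
theorem hi_of {e : Pl} (h : ∀ t ∈ e, ∀ f ∈ t.2, ∃ j, c < j ∧ f = fl (W * Q ^ j) Q) {u u' : ℕ}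
    (k : u / (Q * (W * Q ^ c)) = u' / (Q * (W * Q ^ c))) : pev e u = pev e u' := by
  refine congrArg List.sum (List.map_congr_left fun t ht => congrArg (_ * List.prod ·)
    (List.map_congr_left fun f hf => ?_))
  obtain ⟨j, hj, rfl⟩ := h t ht f hf
  have e : W * Q ^ j = Q * (W * Q ^ c) * Q ^ (j - (c + 1)) := by
    conv_lhs => rw [pw Q hj]
    ring
  rw [fev_fl, fev_fl, e, ← Nat.div_div_eq_div_mul, k, Nat.div_div_eq_div_mul]

theorem rotU (hR : ROT) (hN : N = O * (Q ^ n * W)) (hW : 0 < W) (h : c < n) {e : Pl}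
    (he : ∀ t ∈ e, ∀ f ∈ t.2, ∃ j, c < j ∧ f = fl (W * Q ^ j) Q) {v : (ℕ → ZMod Q) → ZMod Q}
    (hv : ∀ o, ∀ w < W, ∀ d, ((pev e (Az n Q W o d w) : ℕ) : ZMod Q) = v d) :
    Blk P (rotL N (W * Q ^ c) Q e fz) N (Up n Q O W c fun d => d c + v d) := by
  have hQ := NeZero.pos Q
  have hB : 0 < W * Q ^ c := by positivity
  have k : ∀ o, ∀ x < Q, ∀ i < W * Q ^ c, pev e ((o * Q + x) * (W * Q ^ c) + i) =
      pev e (o * (Q * (W * Q ^ c))) := fun o x hx i hi => hi_of he (by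
    rw [add_mul, mul_assoc, add_assoc, mul_comm o, Nat.mul_add_div (by positivity),
      Nat.div_eq_of_lt (mix_lt hx hi), add_zero, Nat.mul_div_cancel_left _ (by positivity)])
  rw [hN, n_mid O Q W h]
  refine (hR P _ Q _ e fz (fun o _ => pev e (o * (Q * (W * Q ^ c)))) (fun _ _ => 0) hQ hB
    (fun o _ x hx i hi => ⟨by rw [k o x hx i hi], Nat.mod_one _, two_pos⟩)
    fun _ _ _ _ _ _ _ => rfl).mono fun F F' hF o ho w hw d => ?_
  rw [az_mid h, az_mid h d, up_upd, lw_upd, Function.update_self,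
    ← hF _ (up_lt ho d) _ (ZMod.val_lt _) _ (lw_lt hw d),
    ← k _ _ (ZMod.val_lt (d c)) _ (lw_lt hw d), ← az_mid h, ← ZMod.val_natCast, Nat.cast_add, hv o w hw,
    ZMod.natCast_zmod_val]

theorem sclU (hS : SCL) (hN : N = O * (Q ^ n * W)) (hW : 0 < W) (h : c < n) {p : ℕ} (hp : 0 < p)
    (hQ : Q ≡ 1 [MOD p]) : Blk P (sclL N (W * Q ^ c) Q p) N (Up n Q O W c fun d => p * d c) := by
  rw [hN, n_mid O Q W h]
  refine (hS P _ Q _ p (NeZero.pos Q) (Nat.mul_pos hW (Nat.pow_pos (NeZero.pos Q))) hp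
    hQ).1.mono fun F F' hF o ho w hw d => ?_
  rw [az_mid h, az_mid h d, up_upd, lw_upd, Function.update_self,
    ← hF _ (up_lt ho d) _ (ZMod.val_lt _) _ (lw_lt hw d), ← ZMod.val_natCast, Nat.cast_mul,
    ZMod.natCast_zmod_val]

theorem usclU (hS : SCL) (hN : N = O * (Q ^ n * W)) (hW : 0 < W) (h : c < n) {p : ℕ} (hp : 0 < p)
    (hQ : Q ≡ 1 [MOD p]) {q : ZMod Q} (hq : p * q = 1) :
    Blk P (uscL N (W * Q ^ c) Q p) N (Up n Q O W c fun d => q * d c) := by
  rw [hN, n_mid O Q W h]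
  refine (hS P _ Q _ p (NeZero.pos Q) (Nat.mul_pos hW (Nat.pow_pos (NeZero.pos Q))) hp
    hQ).2.mono fun F F' hF o ho w hw d => ?_
  rw [az_mid h, az_mid h d, up_upd, lw_upd, Function.update_self,
    hF _ (up_lt ho d) _ (ZMod.val_lt _) _ (lw_lt hw d), ← ZMod.val_natCast, Nat.cast_mul,
    ZMod.natCast_zmod_val]
  beta_reduce
  rw [← mul_assoc (p : ZMod Q), hq, one_mul]

/-- The digits `pos i` are replaced by `val i`. -/
def Par (n Q O W : ℕ) {ι : Type} (l : List ι) (pos : ι → ℕ) (val : ι → (ℕ → ZMod Q) → ZMod Q)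
    (F F' : ℕ → Cell) : Prop :=
  ∀ o < O, ∀ w < W, ∀ d d' : ℕ → ZMod Q, (∀ i ∈ l, d' (pos i) = val i d) →
    (∀ c < n, (∀ i ∈ l, c ≠ pos i) → d' c = d c) → F' (Az n Q W o d' w) = F (Az n Q W o d w)

omit [NeZero Q] in
theorem par {ι : Type} (l : List ι) (f : ι → List Ps) (pos : ι → ℕ)
    (val : ι → (ℕ → ZMod Q) → ZMod Q) (h : ∀ i ∈ l, Blk P (f i) N (Up n Q O W (pos i) (val i)))
    (hl : l.Pairwise fun i j => pos i ≠ pos j ∧ ∀ d z, val j (update d (pos i) z) = val j d) :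
    Blk P (l.flatMap f) N (Par n Q O W l pos val) := by
  induction l with
  | nil =>
    exact (Blk.nil P N).mono fun F F' e o _ w _ d d' _ h2 => by
      rw [e, az_congr fun c hc => h2 c hc fun _ hi => absurd hi List.not_mem_nil]
  | cons i l ih =>
    obtain ⟨k1, k2⟩ := List.pairwise_cons.1 hl
    rw [List.flatMap_cons]
    refine ((h i List.mem_cons_self).seq (ih (fun j hj => h j (List.mem_cons_of_mem _ hj))
      k2)).mono fun F F'' ⟨F', h1, h2⟩ o ho w hw d d' h3 h4 => ?_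
    rw [← h1 o ho w hw d]
    refine h2 o ho w hw _ d' (fun j hj => ?_) fun c hc h5 => ?_
    · rw [(k1 j hj).2, h3 j (List.mem_cons_of_mem _ hj)]
    · rcases eq_or_ne c (pos i) with rfl | hi
      · rw [Function.update_self, h3 i List.mem_cons_self]
      · rw [Function.update_of_ne hi]
        exact h4 c hc fun j hj => (List.mem_cons.1 hj).elim (fun e => e ▸ hi) (h5 j)

omit [NeZero Q] in
theorem minv_mul {p : ℕ} (hp : 0 < p) (hQ : Q ≡ 1 [MOD p]) : (p : ZMod Q) * (minv Q p : ℕ) = 1 := by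
  have k : p ∣ Q * (p - 1) + 1 := by
    have k1 := (hQ.mul_right (p - 1)).add_right 1
    rw [one_mul, Nat.sub_add_cancel hp] at k1
    exact (k1.dvd_iff dvd_rfl).2 dvd_rfl
  rw [← Nat.cast_mul, minv, Nat.mul_div_cancel' k]
  simp

theorem zc_cast (z : ℤ) : ((zc Q z : ℕ) : ZMod Q) = z := by
  rw [← Int.cast_natCast, zc, Int.toNat_of_nonneg (Int.emod_nonneg _ (by
    exact_mod_cast NeZero.ne Q)), ZMod.intCast_mod]

theorem pev_psm (a : ℕ) (e : Pl) (u : ℕ) : pev (psm a e) u = a * pev e u := by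
  simp only [pev, psm, List.map_map, ← List.sum_map_mul_left, Function.comp_def, mul_assoc]

theorem pred_cast : ((Q - 1 : ℕ) : ZMod Q) = -1 := by
  rw [Nat.cast_sub (NeZero.pos Q)]
  simp

end U1

end Vale.Agent.P338Z
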