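import Vale.Agent.P338Z.Gen.Defs

/-!
P338 power saving: one call of the routing network (statement), and lemmas on digits.
-/

namespace Vale.Agent.P338Z

open Vale.Agent.P338.R3.H968 Vale.Agent.P338.R3.H898

/-- **One call of the routing network.** -/
def UCALL (ν : Nets) : Prop := ∀ (P : CPar) (n' O Md BD Q N O' Md' BD' : ℕ) (e e' : Bool)
  (α β : List ℤ) (Lr : List Ps), Q ≡ 1 [MOD ν.Δ] → 1 < Q → 0 < Md → 0 < BD →
  α.length = ν.m → β.length = ν.m → (∃ x ∈ α, x ≠ 0) → (∃ x ∈ β, x ≠ 0) →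
  (∀ x ∈ α ++ β, x ≠ 0 → x.natAbs ∣ ν.Δ) →
  N = O * (Q ^ (ν.m * n') * (Md * (Q ^ (ν.m * n') * BD))) →
  O' = O * Q ^ (ν.m * n' - (pHi α + 1) * n') →
  Md' = Q ^ (pHi α * n') * Md * Q ^ (ν.m * n' - (pLo β + 1) * n') →
  BD' = BD * Q ^ (pLo β * n') →
  e' = xor e (xor (decide (α.getD (pHi α) 0 < 0)) (decide (β.getD (pLo β) 0 < 0))) →
  Blk P Lr N (Shr n' Q O' Md' BD' fun D c => (bif e' then -1 else 1) * (D c : ZMod Q)) →
  Blk P ((dPre α β N BD Q n' ++ hShr (-1) α N (Md * (Q ^ (ν.m * n') * BD)) Q n') ++ (Lr ++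
      (hShr 1 α N (Md * (Q ^ (ν.m * n') * BD)) Q n' ++ dPost α β N BD Q n'))) N
    (Shr (ν.m * n') Q O Md BD fun D c => (bif e then -1 else 1) * ∑ b : Fin ν.m,
      (216 : ZMod Q)⁻¹ * ((α.getD (c / n') 0 * β.getD b 0 : ℤ) : ZMod Q) *
        (D (b * n' + c % n') : ZMod Q))

namespace UD

theorem vl_zero (Q : ℕ) (H : ℕ → ℕ) : vl Q 0 H = 0 := rfl

theorem vl_succ (Q n : ℕ) (H : ℕ → ℕ) : vl Q (n + 1) H = vl Q n H + H n * Q ^ n :=
  Finset.sum_range_succ _ _

theorem vl_add (Q s t : ℕ) (H : ℕ → ℕ) :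
    vl Q (s + t) H = vl Q s H + Q ^ s * vl Q t fun j => H (s + j) := by
  rw [vl, Finset.sum_range_add, vl, vl, Finset.mul_sum]
  exact congrArg _ (Finset.sum_congr rfl fun j _ => by ring)

theorem vl_congr {Q n : ℕ} {H H' : ℕ → ℕ} (h : ∀ c < n, H c = H' c) : vl Q n H = vl Q n H' :=
  Finset.sum_congr rfl fun c hc => by rw [h c (Finset.mem_range.1 hc)]

theorem mix_lt {o O w W : ℕ} (h : o < O) (h' : w < W) : o * W + w < O * W := by
  nlinarith

theorem vl_lt {Q n : ℕ} {H : ℕ → ℕ} (h : ∀ c < n, H c < Q) : vl Q n H < Q ^ n := by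
  induction n with
  | zero => simp [vl]
  | succ n ih =>
    rw [vl_succ, add_comm, pow_succ']
    exact mix_lt (h n n.lt_succ_self) (ih fun c hc => h c (hc.trans n.lt_succ_self))

/-- The digit `c` in the middle. -/
theorem vl_mid (Q : ℕ) {n c : ℕ} (h : c < n) (H : ℕ → ℕ) :
    vl Q n H = (vl Q (n - (c + 1)) (fun j => H (c + 1 + j)) * Q + H c) * Q ^ c + vl Q c H := by
  obtain ⟨r, rfl⟩ := Nat.exists_eq_add_of_le (Nat.succ_le_of_lt h)
  rw [Nat.succ_eq_add_one, Nat.add_sub_cancel_left, vl_add, vl_succ]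
  ring

theorem adU_congr {n Q Md BD o md lo : ℕ} {H H' D D' : ℕ → ℕ} (h : ∀ c < n, H c = H' c)
    (h' : ∀ c < n, D c = D' c) : adU n Q Md BD o H md D lo = adU n Q Md BD o H' md D' lo := by
  rw [adU, adU, vl_congr h, vl_congr h']

theorem adU_lt {n Q O Md BD o md lo : ℕ} {H D : ℕ → ℕ} (ho : o < O) (hm : md < Md) (hl : lo < BD)
    (h : ∀ c < n, H c < Q) (h' : ∀ c < n, D c < Q) :
    adU n Q Md BD o H md D lo < O * (Q ^ n * (Md * (Q ^ n * BD))) := by
  have k := mix_lt (mix_lt ho (vl_lt h)) (mix_lt (mix_lt hm (vl_lt h')) hl)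
  rwa [mul_assoc Md, mul_assoc O] at k

theorem last_spec (p : ℕ → Bool) (n : ℕ) (h : ∃ k < n, p k = true) :
    ((List.range n).filter p).getLastD 0 < n ∧ p (((List.range n).filter p).getLastD 0) = true ∧
      ∀ k < n, p k = true → k ≤ ((List.range n).filter p).getLastD 0 := by
  induction n with
  | zero => simp at h
  | succ n ih =>
    rw [List.range_succ, List.filter_append]
    by_cases hn : p n = true
    · rw [List.filter_cons_of_pos hn, List.filter_nil, List.getLastD_concat]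
      exact ⟨n.lt_succ_self, hn, fun k hk _ => Nat.le_of_lt_succ hk⟩
    · rw [List.filter_cons_of_neg hn, List.filter_nil, List.append_nil]
      have lt : ∀ k < n + 1, p k = true → k < n := fun k hk hp =>
        lt_of_le_of_ne (Nat.le_of_lt_succ hk) fun e => hn (e ▸ hp)
      obtain ⟨k, hk, hp⟩ := h
      obtain ⟨h1, h2, h3⟩ := ih ⟨k, lt k hk hp, hp⟩
      exact ⟨h1.trans n.lt_succ_self, h2, fun k hk hp => h3 k (lt k hk hp) hp⟩

theorem head_spec (p : ℕ → Bool) (n : ℕ) (h : ∃ k < n, p k = true) :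
    ((List.range n).filter p).headD 0 < n ∧ p (((List.range n).filter p).headD 0) = true ∧
      ∀ k < n, p k = true → ((List.range n).filter p).headD 0 ≤ k := by
  have hs : ((List.range n).filter p).Pairwise (· < ·) := List.pairwise_lt_range.filter p
  have hm : ∀ k, k ∈ (List.range n).filter p ↔ k < n ∧ p k = true := fun k => by simp
  generalize (List.range n).filter p = l at hs hm
  obtain ⟨k, hk⟩ := h
  cases l with
  | nil => exact absurd ((hm k).2 hk) List.not_mem_nil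
  | cons a l =>
    have ha := (hm a).1 List.mem_cons_self
    refine ⟨ha.1, ha.2, fun k hk hp => ?_⟩
    rcases List.mem_cons.1 ((hm k).2 ⟨hk, hp⟩) with e | e
    · exact e.ge
    · exact (List.rel_of_pairwise_cons hs e).le

theorem ex_ne {α : List ℤ} (h : ∃ x ∈ α, x ≠ 0) : ∃ k < α.length, (α.getD k 0 != 0) = true := by
  obtain ⟨x, hx, h0⟩ := h
  obtain ⟨k, hk, rfl⟩ := List.getElem_of_mem hx
  exact ⟨k, hk, by rw [List.getD_eq_getElem _ _ hk]; exact bne_iff_ne.2 h0⟩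

theorem pHi_spec {α : List ℤ} (h : ∃ x ∈ α, x ≠ 0) : pHi α < α.length ∧ α.getD (pHi α) 0 ≠ 0 ∧
    ∀ k, pHi α < k → α.getD k 0 = 0 := by
  obtain ⟨h1, h2, h3⟩ := last_spec _ _ (ex_ne h)
  refine ⟨h1, bne_iff_ne.1 h2, fun k hk => ?_⟩
  by_contra h0
  rcases lt_or_ge k α.length with hl | hl
  · exact absurd (h3 k hl (bne_iff_ne.2 h0)) (not_le.2 hk)
  · exact h0 (List.getD_eq_default _ _ hl)

theorem pLo_spec {β : List ℤ} (h : ∃ x ∈ β, x ≠ 0) : pLo β < β.length ∧ β.getD (pLo β) 0 ≠ 0 ∧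
    ∀ k, k < pLo β → β.getD k 0 = 0 := by
  obtain ⟨h1, h2, h3⟩ := head_spec _ _ (ex_ne h)
  refine ⟨h1, bne_iff_ne.1 h2, fun k hk => ?_⟩
  by_contra h0
  exact absurd (h3 k (hk.trans h1) (bne_iff_ne.2 h0)) (not_le.2 hk)

theorem pow_split (Q n' : ℕ) {m a : ℕ} (h : a < m) :
    Q ^ (m * n') = Q ^ (a * n') * (Q ^ n' * Q ^ (m * n' - (a + 1) * n')) := by
  have k : (a + 1) * n' ≤ m * n' := Nat.mul_le_mul_right _ h
  rw [← pow_add, ← pow_add, ← add_assoc, ← add_one_mul, Nat.add_sub_cancel' k]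

/-- The weight of `H 0` in a call. -/
theorem call_BH (Q n' Md BD : ℕ) {m b : ℕ} (a : ℕ) (h : b < m) :
    Md * (Q ^ (m * n') * BD) * Q ^ (a * n') =
      Q ^ (a * n') * Md * Q ^ (m * n' - (b + 1) * n') * (Q ^ n' * (BD * Q ^ (b * n'))) := by
  conv_lhs => rw [pow_split Q n' h]
  ring

/-- The size of the block in a call. -/
theorem call_N (Q n' O Md BD : ℕ) {m a b : ℕ} (ha : a < m) (h : b < m) :
    O * (Q ^ (m * n') * (Md * (Q ^ (m * n') * BD))) = O * Q ^ (m * n' - (a + 1) * n') * (Q ^ n' *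
      (Q ^ (a * n') * Md * Q ^ (m * n' - (b + 1) * n') * (Q ^ n' * (BD * Q ^ (b * n'))))) := by
  rw [← call_BH Q n' Md BD a h]
  generalize Md * (Q ^ (m * n') * BD) = X
  conv_lhs => rw [pow_split Q n' ha]
  ring

end UD

end Vale.Agent.P338Z
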