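import Vale.Agent.P338Z.Gen.UshB
import Vale.Agent.P338Z.Gen.UDig

/-!
P338 power saving: the shear from the routing network.
-/

namespace Vale.Agent.P338Z

open Vale.Agent.P338.R3.H968 Vale.Agent.P338.R3.H898
open Vale.Agent.P338.R3.H313

namespace Ush

theorem gen_succ (ν : Nets) (i : ℕ) (c : UC) : genU ν (i + 1) c =
    ν.qp.flatMap fun x => (insU ν c x).flatMap fun y => y.1.elim y.2 (genU ν i) := by
  unfold genU
  rw [tree, List.flatMap_assoc]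

theorem ins_gate (ν : Nets) (c : UC) (x : QI) (f : UC → List Ps) (h : x.1 = true) :
    ((insU ν c x).flatMap fun y => y.1.elim y.2 f) = accL 2 c.2.1 (c.2.1 / 2 ^ ν.r)
      (selW (c.2.1 / 2 ^ ν.r) x.2.2.1) (selW (c.2.1 / 2 ^ ν.r) x.2.1) := by
  simp [insU, h]

theorem ins_call (ν : Nets) (c : UC) (x : QI) (f : UC → List Ps) (h : x.1 = false) :
    ((insU ν c x).flatMap fun y => y.1.elim y.2 f) = subL (x.2.1 * (c.2.1 / 2 ^ ν.r))
      ((dPre x.2.2.2.1 x.2.2.2.2 (c.2.1 / 2 ^ ν.r) c.2.2.2.1 c.2.2.2.2.1 (c.2.2.2.2.2.v / ν.m) ++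
        hShr (-1) x.2.2.2.1 (c.2.1 / 2 ^ ν.r) c.2.2.1 c.2.2.2.2.1 (c.2.2.2.2.2.v / ν.m)) ++
      (f (callU ν c x.2.2.2.1 x.2.2.2.2) ++
        (hShr 1 x.2.2.2.1 (c.2.1 / 2 ^ ν.r) c.2.2.1 c.2.2.2.2.1 (c.2.2.2.2.2.v / ν.m) ++
        dPost x.2.2.2.1 x.2.2.2.2 (c.2.1 / 2 ^ ν.r) c.2.2.2.1 c.2.2.2.2.1
          (c.2.2.2.2.2.v / ν.m)))) := by
  simp [insU, h, subL]

/-- One level of the recursion. -/
theorem step {ν : Nets} (ha : ACC) (hs : SUB) (hc : UCALL ν) (h : ν.Ok) (P : CPar) (i n : ℕ)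
    (ε : Bool) (O Md BD Q N : ℕ) (hq : Q ≡ 1 [MOD ν.Δ]) (hQ : 1 < Q) (hM : 0 < Md) (hB : 0 < BD)
    (hN : N = O * (Q ^ (ν.m * n) * (Md * (Q ^ (ν.m * n) * BD))))
    (ih : ∀ (e : Bool) (k Md' BD' : ℕ), 0 < Md' → 0 < BD' →
      Blk P (genU ν i (e, O * k * (Q ^ n * (Md' * (Q ^ n * BD'))), Md' * (Q ^ n * BD'), BD', Q,
        ⟨n⟩)) (O * k * (Q ^ n * (Md' * (Q ^ n * BD'))))
        (Shr n Q (O * k) Md' BD' fun D c => (bif e then -1 else 1) * (D c : ZMod Q))) :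
    Blk P (genU ν (i + 1) (ε, 2 ^ ν.r * N, Md * (Q ^ (ν.m * n) * BD), BD, Q, ⟨ν.m * n⟩))
      (2 ^ ν.r * N)
      (Shr (ν.m * n) Q (2 ^ ν.r * O) Md BD fun D c => (bif ε then -1 else 1) * (D c : ZMod Q)) := by
  have : NeZero Q := ⟨by omega⟩
  have hQ0 : 0 < Q := by omega
  have e1 : 2 ^ ν.r * N / 2 ^ ν.r = N := Nat.mul_div_cancel_left N (Nat.two_pow_pos _)
  have e2 : ν.m * n / ν.m = n := Nat.mul_div_cancel_left n h.mpos
  rw [gen_succ]
  have h1 := Blk.chain (P := P) (N := 2 ^ ν.r * N)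
    (fun x => (insU ν (ε, 2 ^ ν.r * N, Md * (Q ^ (ν.m * n) * BD), BD, Q, ⟨ν.m * n⟩) x).flatMap
      fun y => y.1.elim y.2 (genU ν i))
    (fun x F F' => ∀ w < 2 ^ ν.r, wire P (ν.m * n) Q O Md BD F' w =
      qrun ν.m Q (fr ν.m n O Md BD (bif ε then -1 else 1)) (wire P (ν.m * n) Q O Md BD F) x w)
    ν.qp
    (fun x hx => by
      have hw := h.q.wire x hx
      cases e : x.1
      · obtain ⟨l1, l2, l3, l4, l5⟩ := h.q.lab x hx e
        have a1 : pHi x.2.2.2.1 < ν.m := l1 ▸ (UD.pHi_spec l3).1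
        have a2 : pLo x.2.2.2.2 < ν.m := l2 ▸ (UD.pLo_spec l4).1
        rw [ins_call _ _ _ _ e]
        simp only [callU, e1, e2, qrun, e, Bool.false_eq_true, if_false]
        refine call hs P ν.m n Q O Md BD (2 ^ ν.r) N x.2.1 _ _ _ _ hN hw.1
          (hc P n O Md BD Q N _ _ _ ε _ _ _ _ hq hQ hM hB l1 l2 l3 l4 l5 hN rfl rfl rfl rfl ?_)
        rw [hN, UD.call_N Q n O Md BD a1 a2, UD.call_BH Q n Md BD _ a2]
        exact ih _ _ _ _ (by positivity) (by positivity)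
      · rw [ins_gate _ _ _ _ e]
        simp only [e1, qrun, e, if_true]
        exact gate ha P (ν.m * n) Q O Md BD (2 ^ ν.r) N _ _ hN hw.1 (hw.2 e).1)
    (fun l F F' => ∀ w < 2 ^ ν.r, wire P (ν.m * n) Q O Md BD F' w =
      l.foldl (qrun ν.m Q (fr ν.m n O Md BD (bif ε then -1 else 1)))
        (wire P (ν.m * n) Q O Md BD F) w)
    (fun _ _ _ => rfl)
    (fun l x l' e F F' F'' h2 h3 w hw => by
      have hx := h.q.wire x (by simp [e])
      rw [List.foldl_append, List.foldl_cons, List.foldl_nil, h3 w hw]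
      exact qrun_congr _ h2 x ⟨hx.1, fun e' => (hx.2 e').1⟩ hw)
  refine h1.ceq fun F F' h2 => ?_
  obtain ⟨F'', h3, h4⟩ := shr_of_ceq (P := P) (F := F) (F' := F') (bif ε then -1 else 1 : ZMod Q)
    (full (m := ν.m) (n := n) (O := O) (Md := Md) (BD := BD) (T := 2 ^ ν.r) _ fun w hw => by
      rw [h2 w hw]
      exact h.q.sem Q hq _ two_zero _ (fr_zero _ _ _ _ _ _) (fr_add _ _ _ _ _ _) _ w hw)
  exact ⟨F'', fun u _ => h3 u, h4⟩

end Ush

/-- **The shear** from the rotations, the gates and the calls of the routing network. -/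
theorem ush_of {ν : Nets} (hr : ROT) (ha : ACC) (hs : SUB) (hc : UCALL ν) (h : ν.Ok) : USH ν := by
  intro P i
  induction i with
  | zero =>
    intro ε O Md BD Q _ hQ hM hB
    simp only [pow_zero, pow_one, mul_zero, one_mul]
    exact Ush.base hr P ε O Md BD Q _ hQ hM hB
  | succ i ih =>
    intro ε O Md BD Q hq hQ hM hB
    have e1 : 2 ^ (ν.r * (i + 1)) * O = 2 ^ ν.r * (2 ^ (ν.r * i) * O) := by ring
    rw [e1, pow_succ' ν.m i, mul_assoc (2 ^ ν.r)]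
    refine Ush.step ha hs hc h P i _ ε _ Md BD Q _ hq hQ hM hB rfl fun e k Md' BD' h1 h2 => ?_
    rw [mul_assoc (2 ^ (ν.r * i)) O k]
    exact ih e (O * k) Md' BD' Q hq hQ h1 h2

end Vale.Agent.P338Z
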