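import Vale.Agent.P338Z.Gen.Defs

/-!
P338 power saving: the shear from the routing network, part A (addresses, bits, one pair).
-/

namespace Vale.Agent.P338Z.Ush

open Vale.Agent.P338.R3.H968 Vale.Agent.P338.R3.H898
open Vale.Agent.P338.R3.H313

/-! ### Addresses -/

theorem mix_lt {a A x B : ℕ} (ha : a < A) (hx : x < B) : a * B + x < A * B :=
  calc a * B + x < a * B + B := Nat.add_lt_add_left hx _
    _ = (a + 1) * B := by ring
    _ ≤ A * B := Nat.mul_le_mul_right B ha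

theorem mix_inj {a a' x x' B : ℕ} (hx : x < B) (hx' : x' < B) (h : a * B + x = a' * B + x') :
    a = a' ∧ x = x' := by
  have h1 : (a * B + x) % B = (a' * B + x') % B := by rw [h]
  rw [Nat.mul_add_mod_self_right, Nat.mul_add_mod_self_right, Nat.mod_eq_of_lt hx,
    Nat.mod_eq_of_lt hx'] at h1
  subst h1
  exact ⟨Nat.eq_of_mul_eq_mul_right (by omega) (Nat.add_right_cancel h), rfl⟩

theorem vl_succ (Q n : ℕ) (H : ℕ → ℕ) : vl Q (n + 1) H = H n * Q ^ n + vl Q n H := by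
  unfold vl
  rw [Finset.sum_range_succ, add_comm]

theorem vl_lt {Q : ℕ} {H : ℕ → ℕ} : ∀ {n : ℕ}, (∀ c < n, H c < Q) → vl Q n H < Q ^ n
  | 0, _ => by simp [vl]
  | n + 1, h => by
    rw [vl_succ, pow_succ']
    exact mix_lt (h n (Nat.lt_succ_self n)) (vl_lt fun c hc => h c (Nat.lt_succ_of_lt hc))

theorem vl_inj {Q : ℕ} {H H' : ℕ → ℕ} : ∀ {n : ℕ}, (∀ c < n, H c < Q) → (∀ c < n, H' c < Q) →
    vl Q n H = vl Q n H' → ∀ c < n, H c = H' c
  | 0, _, _, _ => fun c hc => absurd hc (Nat.not_lt_zero c)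
  | n + 1, h, h', e => by
    have h1 : ∀ c < n, H c < Q := fun c hc => h c (Nat.lt_succ_of_lt hc)
    have h2 : ∀ c < n, H' c < Q := fun c hc => h' c (Nat.lt_succ_of_lt hc)
    rw [vl_succ, vl_succ] at e
    obtain ⟨e1, e2⟩ := mix_inj (vl_lt h1) (vl_lt h2) e
    intro c hc
    rcases Nat.lt_succ_iff_lt_or_eq.1 hc with hc | rfl
    · exact vl_inj h1 h2 e2 c hc
    · exact e1

theorem vl_congr {Q n : ℕ} {H H' : ℕ → ℕ} (h : ∀ c < n, H c = H' c) : vl Q n H = vl Q n H' :=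
  Finset.sum_congr rfl fun c hc => by rw [h c (Finset.mem_range.1 hc)]

theorem low_lt {n Q Md BD md lo : ℕ} {D : ℕ → ℕ} (hm : md < Md) (hl : lo < BD)
    (hD : ∀ c < n, D c < Q) : (md * Q ^ n + vl Q n D) * BD + lo < Md * (Q ^ n * BD) := by
  rw [← mul_assoc]
  exact mix_lt (mix_lt hm (vl_lt hD)) hl

theorem ad_lt {n Q O Md BD o md lo : ℕ} {H D : ℕ → ℕ} (ho : o < O) (hm : md < Md) (hl : lo < BD)
    (hH : ∀ c < n, H c < Q) (hD : ∀ c < n, D c < Q) :
    adU n Q Md BD o H md D lo < O * (Q ^ n * (Md * (Q ^ n * BD))) := by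
  rw [← mul_assoc]
  exact mix_lt (mix_lt ho (vl_lt hH)) (low_lt hm hl hD)

theorem ad_split (n Q O Md BD w o md lo : ℕ) (H D : ℕ → ℕ) :
    adU n Q Md BD (w * O + o) H md D lo =
      w * (O * (Q ^ n * (Md * (Q ^ n * BD)))) + adU n Q Md BD o H md D lo := by
  unfold adU
  ring

/-- The pairs (target, source) of a shear. -/
def Src (n Q O Md BD : ℕ) (g : (ℕ → ℕ) → ℕ → ZMod Q) (u v : ℕ) : Prop :=
  ∃ o < O, ∃ md < Md, ∃ lo < BD, ∃ H D H' : ℕ → ℕ,
    (∀ c < n, H c < Q ∧ D c < Q ∧ H' c < Q ∧ (H' c : ZMod Q) = H c + g D c) ∧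
    u = adU n Q Md BD o H' md D lo ∧ v = adU n Q Md BD o H md D lo

theorem src_fun {n Q O Md BD : ℕ} (s : ZMod Q) {u v v' : ℕ}
    (h : Src n Q O Md BD (fun D c => s * (D c : ZMod Q)) u v)
    (h' : Src n Q O Md BD (fun D c => s * (D c : ZMod Q)) u v') : v = v' := by
  obtain ⟨o, _, md, hm, lo, hl, H, D, G, hc, rfl, rfl⟩ := h
  obtain ⟨o', _, md', hm', lo', hl', H', D', G', hc', e, rfl⟩ := h'
  have hD : ∀ c < n, D c < Q := fun c h => (hc c h).2.1
  have hD' : ∀ c < n, D' c < Q := fun c h => (hc' c h).2.1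
  have hG : ∀ c < n, G c < Q := fun c h => (hc c h).2.2.1
  have hG' : ∀ c < n, G' c < Q := fun c h => (hc' c h).2.2.1
  obtain ⟨e1, e2⟩ := mix_inj (low_lt hm hl hD) (low_lt hm' hl' hD') e
  obtain ⟨e3, e4⟩ := mix_inj (vl_lt hG) (vl_lt hG') e1
  obtain ⟨e5, -⟩ := mix_inj hl hl' e2
  obtain ⟨-, e6⟩ := mix_inj (vl_lt hD) (vl_lt hD') e5
  have e7 : ∀ c < n, H c = H' c := fun c h => by
    have h1 := (hc c h).2.2.2
    have h2 := (hc' c h).2.2.2
    rw [vl_inj hG hG' e4 c h, h2] at h1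
    simp only [vl_inj hD hD' e6 c h, add_left_inj] at h1
    have h3 := (ZMod.natCast_eq_natCast_iff' _ _ _).1 h1
    rw [Nat.mod_eq_of_lt (hc c h).1, Nat.mod_eq_of_lt (hc' c h).1] at h3
    exact h3.symm
  unfold adU
  rw [e2, e3, vl_congr e7]

/-- A shear up to equal bits is a shear. -/
theorem shr_of_ceq {P : CPar} {n Q O Md BD : ℕ} (s : ZMod Q) {F F' : ℕ → Cell}
    (h : ∀ u v, Src n Q O Md BD (fun D c => s * (D c : ZMod Q)) u v → CEq P (F' u) (F v)) :
    ∃ F'', (∀ u, CEq P (F' u) (F'' u)) ∧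
      Shr n Q O Md BD (fun D c => s * (D c : ZMod Q)) F F'' := by
  classical
  refine ⟨fun u => if e : ∃ v, Src n Q O Md BD (fun D c => s * (D c : ZMod Q)) u v
    then F e.choose else F' u, fun u => ?_, fun o ho md hm lo hl H D H' hc => ?_⟩
  · beta_reduce
    split_ifs with e
    · exact h u _ e.choose_spec
    · exact CEq.refl P _
  · have h1 : Src n Q O Md BD (fun D c => s * (D c : ZMod Q)) (adU n Q Md BD o H' md D lo)
        (adU n Q Md BD o H md D lo) := ⟨o, ho, md, hm, lo, hl, H, D, H', hc, rfl, rfl⟩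
    have e : ∃ v, Src n Q O Md BD (fun D c => s * (D c : ZMod Q)) (adU n Q Md BD o H' md D lo) v :=
      ⟨_, h1⟩
    show (if e : ∃ v, Src n Q O Md BD (fun D c => s * (D c : ZMod Q))
      (adU n Q Md BD o H' md D lo) v then F e.choose else _) = _
    rw [dif_pos e, src_fun s e.choose_spec h1]

/-! ### Bits -/

/-- The bits of a cell. -/
def bits (P : CPar) (x : Cell) (j t : ℕ) : ZMod 2 :=
  if (x j % 2 ^ P.b).toNat.testBit t then 1 else 0

theorem toNat_lt (b : ℕ) (z : ℤ) : (z % 2 ^ b).toNat < 2 ^ b := by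
  have h1 : (0 : ℤ) < 2 ^ b := by positivity
  have h2 := Int.emod_lt_of_pos z h1
  have h3 := Int.emod_nonneg z h1.ne'
  zify
  rwa [Int.toNat_of_nonneg h3]

theorem bits_xor (P : CPar) (x y : Cell) : bits P (cXor P x y) = bits P x + bits P y := by
  funext j t
  have h1 : (x j % 2 ^ P.b).toNat ^^^ (y j % 2 ^ P.b).toNat < 2 ^ P.b :=
    Nat.xor_lt_two_pow (toNat_lt _ _) (toNat_lt _ _)
  have h2 : (cXor P x y j % 2 ^ P.b).toNat = (x j % 2 ^ P.b).toNat ^^^ (y j % 2 ^ P.b).toNat := by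
    unfold cXor
    rw [Int.emod_eq_of_lt (Int.natCast_nonneg _) (by exact_mod_cast h1), Int.toNat_natCast]
  simp only [Pi.add_apply, bits, h2, Nat.testBit_xor]
  cases (x j % 2 ^ P.b).toNat.testBit t <;> cases (y j % 2 ^ P.b).toNat.testBit t <;> decide

theorem ceq_of_bits {P : CPar} {x y : Cell} (h : bits P x = bits P y) : CEq P x y := by
  intro j _
  have h1 : (0 : ℤ) < 2 ^ P.b := by positivity
  have h2 : (x j % 2 ^ P.b).toNat = (y j % 2 ^ P.b).toNat := by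
    refine Nat.eq_of_testBit_eq fun t => ?_
    have h3 := congrFun (congrFun h j) t
    unfold bits at h3
    revert h3
    cases (x j % 2 ^ P.b).toNat.testBit t <;> cases (y j % 2 ^ P.b).toNat.testBit t <;> decide
  have h4 := congrArg (fun k : ℕ => (k : ℤ)) h2
  simp only [Int.toNat_of_nonneg (Int.emod_nonneg _ h1.ne')] at h4
  exact h4

/-! ### One pair -/

theorem sum_bits (σ d k : ℕ) :
    ((List.range k).map fun t => σ * 2 ^ t * (d / 2 ^ t % 2)).sum = σ * (d % 2 ^ k) := by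
  induction k with
  | zero => simp [Nat.mod_one]
  | succ k ih =>
    rw [List.range_succ, List.map_append, List.sum_append, ih, Nat.mod_pow_succ]
    simp only [List.map_cons, List.map_nil, List.sum_cons, List.sum_nil]
    ring

theorem fld (a Md Q BD i : ℕ) (hB : 0 < BD) :
    (a * (Md * (Q * BD)) + i) / BD % Q = i / BD % Q := by
  have e : a * (Md * (Q * BD)) + i = i + a * Md * Q * BD := by ring
  rw [e, Nat.add_mul_div_right _ _ hB, Nat.add_mul_mod_self_right]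

theorem base (hr : ROT) (P : CPar) (ε : Bool) (O Md BD Q : ℕ) (u : Vale.Agent.Lib.PolyTime.Un)
    (hQ : 1 < Q) (hM : 0 < Md) (hB : 0 < BD) :
    Blk P (baseU (ε, O * (Q * (Md * (Q * BD))), Md * (Q * BD), BD, Q, u))
      (O * (Q * (Md * (Q * BD))))
      (Shr 1 Q O Md BD fun D c => (bif ε then -1 else 1) * (D c : ZMod Q)) := by
  have hQ0 : 0 < Q := by omega
  have hH : 0 < Md * (Q * BD) := by positivity
  let g : ℕ → ℕ → ℕ := fun t i => (bif ε then Q - 1 else 1) * 2 ^ t * (i / BD % Q / 2 ^ t % 2)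
  have h1 := Blk.chain (P := P) (N := O * (Q * (Md * (Q * BD))))
    (fun t => rotL (O * (Q * (Md * (Q * BD)))) (Md * (Q * BD)) Q
      [((bif ε then Q - 1 else 1) * 2 ^ t, [(BD, Q, 2 ^ t, 2)])] (BD, Q, 2 ^ t, 2))
    (fun t F F' => ∀ o < O, ∀ x < Q, ∀ i < Md * (Q * BD),
      F' ((o * Q + (x + g t i) % Q) * (Md * (Q * BD)) + i) = F ((o * Q + x) * (Md * (Q * BD)) + i))
    (List.range (Nat.size Q))
    (fun t _ => hr P O Q (Md * (Q * BD)) _ _ (fun _ i => g t i)
      (fun _ i => i / BD % Q / 2 ^ t % 2) hQ0 hH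
      (fun o _ x _ i _ => ⟨by simp [pev, fev, fld _ _ _ _ _ hB, g],
        by simp [fev, fld _ _ _ _ _ hB], Nat.mod_lt _ two_pos⟩)
      (fun o _ i _ i' _ e => by simp only [g, e]))
    (fun l F F' => ∀ o < O, ∀ x < Q, ∀ i < Md * (Q * BD),
      F' ((o * Q + (x + (l.map fun t => g t i).sum) % Q) * (Md * (Q * BD)) + i) =
        F ((o * Q + x) * (Md * (Q * BD)) + i))
    (fun F o _ x hx i _ => by simp [Nat.mod_eq_of_lt hx])
    (fun l t _ _ F F' F'' ha hb o ho x hx i hi => by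
      rw [← ha o ho x hx i hi, ← hb o ho _ (Nat.mod_lt _ hQ0) i hi, List.map_append,
        List.sum_append, Nat.mod_add_mod, add_assoc]
      simp)
  refine h1.mono fun F F' h o ho md hm lo hl H D H' hc => ?_
  obtain ⟨c1, c2, c3, c4⟩ := hc 0 one_pos
  have hi : (md * Q + D 0) * BD + lo < Md * (Q * BD) := by
    rw [← mul_assoc]
    exact mix_lt (mix_lt hm c2) hl
  have hd : ((md * Q + D 0) * BD + lo) / BD % Q = D 0 := by
    rw [add_comm, Nat.add_mul_div_right _ _ hB, Nat.div_eq_of_lt hl, zero_add,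
      Nat.mul_add_mod_self_right, Nat.mod_eq_of_lt c2]
  have h2 := h o ho (H 0) c1 _ hi
  simp only [g, hd, sum_bits] at h2
  rw [Nat.mod_eq_of_lt (c2.trans (Nat.lt_size_self Q))] at h2
  have h3 : (H 0 + (bif ε then Q - 1 else 1) * D 0) % Q = H' 0 := by
    rw [← Nat.mod_eq_of_lt c3, ← ZMod.natCast_eq_natCast_iff', c4]
    cases ε
    · simp
    · simp [Nat.cast_sub hQ.le]
  rw [h3] at h2
  simpa [adU, vl] using h2

end Vale.Agent.P338Z.Ush
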