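import Vale.Agent.P338Z.Gen.UshA

/-!
P338 power saving: the shear from the routing network, part B (the wires as a group, the frames,
gates and calls).
-/

namespace Vale.Agent.P338Z.Ush

open Vale.Agent.P338.R3.H968 Vale.Agent.P338.R3.H898
open Vale.Agent.P338.R3.H313

/-- The bits of a wire. -/
abbrev W (Q O Md BD : ℕ) : Type :=
  (ℕ → ZMod Q) → (ℕ → ZMod Q) → Fin O → Fin Md → Fin BD → ℕ → ℕ → ZMod 2

/-- The change of `H` by a frame. -/
def act (m n : ℕ) {Q : ℕ} (s : ZMod Q) (A : Matrix (Fin m) (Fin m) (ZMod Q)) (D : ℕ → ZMod Q)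
    (c : ℕ) : ZMod Q :=
  if h : c / n < m then s * ∑ b : Fin m, A ⟨c / n, h⟩ b * D (b * n + c % n) else 0

theorem act_zero (m n : ℕ) {Q : ℕ} (s : ZMod Q) (D : ℕ → ZMod Q) : act m n s 0 D = 0 := by
  funext c
  simp [act]

theorem act_add (m n : ℕ) {Q : ℕ} (s : ZMod Q) (A A' : Matrix (Fin m) (Fin m) (ZMod Q))
    (D : ℕ → ZMod Q) : act m n s (A + A') D = act m n s A D + act m n s A' D := by
  funext c
  simp only [act, Pi.add_apply, Matrix.add_apply]
  split_ifs
  · simp only [add_mul, Finset.sum_add_distrib, mul_add]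
  · simp

theorem act_one {m n Q : ℕ} (s : ZMod Q) (D : ℕ → ZMod Q) {c : ℕ} (hc : c < m * n) :
    act m n s 1 D c = s * D c := by
  have h : c / n < m := Nat.div_lt_of_lt_mul (by rwa [mul_comm] at hc)
  simp only [act, dif_pos h, Matrix.one_apply, ite_mul, one_mul, zero_mul, Finset.sum_ite_eq,
    Finset.mem_univ, if_true]
  rw [Nat.div_add_mod']

/-- The frames act on the wires. -/
def fr (m n : ℕ) {Q : ℕ} (O Md BD : ℕ) (s : ZMod Q) (A : Matrix (Fin m) (Fin m) (ZMod Q)) :
    W Q O Md BD →+ W Q O Md BD where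
  toFun f := fun H D => f (H - act m n s A D) D
  map_zero' := rfl
  map_add' _ _ := rfl

theorem fr_apply (m n : ℕ) {Q : ℕ} (O Md BD : ℕ) (s : ZMod Q)
    (A : Matrix (Fin m) (Fin m) (ZMod Q)) (f : W Q O Md BD) (H D : ℕ → ZMod Q) :
    fr m n O Md BD s A f H D = f (H - act m n s A D) D := rfl

theorem fr_zero (m n : ℕ) {Q : ℕ} (O Md BD : ℕ) (s : ZMod Q) (z : W Q O Md BD) :
    fr m n O Md BD s 0 z = z := by
  funext H D
  rw [fr_apply, act_zero, sub_zero]

theorem fr_add (m n : ℕ) {Q : ℕ} (O Md BD : ℕ) (s : ZMod Q)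
    (A A' : Matrix (Fin m) (Fin m) (ZMod Q)) (z : W Q O Md BD) :
    fr m n O Md BD s (A + A') z = fr m n O Md BD s A (fr m n O Md BD s A' z) := by
  funext H D
  rw [fr_apply, fr_apply, fr_apply, act_add, sub_sub]

theorem two_zero {Q O Md BD : ℕ} (z : W Q O Md BD) : z + z = 0 := by
  funext H D o md lo j t
  exact CharTwo.add_self_eq_zero _

/-- The wire number `w` of a block. -/
def wire (P : CPar) (n Q O Md BD : ℕ) (F : ℕ → Cell) (w : ℕ) : W Q O Md BD :=
  fun H D o md lo => bits P (F (w * (O * (Q ^ n * (Md * (Q ^ n * BD)))) +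
    adU n Q Md BD o (fun c => (H c).val) md (fun c => (D c).val) lo))

theorem adv_lt {n Q O Md BD : ℕ} [NeZero Q] (H D : ℕ → ZMod Q) (o : Fin O) (md : Fin Md)
    (lo : Fin BD) : adU n Q Md BD o (fun c => (H c).val) md (fun c => (D c).val) lo <
      O * (Q ^ n * (Md * (Q ^ n * BD))) :=
  ad_lt o.2 md.2 lo.2 (fun _ _ => ZMod.val_lt _) fun _ _ => ZMod.val_lt _

theorem enum_w {T N w : ℕ} (hw : w < T) : Enum (T * N) N (selW N w) fun k => w * N + k where
  mono _ _ h _ := Nat.add_lt_add_left h _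
  lt _ hk := mix_lt hw hk
  sel u hu := by
    have hN : 0 < N := Nat.pos_of_ne_zero fun e => by simp [e] at hu
    simp only [selW, sev_selEq, fev_fl, Nat.mod_zero, decide_eq_true_eq]
    constructor
    · rintro rfl
      exact ⟨u % N, Nat.mod_lt _ hN, Nat.div_add_mod' u N⟩
    · rintro ⟨k, hk, rfl⟩
      rw [add_comm, Nat.add_mul_div_right _ _ hN, Nat.div_eq_of_lt hk, zero_add]

/-- A gate. -/
theorem gate (ha : ACC) (P : CPar) (n Q O Md BD T N i j : ℕ) [NeZero Q]
    (hN : N = O * (Q ^ n * (Md * (Q ^ n * BD)))) (hi : i < T) (hj : j < T) :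
    Blk P (accL 2 (T * N) N (selW N j) (selW N i)) (T * N) fun F F' => ∀ w < T,
      wire P n Q O Md BD F' w = Function.update (wire P n Q O Md BD F) i
        (wire P n Q O Md BD F i + wire P n Q O Md BD F j) w := by
  refine (ha P 2 (T * N) N _ _ _ _ (enum_w hj) (enum_w hi)).mono fun F F' h w hw => ?_
  funext H D o md lo
  have hl := adv_lt (n := n) H D o md lo
  rw [← hN] at hl
  by_cases e : w = i
  · subst e
    rw [Function.update_self]
    simp only [wire, Pi.add_apply, ← hN]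
    rw [h.1 _ hl, ← bits_xor]
    rfl
  · rw [Function.update_of_ne e]
    simp only [wire, ← hN]
    rw [h.2 _ (mix_lt hw hl)]
    refine Bool.eq_false_iff.2 fun h1 => ?_
    obtain ⟨k, hk, h2⟩ := ((enum_w hi).sel _ (mix_lt hw hl)).1 h1
    exact e (mix_inj hk hl h2).1.symm

/-- A call. -/
theorem call (hs : SUB) (P : CPar) (m n Q O Md BD T N i : ℕ) [NeZero Q] (s : ZMod Q)
    (α β : List ℤ) (L : List Ps)
    (hN : N = O * (Q ^ (m * n) * (Md * (Q ^ (m * n) * BD)))) (hi : i < T)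
    (h : Blk P L N (Shr (m * n) Q O Md BD fun D c => s * ∑ b : Fin m,
      (216 : ZMod Q)⁻¹ * ((α.getD (c / n) 0 * β.getD b 0 : ℤ) : ZMod Q) *
        (D (b * n + c % n) : ZMod Q))) :
    Blk P (subL (i * N) L) (T * N) fun F F' => ∀ w < T,
      wire P (m * n) Q O Md BD F' w = Function.update (wire P (m * n) Q O Md BD F) i
        (fr m n O Md BD s (qmat m Q α β) (wire P (m * n) Q O Md BD F i)) w := by
  have h0 : i * N + N ≤ T * N := by
    rw [← Nat.succ_mul]
    exact Nat.mul_le_mul_right N hi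
  refine (hs P L N (i * N) (T * N) _ h0 h).mono fun F F' ⟨⟨G, h1, h2⟩, h3⟩ w hw => ?_
  funext H D o md lo
  have hl := adv_lt (n := m * n) H D o md lo
  rw [← hN] at hl
  by_cases e : w = i
  · subst e
    rw [Function.update_self, fr_apply]
    simp only [wire, ← hN]
    rw [h2 _ hl, h1 o o.2 md md.2 lo lo.2
      (fun c => ((H - act m n s (qmat m Q α β) D) c).val) (fun c => (D c).val)
      (fun c => (H c).val) fun c hc => ⟨ZMod.val_lt _, ZMod.val_lt _, ZMod.val_lt _, ?_⟩]
    have hc' : c / n < m := Nat.div_lt_of_lt_mul (by rwa [mul_comm] at hc)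
    simp only [ZMod.natCast_val, ZMod.cast_id', id_eq, Pi.sub_apply, act, dif_pos hc', qmat,
      sub_add_cancel]
  · rw [Function.update_of_ne e]
    simp only [wire, ← hN]
    rw [h3 _ (mix_lt hw hl)]
    rcases Nat.lt_or_gt_of_ne e with e | e
    · exact Or.inl (mix_lt e hl)
    · refine Or.inr (le_trans ?_ (Nat.le_add_right _ _))
      rw [← Nat.succ_mul]
      exact Nat.mul_le_mul_right N e

theorem qrun_congr {M : Type} [AddCommGroup M] {m Q T : ℕ}
    (Φ : Matrix (Fin m) (Fin m) (ZMod Q) → M →+ M) {x y : ℕ → M} (h : ∀ w < T, x w = y w)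
    (c : QI) (hc : c.2.1 < T ∧ (c.1 = true → c.2.2.1 < T)) {w : ℕ} (hw : w < T) :
    qrun m Q Φ x c w = qrun m Q Φ y c w := by
  unfold qrun
  by_cases e : w = c.2.1
  · subst e
    split_ifs with h1
    · rw [Function.update_self, Function.update_self, h _ hw, h _ (hc.2 h1)]
    · rw [Function.update_self, Function.update_self, h _ hw]
  · split_ifs <;> rw [Function.update_of_ne e, Function.update_of_ne e, h _ hw]

/-- The full frame on all wires is the shear. -/
theorem full {P : CPar} {m n Q O Md BD T : ℕ} [NeZero Q] (s : ZMod Q) {F F' : ℕ → Cell}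
    (h : ∀ w < T, wire P (m * n) Q O Md BD F' w =
      fr m n O Md BD s 1 (wire P (m * n) Q O Md BD F w)) (u v : ℕ)
    (hs : Src (m * n) Q (T * O) Md BD (fun D c => s * (D c : ZMod Q)) u v) :
    CEq P (F' u) (F v) := by
  obtain ⟨o, ho, md, hm, lo, hl, H, D, G, hc, rfl, rfl⟩ := hs
  have hO : 0 < O := Nat.pos_of_ne_zero fun e => by simp [e] at ho
  have hw : o / O < T := Nat.div_lt_of_lt_mul (by rwa [mul_comm] at ho)
  have h1 := congrFun (congrFun (congrFun (congrFun (congrFun (h _ hw) fun c => (G c : ZMod Q))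
    fun c => (D c : ZMod Q)) ⟨o % O, Nat.mod_lt _ hO⟩) ⟨md, hm⟩) ⟨lo, hl⟩
  rw [fr_apply] at h1
  simp only [wire, ← ad_split, Nat.div_add_mod'] at h1
  have e1 : vl Q (m * n) (fun c => ((G c : ℕ) : ZMod Q).val) = vl Q (m * n) G :=
    vl_congr fun c hc' => ZMod.val_cast_of_lt (hc c hc').2.2.1
  have e2 : vl Q (m * n) (fun c => ((D c : ℕ) : ZMod Q).val) = vl Q (m * n) D :=
    vl_congr fun c hc' => ZMod.val_cast_of_lt (hc c hc').2.1
  have e3 : vl Q (m * n) (fun c => (((fun c => (G c : ZMod Q)) -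
      act m n s 1 fun c => (D c : ZMod Q)) c).val) = vl Q (m * n) H :=
    vl_congr fun c hc' => by
      rw [Pi.sub_apply, act_one s _ hc', (hc c hc').2.2.2, add_sub_cancel_right]
      exact ZMod.val_cast_of_lt (hc c hc').1
  unfold adU at h1 ⊢
  rw [e1, e2, e3] at h1
  exact ceq_of_bits h1

end Vale.Agent.P338Z.Ush
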