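import Vale.Agent.P338Z.Gen.LayLem

/-!
P338 power saving: early digits += `G` through the late digits.
-/

namespace Vale.Agent.P338Z

open Vale.Agent.P338.R3.H968 Vale.Agent.P338.R3.H898

namespace WaddA

theorem lt_mul {a b A B : ℕ} (ha : a < A) (hb : b < B) : a * B + b < A * B := by
  have h3 := Nat.mul_le_mul_right B (show a + 1 ≤ A from ha)
  nlinarith

theorem div_eq {a b B : ℕ} (hb : b < B) : (a * B + b) / B = a := by
  rw [add_comm, Nat.add_mul_div_right _ _ (by omega), Nat.div_eq_of_lt hb, zero_add]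

theorem mod_eq {a b B : ℕ} (hb : b < B) : (a * B + b) % B = b := by
  rw [add_comm, Nat.add_mul_mod_self_right, Nat.mod_eq_of_lt hb]

theorem eq_of_cast {Q a b : ℕ} (ha : a < Q) (h : (a : ZMod Q) = b) : a = b % Q := by
  rw [← (ZMod.natCast_eq_natCast_iff' a b Q).1 h, Nat.mod_eq_of_lt ha]

theorem adU_split (c j Q Md BD o : ℕ) (H : ℕ → ℕ) (md : ℕ) (D : ℕ → ℕ) (lo : ℕ) :
    adU (c + 1 + j) Q Md BD o H md D lo =
      ((((o * Q ^ (c + 1 + j) + vl Q (c + 1 + j) H) * Md + md) * Q ^ j +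
        vl Q j fun k => D (c + 1 + k)) * Q + D c) * (BD * Q ^ c) + (vl Q c D * BD + lo) := by
  rw [adU, vl_add Q (c + 1) j D, vl_succ]
  ring

theorem adU_div {n Q Md BD o md lo : ℕ} {H D : ℕ → ℕ} (hmd : md < Md) (hlo : lo < BD)
    (hD : ∀ c < n, D c < Q) : adU n Q Md BD o H md D lo / (Q ^ n * BD) % Md = md := by
  have e : adU n Q Md BD o H md D lo =
      ((o * Q ^ n + vl Q n H) * Md + md) * (Q ^ n * BD) + (vl Q n D * BD + lo) := by
    rw [adU]; ring
  rw [e, div_eq (lt_mul (vl_lt hD) hlo), mod_eq hmd]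

/-- One rotation of a digit of `D`. -/
theorem rot_one (hR : ROT) (P : CPar) {n Q O Md BD c : ℕ} (hc : c < n) (hQ : 0 < Q) (hB : 0 < BD)
    (e : Pl) (G : ℕ → ℕ) (he : ∀ u, pev e u ≡ G (u / (Q ^ n * BD) % Md) [MOD Q]) :
    Blk P (rotL (O * (Q ^ n * (Md * (Q ^ n * BD)))) (BD * Q ^ c) Q e fz)
      (O * (Q ^ n * (Md * (Q ^ n * BD)))) fun F F' => ∀ o < O, ∀ md < Md, ∀ lo < BD,
      ∀ H D D' : ℕ → ℕ, (∀ k < n, H k < Q ∧ D k < Q) → (∀ k < n, k ≠ c → D' k = D k) →
      D' c = (D c + G md) % Q →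
      F' (adU n Q Md BD o H md D' lo) = F (adU n Q Md BD o H md D lo) := by
  obtain ⟨j, rfl⟩ : ∃ j, n = c + 1 + j := ⟨n - (c + 1), by omega⟩
  have eN : O * (Q ^ (c + 1 + j) * (Md * (Q ^ (c + 1 + j) * BD))) =
      O * Q ^ (c + 1 + j) * Md * Q ^ j * (Q * (BD * Q ^ c)) := by ring
  have eW : Q ^ (c + 1 + j) * BD = BD * Q ^ c * Q * Q ^ j := by ring
  have h := hR P (O * Q ^ (c + 1 + j) * Md * Q ^ j) Q (BD * Q ^ c) e fz
    (fun o _ => G (o / Q ^ j % Md)) (fun _ _ => 0) hQ (by positivity) ?_ fun _ _ _ _ _ _ _ => rfl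
  · rw [eN]
    refine h.mono fun F F' hF o ho md hmd lo hlo H D D' hv hne hc' => ?_
    have h1 : vl Q (c + 1 + j) H < Q ^ (c + 1 + j) := vl_lt fun k hk => (hv k hk).1
    have h2 : (vl Q j fun k => D (c + 1 + k)) < Q ^ j := vl_lt fun k hk => (hv _ (by omega)).2
    have h3 : vl Q c D < Q ^ c := vl_lt fun k hk => (hv _ (by omega)).2
    have h4 := hF _ (lt_mul (lt_mul (lt_mul ho h1) hmd) h2) (D c) (hv c hc).2
      (vl Q c D * BD + lo) (by rw [mul_comm BD]; exact lt_mul h3 hlo)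
    simp only [div_eq h2, mod_eq hmd] at h4
    have e1 : (vl Q j fun k => D' (c + 1 + k)) = vl Q j fun k => D (c + 1 + k) :=
      vl_congr fun k hk => hne _ (by omega) (by omega)
    have e2 : vl Q c D' = vl Q c D := vl_congr fun k hk => hne _ (by omega) (by omega)
    rw [adU_split, adU_split, e1, e2, hc']
    exact h4
  · intro o _ x hx i hi
    refine ⟨?_, by simp [fev, fz, Nat.mod_one], by norm_num⟩
    have h1 := he ((o * Q + x) * (BD * Q ^ c) + i)
    rw [eW, ← Nat.div_div_eq_div_mul, ← Nat.div_div_eq_div_mul, div_eq hi, div_eq hx] at h1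
    exact h1

/-- `D += G md` in the first `k` digits. -/
def RD (n Q O Md BD k : ℕ) (G : ℕ → ℕ → ℕ) (F F' : ℕ → Cell) : Prop :=
  ∀ o < O, ∀ md < Md, ∀ lo < BD, ∀ H D D' : ℕ → ℕ,
    (∀ c < n, H c < Q ∧ D c < Q ∧ D' c < Q ∧
      (D' c : ZMod Q) = D c + if c < k then (G c md : ZMod Q) else 0) →
    F' (adU n Q Md BD o H md D' lo) = F (adU n Q Md BD o H md D lo)

theorem rot_all (hR : ROT) (P : CPar) {n Q O Md BD : ℕ} (hQ : 0 < Q) (hB : 0 < BD)
    (e : ℕ → Pl) (G : ℕ → ℕ → ℕ)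
    (he : ∀ c < n, ∀ u, pev (e c) u ≡ G c (u / (Q ^ n * BD) % Md) [MOD Q]) (k : ℕ) (hk : k ≤ n) :
    Blk P ((List.range k).flatMap fun c =>
        rotL (O * (Q ^ n * (Md * (Q ^ n * BD)))) (BD * Q ^ c) Q (e c) fz)
      (O * (Q ^ n * (Md * (Q ^ n * BD)))) (RD n Q O Md BD k G) := by
  induction k with
  | zero =>
    refine (Blk.nil P _).mono fun F F' hF o _ md _ lo _ H D D' hv => ?_
    have e1 : vl Q n D' = vl Q n D := vl_congr fun c hc => by
      obtain ⟨-, h2, h3, h4⟩ := hv c hc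
      rw [if_neg (Nat.not_lt_zero c), add_zero] at h4
      rw [eq_of_cast h3 h4, Nat.mod_eq_of_lt h2]
    rw [hF, adU, adU, e1]
  | succ k ih =>
    rw [List.range_succ, List.flatMap_append, List.flatMap_singleton]
    refine ((ih (by omega)).seq (rot_one hR P (show k < n by omega) hQ hB (e k) (G k)
      (he k (by omega)))).mono ?_
    rintro F F'' ⟨F', h1, h2⟩ o ho md hmd lo hlo H D D' hv
    have hu : ∀ c < n, Function.update D' k (D k) c < Q := fun c hc => by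
      by_cases hck : c = k
      · subst hck
        rw [Function.update_self]
        exact (hv c hc).2.1
      · rw [Function.update_of_ne hck]
        exact (hv c hc).2.2.1
    rw [h2 o ho md hmd lo hlo H (Function.update D' k (D k)) D'
      (fun c hc => ⟨(hv c hc).1, hu c hc⟩) (fun c _ hck => (Function.update_of_ne hck _ _).symm) ?_]
    · refine h1 o ho md hmd lo hlo H D _ fun c hc => ⟨(hv c hc).1, (hv c hc).2.1, hu c hc, ?_⟩
      by_cases hck : c = k
      · subst hck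
        rw [Function.update_self, if_neg (lt_irrefl c), add_zero]
      · rw [Function.update_of_ne hck, (hv c hc).2.2.2]
        by_cases h : c < k
        · rw [if_pos h, if_pos (by omega)]
        · rw [if_neg h, if_neg (by omega)]
    · obtain ⟨-, -, h3, h4⟩ := hv k (by omega)
      rw [if_pos (by omega), ← Nat.cast_add] at h4
      rw [Function.update_self]
      exact eq_of_cast h3 h4

theorem pev_psm (c : ℕ) (e : Pl) (u : ℕ) : pev (psm c e) u = c * pev e u := by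
  induction e with
  | nil => simp [pev, psm]
  | cons t e ih =>
    simp only [pev, psm, List.map_cons, List.sum_cons] at ih ⊢
    rw [ih]
    ring

theorem cast_pred {Q : ℕ} (hQ : 0 < Q) : ((Q - 1 : ℕ) : ZMod Q) = -1 := by
  rw [Nat.cast_pred hQ, ZMod.natCast_self, zero_sub]

/-- The four steps. -/
theorem four (hR : ROT) {ν : Nets} (hU : USH ν) (P : CPar) (i O Md BD Q : ℕ)
    (hQ : Q ≡ 1 [MOD ν.Δ]) (h1 : 1 < Q) (hM : 0 < Md) (hB : 0 < BD) (N : ℕ)
    (hN : N = 2 ^ (ν.r * i) * O * (Q ^ ν.m ^ i * (Md * (Q ^ ν.m ^ i * BD)))) (e : ℕ → Pl)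
    (G : ℕ → ℕ → ℕ)
    (he : ∀ c < ν.m ^ i, ∀ u, pev (e c) u ≡ G c (u / (Q ^ ν.m ^ i * BD) % Md) [MOD Q]) :
    Blk P (((List.range (ν.m ^ i)).flatMap fun c => rotL N (BD * Q ^ c) Q (e c) fz) ++
      (genU ν i (false, N, Md * (Q ^ ν.m ^ i * BD), BD, Q, ⟨ν.m ^ i⟩) ++
      (((List.range (ν.m ^ i)).flatMap fun c => rotL N (BD * Q ^ c) Q (psm (Q - 1) (e c)) fz) ++
      genU ν i (true, N, Md * (Q ^ ν.m ^ i * BD), BD, Q, ⟨ν.m ^ i⟩)))) N
      fun F F' => ∀ o < 2 ^ (ν.r * i) * O, ∀ md < Md, ∀ lo < BD, ∀ H D H' : ℕ → ℕ,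
        (∀ c < ν.m ^ i, H c < Q ∧ D c < Q ∧ H' c < Q ∧ (H' c : ZMod Q) = H c + G c md) →
        F' (adU (ν.m ^ i) Q Md BD o H' md D lo) = F (adU (ν.m ^ i) Q Md BD o H md D lo) := by
  subst hN
  have hQ0 : 0 < Q := by omega
  have hA := rot_all hR P (O := 2 ^ (ν.r * i) * O) hQ0 hB e G he _ le_rfl
  have hC := rot_all hR P (O := 2 ^ (ν.r * i) * O) hQ0 hB (fun c => psm (Q - 1) (e c))
    (fun c md => (Q - 1) * G c md)
    (fun c hc u => by rw [pev_psm]; exact (he c hc u).mul_left _) _ le_rfl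
  refine (hA.seq ((hU P i false O Md BD Q hQ h1 hM hB).seq
    (hC.seq (hU P i true O Md BD Q hQ h1 hM hB)))).mono ?_
  rintro F F4 ⟨F1, a1, F2, a2, F3, a3, a4⟩ o ho md hmd lo hlo H D H' hv
  have b1 := a1 o ho md hmd lo hlo H D (fun c => (D c + G c md) % Q) fun c hc =>
    ⟨(hv c hc).1, (hv c hc).2.1, Nat.mod_lt _ hQ0, by
      rw [if_pos hc, ZMod.natCast_mod, Nat.cast_add]⟩
  have b2 := a2 o ho md hmd lo hlo H (fun c => (D c + G c md) % Q)
    (fun c => (H c + (D c + G c md)) % Q) fun c hc =>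
    ⟨(hv c hc).1, Nat.mod_lt _ hQ0, Nat.mod_lt _ hQ0, by
      simp only [ZMod.natCast_mod, Nat.cast_add, cond_false, one_mul]⟩
  have b3 := a3 o ho md hmd lo hlo (fun c => (H c + (D c + G c md)) % Q)
    (fun c => (D c + G c md) % Q) D fun c hc =>
    ⟨Nat.mod_lt _ hQ0, Nat.mod_lt _ hQ0, (hv c hc).2.1, by
      rw [if_pos hc, ZMod.natCast_mod, Nat.cast_add, Nat.cast_mul, cast_pred hQ0]
      ring⟩
  have b4 := a4 o ho md hmd lo hlo (fun c => (H c + (D c + G c md)) % Q) D H' fun c hc =>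
    ⟨Nat.mod_lt _ hQ0, (hv c hc).2.1, (hv c hc).2.2.1, by
      simp only [ZMod.natCast_mod, Nat.cast_add, cond_true, (hv c hc).2.2.2]
      ring⟩
  rw [b4, b3, b2, b1]

/-- The address in the coordinates of the shear. -/
theorem ad_adU {L : Lay} {Δ : ℕ} (h : L.Ok Δ) {n per : ℕ} (hn : n * per ≤ L.K) (t : ℕ)
    (d : ℕ → ℕ) :
    L.ad t d = adU n (L.R ^ per) (L.W (1 + n * per) (3 * L.K + 1 - n * per)) (L.B 1)
      (t * L.W (3 * L.K + 2 + n * per) (L.K - n * per) +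
        L.seg (3 * L.K + 2 + n * per) (L.K - n * per) d)
      (fun c => vl L.R per fun k => d (L.fp (c * per + k)))
      (L.seg (1 + n * per) (3 * L.K + 1 - n * per) d)
      (fun c => vl L.R per fun k => d (Lay.fo (c * per + k))) (L.low 1 d) := by
  have q1 : ∀ j < n * per, L.q (1 + j) = L.R := fun j hj => (h.aux j (by omega)).1
  have q2 : ∀ j < n * per, L.q (3 * L.K + 2 + j) = L.R := fun j hj => (h.aux j (by omega)).2.1
  have e0 := h.ad_split (a := 3 * L.K + 2 + n * per) (by unfold Lay.nf; omega) t d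
  have e1 := L.low_add (3 * L.K + 2) (n * per) d
  have e2 := L.low_add (1 + n * per) (3 * L.K + 1 - n * per) d
  have e3 := L.low_add 1 (n * per) d
  have b1 := L.B_add (3 * L.K + 2) (n * per)
  have b2 := L.B_add (1 + n * per) (3 * L.K + 1 - n * per)
  have b3 := L.B_add 1 (n * per)
  rw [show 1 + n * per + (3 * L.K + 1 - n * per) = 3 * L.K + 2 by omega] at e2 b2
  rw [show L.nf - (3 * L.K + 2 + n * per) = L.K - n * per by unfold Lay.nf; omega] at e0
  rw [L.seg_const q2, vl_group] at e1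
  rw [L.seg_const q1, vl_group] at e3
  rw [L.W_const q2, mul_comm n per, pow_mul, mul_comm per n] at b1
  rw [L.W_const q1, mul_comm n per, pow_mul, mul_comm per n] at b3
  rw [e0, e1, e2, e3, b1, b2, b3, adU]
  simp only [Lay.fp, Lay.fo]
  ring

end WaddA

open WaddA in
theorem wadd_of (hR : ROT) {ν : Nets} (hU : USH ν) : WADD ν := by
  intro P L i per T g G h hper hn hg hG
  have q1 : ∀ j < ν.m ^ i * per, L.q (1 + j) = L.R := fun j hj => (h.aux j (by omega)).1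
  have q2 : ∀ j < ν.m ^ i * per, L.q (3 * L.K + 2 + j) = L.R :=
    fun j hj => (h.aux j (by omega)).2.1
  have b1 := L.B_add (3 * L.K + 2) (ν.m ^ i * per)
  have b2 := L.B_add (1 + ν.m ^ i * per) (3 * L.K + 1 - ν.m ^ i * per)
  have b3 := L.B_add 1 (ν.m ^ i * per)
  have b0 := h.N_split (a := 3 * L.K + 2 + ν.m ^ i * per) (by unfold Lay.nf; omega)
  rw [show 1 + ν.m ^ i * per + (3 * L.K + 1 - ν.m ^ i * per) = 3 * L.K + 2 by omega] at b2
  rw [show L.nf - (3 * L.K + 2 + ν.m ^ i * per) = L.K - ν.m ^ i * per by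
    unfold Lay.nf; omega] at b0
  rw [L.W_const q2, mul_comm _ per, pow_mul, mul_comm per] at b1
  rw [L.W_const q1, mul_comm _ per, pow_mul, mul_comm per, mul_comm (L.B 1)] at b3
  generalize hMd : L.W (1 + ν.m ^ i * per) (3 * L.K + 1 - ν.m ^ i * per) = Md at b2
  generalize hO : L.W (3 * L.K + 2 + ν.m ^ i * per) (L.K - ν.m ^ i * per) = O at b0
  have hM : 0 < Md := hMd ▸ h.W_pos _ _
  have key : ∀ c < ν.m ^ i, ∀ u, G c (L.dig u) = G c (L.dig
      (u / ((L.R ^ per) ^ ν.m ^ i * L.B 1) % Md * ((L.R ^ per) ^ ν.m ^ i * L.B 1))) := by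
    intro c hc u
    refine hG c hc _ _ fun f h1 h2 => ?_
    rw [← L.dig_mod h2 u]
    refine Lay.dig_of_div (a := 1 + ν.m ^ i * per) (by omega) ?_
    rw [← b3, b2, Nat.mod_mul_right_div_self, Nat.mul_div_cancel _ (h.B_pos _)]
  have hF := four hR hU P i (T * O) Md (L.B 1) (L.R ^ per) (by simpa using h.md.pow per)
    (Nat.one_lt_pow hper.ne' h.one) hM (h.B_pos 1) (2 ^ (ν.r * i) * T * L.N)
    (by rw [b0, b1, b2, b3]; ring) g
    (fun c md => G c (L.dig (md * ((L.R ^ per) ^ ν.m ^ i * L.B 1)))) fun c hc u => by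
      have h1 := hg c hc (u / L.N) (L.dig u) fun f _ => h.dig_lt u f
      rw [h.ad_dig, key c hc u] at h1
      exact h1
  have eB : L.B (L.fp 0) = Md * ((L.R ^ per) ^ ν.m ^ i * L.B 1) := by
    rw [← b3, mul_comm, ← b2]
    rfl
  unfold wadd
  rw [eB]
  refine hF.mono fun F F' hFF t ht d d' hd hd' hne hv => ?_
  have hq : ∀ {x : ℕ → ℕ}, (∀ f < L.nf, x f < L.q f) → ∀ c < ν.m ^ i,
      (vl L.R per fun k => x (L.fp (c * per + k))) < L.R ^ per ∧
      (vl L.R per fun k => x (Lay.fo (c * per + k))) < L.R ^ per := fun {x} hx c hc => by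
    constructor
    · refine vl_lt fun k hk => ?_
      have h1 := lt_mul hc hk
      rw [← q2 _ h1]
      exact hx _ (by unfold Lay.fp Lay.nf; omega)
    · refine vl_lt fun k hk => ?_
      have h1 := lt_mul hc hk
      rw [← q1 _ h1]
      exact hx _ (by unfold Lay.fo Lay.nf; omega)
  have s1 : L.seg (3 * L.K + 2 + ν.m ^ i * per) (L.K - ν.m ^ i * per) d < O :=
    hO ▸ L.seg_lt fun j hj => hd _ (by unfold Lay.nf; omega)
  have s2 : L.seg (1 + ν.m ^ i * per) (3 * L.K + 1 - ν.m ^ i * per) d < Md :=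
    hMd ▸ L.seg_lt fun j hj => hd _ (by unfold Lay.nf; omega)
  have s3 : L.low 1 d < L.B 1 := L.low_lt fun j hj => hd _ (by unfold Lay.nf; omega)
  have e1 : L.seg (3 * L.K + 2 + ν.m ^ i * per) (L.K - ν.m ^ i * per) d' =
      L.seg (3 * L.K + 2 + ν.m ^ i * per) (L.K - ν.m ^ i * per) d :=
    L.seg_congr fun j hj => hne _ (by unfold Lay.nf; omega) fun y hy => by unfold Lay.fp; omega
  have e2 : L.seg (1 + ν.m ^ i * per) (3 * L.K + 1 - ν.m ^ i * per) d' =
      L.seg (1 + ν.m ^ i * per) (3 * L.K + 1 - ν.m ^ i * per) d :=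
    L.seg_congr fun j hj => hne _ (by unfold Lay.nf; omega) fun y hy => by unfold Lay.fp; omega
  have e3 : L.low 1 d' = L.low 1 d :=
    L.low_congr fun j hj => hne _ (by unfold Lay.nf; omega) fun y hy => by unfold Lay.fp; omega
  have e4 : vl (L.R ^ per) (ν.m ^ i) (fun c => vl L.R per fun k => d' (Lay.fo (c * per + k))) =
      vl (L.R ^ per) (ν.m ^ i) fun c => vl L.R per fun k => d (Lay.fo (c * per + k)) :=
    vl_congr fun c hc => vl_congr fun k hk => by
      have h1 := lt_mul hc hk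
      exact hne _ (by unfold Lay.fo Lay.nf; omega) fun y hy => by unfold Lay.fo Lay.fp; omega
  have a1 := ad_adU h hn t d
  have a2 := ad_adU h hn t d'
  rw [hMd, hO] at a1 a2
  rw [e1, e2, e3, adU, e4, ← adU] at a2
  have hGd : ∀ c < ν.m ^ i, G c d = G c (L.dig (L.seg (1 + ν.m ^ i * per)
      (3 * L.K + 1 - ν.m ^ i * per) d * ((L.R ^ per) ^ ν.m ^ i * L.B 1))) := fun c hc => by
    have h1 := key c hc (L.ad t d)
    rw [hG c hc (L.dig (L.ad t d)) d fun f _ h2 => h.dig_ad t hd (by unfold Lay.nf; omega), a1,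
      adU_div s2 s3 fun c hc => (hq hd c hc).2] at h1
    exact h1
  rw [a1, a2]
  refine hFF _ (by rw [← mul_assoc]; exact lt_mul ht s1) _ s2 _ s3 _ _ _ fun c hc =>
    ⟨(hq hd c hc).1, (hq hd c hc).2, (hq hd' c hc).1, ?_⟩
  rw [← hGd c hc, ← Nat.cast_add]
  exact (ZMod.natCast_eq_natCast_iff _ _ _).2 (hv c hc)

end Vale.Agent.P338Z
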