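import Vale.Agent.P338Z.Gen.XorA

/-!
P338 power saving: the addition of selected bits.
-/

namespace Vale.Agent.P338Z

open Vale.Agent.P338.R3.H968 Vale.Agent.P338.R3.H898
open Finset

namespace XorA

variable {L : Lay} {Δ : ℕ} {δ : ℕ → ℕ}

/-! ### the targets -/

/-- the hypotheses on the targets -/
structure Cx (L : Lay) (Δ km : ℕ) (tg : List (ℕ × Option ℕ)) : Prop where
  ok : L.Ok Δ
  len : tg.length ≤ L.K
  nd : (tg.map Prod.fst).Nodup
  lt : km < L.K
  mem : ∀ x ∈ tg, x.1 ≤ km ∧ ∀ c, x.2 = some c → km < c ∧ c < L.K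

/-- the field of the target `y` -/
def pb (L : Lay) (tg : List (ℕ × Option ℕ)) (y : ℕ) : ℕ := L.fb (tgt tg y).1

/-- the value of the control of the target `y` -/
def zz (L : Lay) (tg : List (ℕ × Option ℕ)) (d : ℕ → ℕ) (y : ℕ) : ℕ :=
  (tgt tg y).2.elim 1 fun c => d (L.fb c)

variable {km y : ℕ} {tg : List (ℕ × Option ℕ)} {d d' : ℕ → ℕ}

theorem tgt_mem (hy : y < tg.length) : tgt tg y ∈ tg := by
  unfold tgt
  rw [List.getD_eq_getElem _ _ hy]
  exact List.getElem_mem hy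

theorem exists_tgt {x : ℕ × Option ℕ} (hx : x ∈ tg) : ∃ y < tg.length, tgt tg y = x := by
  obtain ⟨y, hy, rfl⟩ := List.getElem_of_mem hx
  exact ⟨y, hy, List.getD_eq_getElem _ _ hy⟩

theorem Cx.inj (h : Cx L Δ km tg) :
    ∀ y < tg.length, ∀ y' < tg.length, pb L tg y = pb L tg y' → y = y' := by
  intro y hy y' hy' e
  have e1 : (tgt tg y).1 = (tgt tg y').1 := by
    unfold pb Lay.fb at e
    omega
  unfold tgt at e1
  rw [List.getD_eq_getElem _ _ hy, List.getD_eq_getElem _ _ hy'] at e1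
  refine (h.nd.getElem_inj_iff (i := y) (j := y') (hi := by simpa using hy)
    (hj := by simpa using hy')).1 ?_
  simpa using e1

theorem Cx.ex (h : Cx L Δ km tg) (hy : y < tg.length) :
    ∃ a, a ≤ km ∧ pb L tg y = L.K + 2 + 2 * a := ⟨_, (h.mem _ (tgt_mem hy)).1, rfl⟩

theorem Cx.bit (h : Cx L Δ km tg) (hy : y < tg.length) : L.q (pb L tg y) = 2 ∧
    L.e (pb L tg y) = 2 ∧ L.e (pb L tg y + 1) + L.R ≤ L.q (pb L tg y + 1) :=
  h.ok.bit _ (lt_of_le_of_lt (h.mem _ (tgt_mem hy)).1 h.lt)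

theorem Cx.zz_congr (h : Cx L Δ km tg) (hy : y < tg.length)
    (hd : ∀ c, km < c → c < L.K → d (L.K + 2 + 2 * c) = d' (L.K + 2 + 2 * c)) :
    zz L tg d y = zz L tg d' y := by
  have h1 := (h.mem _ (tgt_mem hy)).2
  unfold zz
  cases e : (tgt tg y).2 with
  | none => rfl
  | some c => exact hd c (h1 c e).1 (h1 c e).2

theorem Cx.zz_le (h : Cx L Δ km tg) (hy : y < tg.length) (hd : ∀ f < L.nf, d f < L.q f) :
    zz L tg d y ≤ 1 := by
  have h1 := (h.mem _ (tgt_mem hy)).2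
  unfold zz
  cases e : (tgt tg y).2 with
  | none => exact le_rfl
  | some c =>
    have h2 := (h1 c e).2
    have h3 := hd (L.fb c) (by unfold Lay.fb Lay.nf; omega)
    rw [(h.ok.bit c h2).1] at h3
    exact Nat.lt_succ_iff.1 h3

theorem Cx.prod_cf (h : Cx L Δ km tg) (hy : y < tg.length) (hd : ∀ f < L.nf, d f < L.q f)
    (t : ℕ) : ((L.cf (tgt tg y).2).map fun f => fev f (L.ad t d)).prod = zz L tg d y := by
  have h1 := (h.mem _ (tgt_mem hy)).2
  unfold zz Lay.cf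
  cases e : (tgt tg y).2 with
  | none => rfl
  | some c =>
    have h2 := (h1 c e).2
    have h3 := fev_ad h.ok hd t (f := L.fb c) (by unfold Lay.fb Lay.nf; omega)
    rw [(h.ok.bit c h2).1] at h3
    simpa using h3

theorem Cx.cf_hi (h : Cx L Δ km tg) (hy : y < tg.length) :
    ∀ φ ∈ L.cf (tgt tg y).2, ∃ f m, L.fb km + 2 ≤ f ∧ φ = fl (L.B f) m := by
  have h1 := (h.mem _ (tgt_mem hy)).2
  unfold Lay.cf
  cases e : (tgt tg y).2 with
  | none => simp
  | some c =>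
    intro φ hφ
    have h2 := (h1 c e).1
    exact ⟨L.fb c, 2, by unfold Lay.fb; omega, by simpa using hφ⟩

theorem Cx.fev_pb (h : Cx L Δ km tg) (hy : y < tg.length) (hd : ∀ f < L.nf, d f < L.q f)
    (t : ℕ) : fev (fl (L.B (L.fb (tgt tg y).1)) 2) (L.ad t d) = d (pb L tg y) := by
  obtain ⟨a, h1, h2⟩ := h.ex hy
  have h4 := h.lt
  have h3 := fev_ad h.ok hd t (f := pb L tg y) (by unfold Lay.nf; omega)
  rwa [(h.bit hy).1] at h3

theorem Cx.xe1_hi (h : Cx L Δ km tg) :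
    ∀ t ∈ xe1 L tg, ∀ φ ∈ t.2, ∃ f m, L.fb km + 2 ≤ f ∧ φ = fl (L.B f) m := by
  intro t ht φ hφ
  obtain ⟨y, hy, rfl⟩ := List.mem_map.1 ht
  rcases List.mem_append.1 hφ with h1 | h1
  · exact h.cf_hi (List.mem_range.1 hy) φ h1
  · have h2 := h.lt
    exact ⟨L.fp y, L.R, by unfold Lay.fb Lay.fp; omega, by simpa using h1⟩

theorem Cx.xe3_hi (h : Cx L Δ km tg) (Q : ℕ) :
    ∀ t ∈ xe3 L Q tg, ∀ φ ∈ t.2, ∃ f m, L.fb km + 2 ≤ f ∧ φ = fl (L.B f) m := by
  intro t ht φ hφ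
  rcases List.mem_append.1 ht with h1 | h1
  · obtain ⟨y, hy, rfl⟩ := List.mem_map.1 h1
    exact h.cf_hi (List.mem_range.1 hy) φ hφ
  · obtain ⟨s, hs, rfl⟩ := List.mem_map.1 h1
    exact h.xe1_hi s hs φ hφ

theorem Cx.pev_xe1 (h : Cx L Δ km tg) (hd : ∀ f < L.nf, d f < L.q f) (t : ℕ) :
    pev (xe1 L tg) (L.ad t d) =
      ∑ y ∈ range tg.length, zz L tg d y * d (L.fp y) * (L.B (pb L tg y) * 2) := by
  unfold xe1
  rw [pev_map]
  refine sum_congr rfl fun y hy => ?_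
  have hy := mem_range.1 hy
  have h1 := h.len
  have h2 := fev_ad h.ok hd t (f := L.fp y) (by unfold Lay.fp Lay.nf; omega)
  rw [(h.ok.aux y (by omega)).2.1] at h2
  simp only [List.map_append, List.prod_append, h.prod_cf hy hd, List.map_cons, List.map_nil,
    List.prod_cons, List.prod_nil, h2, pb]
  ring

theorem Cx.pev_xe3 (h : Cx L Δ km tg) (hd : ∀ f < L.nf, d f < L.q f) (t Q : ℕ) :
    pev (xe3 L Q tg) (L.ad t d) = ∑ y ∈ range tg.length, zz L tg d y * L.B (pb L tg y) +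
      (Q - 1) * ∑ y ∈ range tg.length, zz L tg d y * d (L.fp y) * (L.B (pb L tg y) * 2) := by
  unfold xe3
  rw [pev_append, pev_psm, h.pev_xe1 hd, pev_map]
  congr 1
  refine sum_congr rfl fun y hy => ?_
  simp only [h.prod_cf (mem_range.1 hy) hd, pb]
  ring

/-- the increments of the second step -/
def G2 (L : Lay) (tg : List (ℕ × Option ℕ)) (per c : ℕ) (d : ℕ → ℕ) : ℕ :=
  ∑ k ∈ range per, if c * per + k < tg.length then d (pb L tg (c * per + k)) * L.R ^ k else 0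

/-- the increments of the last step -/
def G4 (L : Lay) (tg : List (ℕ × Option ℕ)) (per c : ℕ) (d : ℕ → ℕ) : ℕ :=
  ∑ k ∈ range per, if c * per + k < tg.length then
    ((L.R ^ per - 1) * (d (pb L tg (c * per + k)) + zz L tg d (c * per + k)) +
      2 * (d (pb L tg (c * per + k)) * zz L tg d (c * per + k))) * L.R ^ k else 0

theorem Cx.pev_xg2 (h : Cx L Δ km tg) (hd : ∀ f < L.nf, d f < L.q f) {per : ℕ} (hp : 0 < per)
    (t c : ℕ) : pev (xg2 L per tg c) (L.ad t d) = G2 L tg per c d := by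
  unfold xg2 G2
  rw [List.map_eq_flatMap, pev_flat,
    ← sum_grp hp tg.length c fun y k => d (pb L tg y) * L.R ^ k]
  refine sum_congr rfl fun y hy => if_congr Iff.rfl ?_ rfl
  simp only [pev, List.map_cons, List.map_nil, List.prod_cons, List.prod_nil, List.sum_cons,
    List.sum_nil, h.fev_pb (mem_range.1 hy) hd]
  ring

theorem Cx.pev_xg4 (h : Cx L Δ km tg) (hd : ∀ f < L.nf, d f < L.q f) {per : ℕ} (hp : 0 < per)
    (t c : ℕ) : pev (xg4 L per tg c) (L.ad t d) = G4 L tg per c d := by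
  unfold xg4 G4
  rw [pev_flat, ← sum_grp hp tg.length c fun y k => ((L.R ^ per - 1) * (d (pb L tg y) +
    zz L tg d y) + 2 * (d (pb L tg y) * zz L tg d y)) * L.R ^ k]
  refine sum_congr rfl fun y hy => if_congr Iff.rfl ?_ rfl
  simp only [pev, List.map_cons, List.map_nil, List.prod_cons, List.prod_nil, List.sum_cons,
    List.sum_nil, h.fev_pb (mem_range.1 hy) hd, h.prod_cf (mem_range.1 hy) hd]
  ring

theorem Cx.G2_congr (h : Cx L Δ km tg) (per c : ℕ)
    (hd : ∀ f, L.K + 1 ≤ f → f < 3 * L.K + 2 → d f = d' f) :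
    G2 L tg per c d = G2 L tg per c d' := by
  refine sum_congr rfl fun k _ => ?_
  split_ifs with hy
  · obtain ⟨a, h1, h2⟩ := h.ex hy
    have h3 := h.lt
    rw [hd _ (by omega) (by omega)]
  · rfl

theorem Cx.G4_congr (h : Cx L Δ km tg) (per c : ℕ)
    (hd : ∀ f, L.K + 1 ≤ f → f < 3 * L.K + 2 → d f = d' f) :
    G4 L tg per c d = G4 L tg per c d' := by
  refine sum_congr rfl fun k _ => ?_
  split_ifs with hy
  · obtain ⟨a, h1, h2⟩ := h.ex hy
    have h3 := h.lt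
    rw [hd _ (by omega) (by omega),
      h.zz_congr hy (d := d) (d' := d') fun c _ _ => hd _ (by omega) (by omega)]
  · rfl

theorem tog_ne {f : ℕ} (hf : ∀ y < tg.length, pb L tg y ≠ f) : L.tog tg d f = d f := by
  unfold Lay.tog
  rw [List.find?_eq_none.2]
  · rfl
  · intro x hx
    obtain ⟨y, hy, rfl⟩ := exists_tgt hx
    exact fun e => hf y hy (of_decide_eq_true e)

theorem Cx.tog_at (h : Cx L Δ km tg) (hy : y < tg.length) :
    L.tog tg d (pb L tg y) = (d (pb L tg y) + zz L tg d y) % 2 := by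
  unfold Lay.tog
  cases e : tg.find? fun x => decide (L.fb x.1 = pb L tg y) with
  | none => exact absurd (by simp [pb]) (List.find?_eq_none.1 e _ (tgt_mem hy))
  | some x =>
    obtain ⟨y', hy', rfl⟩ := exists_tgt (List.mem_of_find?_eq_some e)
    have h0 := List.find?_some e
    have h1 : pb L tg y' = pb L tg y := of_decide_eq_true h0
    rw [h.inj y' hy' y hy h1]
    rfl

/-! ### the digits after the steps -/

/-- after the first step -/
noncomputable def d1 (L : Lay) (tg : List (ℕ × Option ℕ)) (δ : ℕ → ℕ) : ℕ → ℕ :=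
  upd tg.length (fun y => pb L tg y + 1)
    (fun y => δ (pb L tg y + 1) + zz L tg δ y * δ (L.fp y)) δ

/-- the early digits after the second step -/
noncomputable def d2 (L : Lay) (tg : List (ℕ × Option ℕ)) (δ d : ℕ → ℕ) : ℕ → ℕ :=
  upd tg.length L.fp (fun y => δ (L.fp y) + δ (pb L tg y)) d

theorem fp_inj (n : ℕ) : ∀ y < n, ∀ y' < n, L.fp y = L.fp y' → y = y' := fun y _ y' _ e => by
  unfold Lay.fp at e
  omega

theorem Cx.val (h : Cx L Δ km tg) (hδ : L.Real δ) : ∀ f < L.nf, δ f < L.q f :=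
  fun f hf => lt_of_lt_of_le (hδ f hf) (h.ok.pos f).2

theorem Cx.w_lt (h : Cx L Δ km tg) (hδ : L.Real δ) (hy : y < tg.length) :
    δ (L.fp y) + 1 < L.R := by
  have h1 := h.len
  have h2 := hδ (L.fp y) (by unfold Lay.fp Lay.nf; omega)
  have h3 := (h.ok.aux y (by omega)).2.2
  omega

theorem Cx.a_le (h : Cx L Δ km tg) (hδ : L.Real δ) (hy : y < tg.length) :
    δ (pb L tg y) ≤ 1 := by
  obtain ⟨a, h1, h2⟩ := h.ex hy
  have h3 := h.lt
  have h4 := hδ (pb L tg y) (by unfold Lay.nf; omega)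
  rw [(h.bit hy).2.1] at h4
  omega

theorem Cx.val1 (h : Cx L Δ km tg) (hδ : L.Real δ) : ∀ f < L.nf, d1 L tg δ f < L.q f :=
  fun f hf => upd_lt (h.val hδ f hf) fun y hy => by
    obtain ⟨a, h1, h2⟩ := h.ex hy
    have h3 := h.lt
    have h4 := hδ (pb L tg y + 1) (by unfold Lay.nf; omega)
    have h5 := (h.bit hy).2.2
    have h6 := h.w_lt hδ hy
    have h7 := Nat.mul_le_mul_right (δ (L.fp y)) (h.zz_le hy (h.val hδ))
    omega

theorem Cx.val2 (h : Cx L Δ km tg) (hδ : L.Real δ) (hd : ∀ f < L.nf, d f < L.q f) :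
    ∀ f < L.nf, d2 L tg δ d f < L.q f :=
  fun f hf => upd_lt (hd f hf) fun y hy => by
    have h1 := h.len
    have h2 := h.w_lt hδ hy
    have h3 := h.a_le hδ hy
    rw [(h.ok.aux y (by omega)).2.1]
    omega

theorem Cx.valt (h : Cx L Δ km tg) (hδ : L.Real δ) : ∀ f < L.nf, L.tog tg δ f < L.q f := by
  intro f hf
  by_cases h1 : ∃ y < tg.length, pb L tg y = f
  · obtain ⟨y, hy, rfl⟩ := h1
    rw [h.tog_at hy, (h.bit hy).1]
    omega
  · rw [tog_ne fun y hy e => h1 ⟨y, hy, e⟩]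
    exact h.val hδ f hf

theorem Cx.d1_ne (h : Cx L Δ km tg) {f : ℕ} (hf : ∀ a ≤ km, L.K + 2 + 2 * a + 1 ≠ f) :
    d1 L tg δ f = δ f :=
  upd_ne fun y hy => by
    obtain ⟨a, h1, h2⟩ := h.ex hy
    rw [h2]
    exact hf a h1

theorem Cx.tog_ne' (h : Cx L Δ km tg) {f : ℕ} (hf : ∀ a ≤ km, L.K + 2 + 2 * a ≠ f) :
    L.tog tg δ f = δ f :=
  tog_ne fun y hy => by
    obtain ⟨a, h1, h2⟩ := h.ex hy
    rw [h2]
    exact hf a h1

theorem d2_lo {f : ℕ} (hf : f < 3 * L.K + 2) : d2 L tg δ d f = d f :=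
  upd_ne fun y _ => by
    unfold Lay.fp
    omega

theorem d2_fp (k : ℕ) : d2 L tg δ d (L.fp k) =
    if k < tg.length then δ (L.fp k) + δ (pb L tg k) else d (L.fp k) := by
  split_ifs with hk
  · exact upd_at (fp_inj _) hk
  · exact upd_ne fun y hy => by
      unfold Lay.fp
      omega

theorem Cx.lo1 (h : Cx L Δ km tg) (δ : ℕ → ℕ) : lo L (d1 L tg δ) (L.fb km + 2) =
    lo L δ (L.fb km + 2) +
      ∑ y ∈ range tg.length, zz L tg δ y * δ (L.fp y) * (L.B (pb L tg y) * 2) := by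
  have h1 : ∀ y < tg.length, ∀ y' < tg.length, pb L tg y + 1 = pb L tg y' + 1 → y = y' :=
    fun y hy y' hy' e => h.inj y hy y' hy' (by omega)
  have h2 := lo_chg (L := L) (δ := δ) (δ' := d1 L tg δ) (m := L.fb km + 2) h1
    (fun y hy => by
      obtain ⟨a, h2, h3⟩ := h.ex hy
      unfold Lay.fb
      omega) fun f _ hf => upd_ne hf
  have h3 : ∑ y ∈ range tg.length, d1 L tg δ (pb L tg y + 1) * L.B (pb L tg y + 1) =
      ∑ y ∈ range tg.length, zz L tg δ y * δ (L.fp y) * (L.B (pb L tg y) * 2) +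
        ∑ y ∈ range tg.length, δ (pb L tg y + 1) * L.B (pb L tg y + 1) := by
    rw [← sum_add_distrib]
    refine sum_congr rfl fun y hy => ?_
    have h3 : d1 L tg δ (pb L tg y + 1) = _ := upd_at h1 (mem_range.1 hy)
    rw [h3, B_succ, (h.bit (mem_range.1 hy)).1]
    ring
  omega

theorem Cx.lot (h : Cx L Δ km tg) (hδ : L.Real δ) : lo L (L.tog tg δ) (L.fb km + 2) +
    ∑ y ∈ range tg.length, zz L tg δ y * (δ (L.fp y) + δ (pb L tg y)) * (L.B (pb L tg y) * 2) =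
    lo L (d1 L tg δ) (L.fb km + 2) + ∑ y ∈ range tg.length, zz L tg δ y * L.B (pb L tg y) := by
  have h2 := lo_chg (L := L) (δ := δ) (δ' := L.tog tg δ) (m := L.fb km + 2) h.inj
    (fun y hy => by
      obtain ⟨a, h2, h3⟩ := h.ex hy
      unfold Lay.fb
      omega) fun f _ hf => tog_ne hf
  have h3 : ∑ y ∈ range tg.length, L.tog tg δ (pb L tg y) * L.B (pb L tg y) +
      ∑ y ∈ range tg.length, zz L tg δ y * (δ (L.fp y) + δ (pb L tg y)) * (L.B (pb L tg y) * 2) =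
      ∑ y ∈ range tg.length, δ (pb L tg y) * L.B (pb L tg y) +
        (∑ y ∈ range tg.length, zz L tg δ y * δ (L.fp y) * (L.B (pb L tg y) * 2) +
          ∑ y ∈ range tg.length, zz L tg δ y * L.B (pb L tg y)) := by
    rw [← sum_add_distrib, ← sum_add_distrib, ← sum_add_distrib]
    refine sum_congr rfl fun y hy => ?_
    have h3 := h.a_le hδ (mem_range.1 hy)
    have h4 := h.zz_le (mem_range.1 hy) (h.val hδ)
    rw [h.tog_at (mem_range.1 hy)]
    generalize δ (pb L tg y) = a at *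
    generalize zz L tg δ y = z at *
    interval_cases a <;> interval_cases z <;> norm_num <;> ring
  rw [h.lo1]
  omega

theorem ar4 (w Q r : ℕ) {a z : ℕ} (ha : a ≤ 1) (hz : z ≤ 1) :
    w * r ≡ (w + a) * r + (Q * ((a + z) % 2 + z) + 2 * ((a + z) % 2 * z)) * r [MOD Q + 1] := by
  have h : (w + a) * r + (Q * ((a + z) % 2 + z) + 2 * ((a + z) % 2 * z)) * r =
      w * r + (Q + 1) * ((a + 2 * ((a + z) % 2 * z)) * r) := by
    interval_cases a <;> interval_cases z <;> norm_num <;> ring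
  rw [h]
  exact (Nat.add_mul_mod_self_left ..).symm

end XorA

open XorA in
theorem xor_of {ν : Nets} (hR : ROT) (hw : WADD ν) (h : ν.Ok) : XOR ν := by
  intro P L i T km tg hL hK hn hnd hkm htg
  have hc : Cx L ν.Δ km tg := ⟨hL, hn.trans hK, hnd, hkm, htg⟩
  have hm : 2 ≤ ν.m := le_trans (by norm_num) (Nat.le_of_dvd h.mpos h.m8)
  have hp : 0 < ν.m ^ (i / 2) := Nat.pow_pos h.mpos
  have h1 : ν.m ^ ((i + 1) / 2) * ν.m ^ (i / 2) = ν.m ^ i := by
    rw [← pow_add]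
    congr 1
    omega
  have h2 : 2 ^ (ν.r * ((i + 1) / 2)) * (2 ^ (ν.r * (i / 2)) * T) = 2 ^ (ν.r * i) * T := by
    rw [← mul_assoc, ← pow_add, ← mul_add]
    congr 3
    omega
  have h3 : L.fb km + 2 ≤ L.nf := by
    unfold Lay.fb Lay.nf
    omega
  have s1 := rot_lo hR P hL h3 (2 ^ (ν.r * i) * T) _ hc.xe1_hi
  have s3 := rot_lo hR P hL h3 (2 ^ (ν.r * i) * T) _ (hc.xe3_hi (L.B (L.fb km + 2)))
  have s2 := hw P L ((i + 1) / 2) _ (2 ^ (ν.r * (i / 2)) * T) (xg2 L (ν.m ^ (i / 2)) tg)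
    (G2 L tg (ν.m ^ (i / 2))) hL hp (h1 ▸ hK)
    (fun c _ t d hd => by rw [hc.pev_xg2 hd hp]) fun c _ d d' hd => hc.G2_congr _ c hd
  have s4 := hw P L ((i + 1) / 2) _ (2 ^ (ν.r * (i / 2)) * T) (xg4 L (ν.m ^ (i / 2)) tg)
    (G4 L tg (ν.m ^ (i / 2))) hL hp (h1 ▸ hK)
    (fun c _ t d hd => by rw [hc.pev_xg4 hd hp]) fun c _ d d' hd => hc.G4_congr _ c hd
  rw [h1, h2] at s2 s4
  unfold xorL
  rw [lg_pow hm]
  refine (s1.seq (s2.seq (s3.seq s4))).mono ?_
  rintro F F' ⟨F1, r1, F2, r2, F3, r3, r4⟩ t ht δ hδ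
  have v0 := hc.val hδ
  have v1 := hc.val1 hδ
  have vt := hc.valt hδ
  have v2 := hc.val2 hδ v1
  have v3 := hc.val2 hδ vt
  have e1 : ∀ k, d1 L tg δ (L.fp k) = δ (L.fp k) := fun k =>
    hc.d1_ne fun a ha => by unfold Lay.fp; omega
  have e2 : ∀ k, L.tog tg δ (L.fp k) = δ (L.fp k) := fun k =>
    hc.tog_ne' fun a ha => by unfold Lay.fp; omega
  have e3 : ∀ d, ∀ f < L.nf, (∀ y < ν.m ^ i, f ≠ L.fp y) → d2 L tg δ d f = d f :=
    fun d f _ hf => upd_ne fun y hy e => hf y (lt_of_lt_of_le hy hn) e.symm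
  refine (r4 t ht _ _ v3 vt (fun f hf h4 => (e3 _ f hf h4).symm) fun c _ => ?_).trans
    ((r3 t ht _ _ v2 v3 (fun f h4 _ => ?_) ?_).trans
    ((r2 t ht _ _ v1 v2 (e3 _) fun c _ => ?_).trans (r1 t ht _ _ v0 v1 (fun f h4 _ => ?_) ?_)))
  · obtain ⟨Q, hQ⟩ : ∃ Q, L.R ^ ν.m ^ (i / 2) = Q + 1 :=
      Nat.exists_eq_succ_of_ne_zero (pow_ne_zero _ (by have := hL.one; omega))
    unfold vl G4
    rw [← sum_add_distrib]
    refine Nat.ModEq.sum fun k _ => ?_
    simp only [d2_fp, e2]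
    split_ifs with hy
    · obtain ⟨a, h4, h5⟩ := hc.ex hy
      have h6 := hc.a_le hδ hy
      have h7 := hc.zz_le hy v0
      rw [d2_lo (by omega), hc.tog_at hy, hc.zz_congr hy (d := d2 L tg δ (L.tog tg δ)) (d' := δ)
        fun c h8 h9 => by rw [d2_lo (by omega), hc.tog_ne' fun a ha => by omega], hQ,
        Nat.add_sub_cancel]
      exact ar4 _ _ _ h6 h7
    · rw [add_zero]
  · unfold Lay.fb at h4
    unfold d2 upd
    split_ifs
    · rfl
    · rw [hc.d1_ne fun a ha => by omega, hc.tog_ne' fun a ha => by omega]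
  · have h4 : ∀ d, lo L (d2 L tg δ d) (L.fb km + 2) = lo L d (L.fb km + 2) := fun d =>
      sum_congr rfl fun f hf => by
        have := mem_range.1 hf
        rw [d2_lo (by unfold Lay.fb at this; omega)]
    have h5 : ∀ y ∈ range tg.length, zz L tg (d2 L tg δ (d1 L tg δ)) y = zz L tg δ y :=
      fun y hy => hc.zz_congr (mem_range.1 hy) fun c h8 h9 => by
        rw [d2_lo (by omega), hc.d1_ne fun a ha => by omega]
    obtain ⟨Q, hQ⟩ : ∃ Q, L.B (L.fb km + 2) = Q + 1 :=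
      Nat.exists_eq_succ_of_ne_zero (B_pos hL _).ne'
    rw [h4, h4, hc.pev_xe3 v2, sum_congr rfl fun y hy => by rw [h5 y hy],
      sum_congr (s₂ := range tg.length) (f := fun y => zz L tg (d2 L tg δ (d1 L tg δ)) y *
        d2 L tg δ (d1 L tg δ) (L.fp y) * (L.B (pb L tg y) * 2)) rfl fun y hy => by
        rw [h5 y hy, d2_fp, if_pos (mem_range.1 hy)], ← add_assoc, ← hc.lot hδ, hQ,
      Nat.add_sub_cancel, add_assoc, ← one_add_mul, add_comm 1 Q]
    exact (Nat.add_mul_mod_self_left ..).symm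
  · unfold vl G2
    rw [← sum_add_distrib]
    refine Nat.ModEq.sum fun k _ => ?_
    simp only [d2_fp, e1]
    split_ifs with hy
    · obtain ⟨a, h4, h5⟩ := hc.ex hy
      rw [hc.d1_ne fun a ha => by omega, add_mul]
    · rw [add_zero]
  · unfold Lay.fb at h4
    exact hc.d1_ne fun a ha => by omega
  · rw [hc.lo1, hc.pev_xe1 v0]

end Vale.Agent.P338Z
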