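import Vale.Agent.P338Z.Gen.LayLem

/-!
P338 power saving: digits, rotations of the lower part of the address, updates.
-/

namespace Vale.Agent.P338Z

open Vale.Agent.P338.R3.H968 Vale.Agent.P338.R3.H898
open Finset

namespace XorA

/-! ### digits -/

variable (L : Lay)

theorem B_succ (f : ℕ) : L.B (f + 1) = L.B f * L.q f := by
  unfold Lay.B Lay.q
  rcases Nat.lt_or_ge f L.2.2.1.length with h | h
  · rw [List.prod_take_succ _ _ h, List.getD_eq_getElem _ _ h]
  · rw [List.take_of_length_le h, List.take_of_length_le (by omega), List.getD_eq_default _ _ h,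
      mul_one]

theorem B_dvd {f g : ℕ} (h : f ≤ g) : L.B f ∣ L.B g := by
  induction g, h using Nat.le_induction with
  | base => exact dvd_rfl
  | succ g _ ih => rw [B_succ]; exact ih.mul_right _

/-- the lower part of the address -/
def lo (δ : ℕ → ℕ) (n : ℕ) : ℕ := ∑ f ∈ range n, δ f * L.B f

/-- the upper part of the address -/
def hi (t : ℕ) (δ : ℕ → ℕ) (n : ℕ) : ℕ := t * L.N + ∑ f ∈ Ico n L.nf, δ f * L.B f

variable {L} {Δ : ℕ} {δ δ' : ℕ → ℕ}

theorem B_nf (h : L.Ok Δ) : L.B L.nf = L.N := by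
  unfold Lay.B Lay.N
  rw [List.take_of_length_le h.lq.le]

theorem B_pos (h : L.Ok Δ) (f : ℕ) : 0 < L.B f := by
  induction f with
  | zero => simp [Lay.B]
  | succ f ih => rw [B_succ]; exact Nat.mul_pos ih (lt_of_lt_of_le (h.pos f).1 (h.pos f).2)

theorem lo_lt {n : ℕ} (hδ : ∀ f < n, δ f < L.q f) : lo L δ n < L.B n := by
  induction n with
  | zero => simp [lo, Lay.B]
  | succ n ih =>
    have h1 := ih fun f hf => hδ f (by omega)
    have h2 : (δ n + 1) * L.B n ≤ L.q n * L.B n := Nat.mul_le_mul_right _ (hδ n (by omega))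
    unfold lo at h1 ⊢
    rw [sum_range_succ, B_succ]
    nlinarith

theorem ad_eq (t : ℕ) (δ : ℕ → ℕ) {n : ℕ} (hn : n ≤ L.nf) : L.ad t δ = hi L t δ n + lo L δ n := by
  unfold Lay.ad hi lo
  rw [← sum_range_add_sum_Ico _ hn]
  ring

theorem hi_dvd (h : L.Ok Δ) (t : ℕ) (δ : ℕ → ℕ) {n : ℕ} (hn : n ≤ L.nf) : L.B n ∣ hi L t δ n :=
  dvd_add (Dvd.dvd.mul_left (B_nf h ▸ B_dvd L hn) _)
    (dvd_sum fun _ hf => (B_dvd L (mem_Ico.1 hf).1).mul_left _)

theorem ad_lt (h : L.Ok Δ) (hδ : ∀ f < L.nf, δ f < L.q f) {t T : ℕ} (ht : t < T) :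
    L.ad t δ < T * L.N := by
  have h1 := lo_lt hδ
  rw [B_nf h] at h1
  have h2 : (t + 1) * L.N ≤ T * L.N := Nat.mul_le_mul_right _ ht
  unfold lo at h1
  unfold Lay.ad
  nlinarith

theorem fev_ad (h : L.Ok Δ) (hδ : ∀ f < L.nf, δ f < L.q f) (t : ℕ) {f : ℕ} (hf : f < L.nf) :
    fev (fl (L.B f) (L.q f)) (L.ad t δ) = δ f := by
  obtain ⟨k, hk⟩ := hi_dvd h t δ (n := f + 1) hf
  have h1 : lo L δ (f + 1) = lo L δ f + δ f * L.B f := sum_range_succ _ _
  have h2 := lo_lt (L := L) (δ := δ) (n := f) fun g hg => hδ g (by omega)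
  rw [fev_fl, ad_eq t δ (n := f + 1) hf, hk, h1, B_succ,
    show L.B f * L.q f * k + (lo L δ f + δ f * L.B f) = lo L δ f + L.B f * (δ f + L.q f * k) by
      ring, Nat.add_mul_div_left _ _ (B_pos h f), Nat.div_eq_of_lt h2, zero_add,
    Nat.add_mul_mod_self_left, Nat.mod_eq_of_lt (hδ f hf)]

/-! ### polynomials -/

theorem pev_congr {e : Pl} {u v : ℕ} (h : ∀ t ∈ e, ∀ φ ∈ t.2, fev φ u = fev φ v) :
    pev e u = pev e v := by
  unfold pev
  congr 1
  refine List.map_congr_left fun t ht => ?_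
  rw [List.map_congr_left (h t ht)]

theorem pev_append (e e' : Pl) (u : ℕ) : pev (e ++ e') u = pev e u + pev e' u := by
  simp [pev]

theorem pev_psm (c : ℕ) (e : Pl) (u : ℕ) : pev (psm c e) u = c * pev e u := by
  induction e with
  | nil => simp [pev, psm]
  | cons a e ih =>
    simp only [pev, psm, List.map_cons, List.sum_cons] at ih ⊢
    rw [ih]
    ring

theorem pev_flat (n : ℕ) (p : ℕ → Prop) [DecidablePred p] (φ : ℕ → Pl) (u : ℕ) :
    pev (((List.range n).filter fun y => decide (p y)).flatMap φ) u =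
      ∑ y ∈ range n, if p y then pev (φ y) u else 0 := by
  induction n with
  | zero => simp [pev]
  | succ n ih =>
    rw [List.range_succ, List.filter_append, List.flatMap_append, pev_append, ih, sum_range_succ]
    by_cases h : p n <;> simp [h, pev]

theorem pev_map (n : ℕ) (φ : ℕ → ℕ × List Fl) (u : ℕ) :
    pev ((List.range n).map φ) u =
      ∑ y ∈ range n, (φ y).1 * ((φ y).2.map fun f => fev f u).prod := by
  induction n with
  | zero => simp [pev]
  | succ n ih =>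
    rw [List.range_succ, List.map_append, pev_append, ih, sum_range_succ]
    simp [pev]

theorem sum_grp {per : ℕ} (hp : 0 < per) (n c : ℕ) (φ : ℕ → ℕ → ℕ) :
    (∑ y ∈ range n, if y / per = c then φ y (y % per) else 0) =
      ∑ k ∈ range per, if c * per + k < n then φ (c * per + k) k else 0 := by
  rw [← sum_filter, ← sum_filter]
  refine sum_nbij' (fun y => y % per) (fun k => c * per + k) ?_ ?_ ?_ ?_ ?_
  · intro y hy
    simp only [mem_filter, mem_range] at hy ⊢
    refine ⟨Nat.mod_lt _ hp, ?_⟩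
    rw [← hy.2, Nat.div_add_mod']
    exact hy.1
  · intro k hk
    simp only [mem_filter, mem_range] at hk ⊢
    refine ⟨hk.2, ?_⟩
    rw [add_comm, Nat.add_mul_div_right _ _ hp, Nat.div_eq_of_lt hk.1, zero_add]
  · intro y hy
    simp only [mem_filter, mem_range] at hy
    rw [← hy.2, Nat.div_add_mod']
  · intro k hk
    simp only [mem_filter, mem_range] at hk
    rw [add_comm, Nat.add_mul_mod_self_right, Nat.mod_eq_of_lt hk.1]
  · intro y hy
    simp only [mem_filter, mem_range] at hy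
    rw [← hy.2, Nat.div_add_mod']

/-! ### rotation of the fields below `n` -/

theorem rot_lo (hR : ROT) (P : CPar) (h : L.Ok Δ) {n : ℕ} (hn : n ≤ L.nf) (T : ℕ) (e : Pl)
    (he : ∀ t ∈ e, ∀ φ ∈ t.2, ∃ f m, n ≤ f ∧ φ = fl (L.B f) m) :
    Blk P (rotL (T * L.N) 1 (L.B n) e fz) (T * L.N) fun F F' => ∀ t < T, ∀ δ δ' : ℕ → ℕ,
      (∀ f < L.nf, δ f < L.q f) → (∀ f < L.nf, δ' f < L.q f) →
      (∀ f, n ≤ f → f < L.nf → δ' f = δ f) →
      lo L δ' n ≡ lo L δ n + pev e (L.ad t δ) [MOD L.B n] → F' (L.ad t δ') = F (L.ad t δ) := by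
  have hQ := B_pos h n
  obtain ⟨M, hM⟩ : L.B n ∣ L.N := B_nf h ▸ B_dvd L hn
  have h1 : ∀ o x, x < L.B n → pev e (o * L.B n + x) = pev e (o * L.B n) := by
    intro o x hx
    refine pev_congr fun t ht φ hφ => ?_
    obtain ⟨f, m, h2, rfl⟩ := he t ht φ hφ
    obtain ⟨k, hk⟩ := B_dvd L h2
    rw [fev_fl, fev_fl, hk, ← Nat.div_div_eq_div_mul, ← Nat.div_div_eq_div_mul, add_comm,
      Nat.add_mul_div_right _ _ hQ, Nat.div_eq_of_lt hx, zero_add, Nat.mul_div_cancel _ hQ]
  have h2 := hR P (T * M) (L.B n) 1 e fz (fun o _ => pev e (o * L.B n)) (fun _ _ => 0) hQ one_pos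
    (fun o _ x hx i hi => by
      obtain rfl : i = 0 := by omega
      rw [mul_one, add_zero, h1 o x hx]
      exact ⟨rfl, by simp [fev, fz, Nat.mod_one], by omega⟩)
    (fun _ _ _ _ _ _ _ => rfl)
  rw [show T * M * (L.B n * 1) = T * L.N by rw [hM]; ring] at h2
  refine h2.mono fun F F' hF t ht δ δ' hδ hδ' h3 h4 => ?_
  obtain ⟨o, ho⟩ := hi_dvd h t δ hn
  have h5 : hi L t δ' n = hi L t δ n := by
    unfold hi
    congr 1
    exact sum_congr rfl fun f hf => by rw [h3 f (mem_Ico.1 hf).1 (mem_Ico.1 hf).2]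
  have h6 := lo_lt (L := L) (δ := δ) (n := n) fun g hg => hδ g (by omega)
  have h7 := lo_lt (L := L) (δ := δ') (n := n) fun g hg => hδ' g (by omega)
  have h8 : L.ad t δ = o * L.B n + lo L δ n := by rw [ad_eq t δ hn, ho, mul_comm]
  have h9 : o < T * M := by
    have h10 := ad_lt h hδ ht
    rw [h8, hM, show T * (L.B n * M) = T * M * L.B n by ring] at h10
    exact Nat.lt_of_mul_lt_mul_right (lt_of_le_of_lt (Nat.le_add_right _ _) h10)
  have h10 := hF o h9 _ h6 0 one_pos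
  rw [h8, h1 o _ h6] at h4
  rw [← h4, Nat.mod_eq_of_lt h7] at h10
  simp only [mul_one, add_zero] at h10
  rw [h8, ← h10, ad_eq t δ' hn, h5, ho, mul_comm]

/-! ### updates -/

open Classical in
/-- new values `v y` at the places `p y`, `y < n` -/
noncomputable def upd (n : ℕ) (p v δ : ℕ → ℕ) (f : ℕ) : ℕ :=
  if h : ∃ y < n, p y = f then v h.choose else δ f

variable {n : ℕ} {p v : ℕ → ℕ}

theorem upd_ne {f : ℕ} (h : ∀ y < n, p y ≠ f) : upd n p v δ f = δ f :=
  dif_neg fun ⟨y, hy, e⟩ => h y hy e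

theorem upd_at (hp : ∀ y < n, ∀ y' < n, p y = p y' → y = y') {y : ℕ} (hy : y < n) :
    upd n p v δ (p y) = v y := by
  have h : ∃ y' < n, p y' = p y := ⟨y, hy, rfl⟩
  unfold upd
  rw [dif_pos h, hp _ h.choose_spec.1 y hy h.choose_spec.2]

theorem upd_lt {q : ℕ → ℕ} {f : ℕ} (hδ : δ f < q f) (hv : ∀ y < n, v y < q (p y)) :
    upd n p v δ f < q f := by
  unfold upd
  split_ifs with h
  · exact lt_of_lt_of_eq (hv _ h.choose_spec.1) (congrArg q h.choose_spec.2)
  · exact hδ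

theorem lo_chg (hp : ∀ y < n, ∀ y' < n, p y = p y' → y = y') {m : ℕ} (hm : ∀ y < n, p y < m)
    (h : ∀ f < m, (∀ y < n, p y ≠ f) → δ' f = δ f) :
    lo L δ' m + ∑ y ∈ range n, δ (p y) * L.B (p y) =
      lo L δ m + ∑ y ∈ range n, δ' (p y) * L.B (p y) := by
  have h1 : (range n).image p ⊆ range m := fun f hf => by
    obtain ⟨y, hy, rfl⟩ := mem_image.1 hf
    exact mem_range.2 (hm y (mem_range.1 hy))
  have h2 : Set.InjOn p (range n : Finset ℕ) := fun y hy y' hy' e =>
    hp y (mem_range.1 hy) y' (mem_range.1 hy') e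
  have h3 : ∑ f ∈ range m \ (range n).image p, δ' f * L.B f =
      ∑ f ∈ range m \ (range n).image p, δ f * L.B f := sum_congr rfl fun f hf => by
    rw [h f (mem_range.1 (mem_sdiff.1 hf).1) fun y hy e =>
      (mem_sdiff.1 hf).2 (mem_image.2 ⟨y, mem_range.2 hy, e⟩)]
  unfold lo
  rw [← sum_sdiff h1, ← sum_sdiff h1, sum_image h2, sum_image h2, h3]
  ring

theorem lg_pow {m : ℕ} (hm : 2 ≤ m) (i : ℕ) : lg m (m ^ i) = i := by
  have h1 : i ≤ m ^ i := (Nat.lt_pow_self hm).le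
  obtain ⟨j, hj⟩ := Nat.exists_eq_add_of_le h1
  unfold lg
  have h2 : ∀ k, decide (m ^ (k + 1) ≤ m ^ i) = decide (k < i) := fun k =>
    decide_eq_decide.2 (Nat.pow_le_pow_iff_right hm)
  simp only [h2]
  rw [hj, List.range_add, List.filter_append, List.filter_eq_self.2, List.filter_eq_nil_iff.2]
  · simp
  · intro a ha
    obtain ⟨b, -, rfl⟩ := List.mem_map.1 ha
    simp
  · intro a ha
    simpa using ha

end XorA

end Vale.Agent.P338Z
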